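import Vale.Agent.P148.R2.H565.Mc

/-!
# The times of a closed ring of tubes; independence of the feet
-/

namespace Vale.Agent.P148.R2.H565

open Function Vale.Agent.P148.R2.H258 Vale.Agent.P148.R2.H871

variable {V D : Type*} {T : Tri V D} {σ : V → Bool}
variable {c : Bool} {K : ℕ} {d : ℕ → D} {P Q X : ℕ → Set V} {ω : V}

/-- Periodic extension of the passing times. -/
def ext (K L : ℕ) (t : ℕ → ℕ) (k : ℕ) : ℕ := t (k % K) + (k / K) * L

theorem ext_succ {K L : ℕ} (hK : 0 < K) {t : ℕ → ℕ} (h0 : t 0 = 0) (hL : t K = L) (k : ℕ) :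
    ext K L t (k + 1) = t (k % K + 1) + (k / K) * L := by
  unfold ext
  have h1 := Nat.div_add_mod k K
  have h2 := Nat.mod_lt k hK
  rcases Nat.lt_or_ge (k % K + 1) K with h3 | h3
  · have h4 : (k + 1) / K = k / K ∧ (k + 1) % K = k % K + 1 := by
      rw [Nat.div_mod_unique hK]
      exact ⟨by omega, h3⟩
    rw [h4.1, h4.2]
  · have h5 : k % K + 1 = K := by omega
    have h4 : (k + 1) / K = k / K + 1 ∧ (k + 1) % K = 0 := by
      rw [Nat.div_mod_unique hK]
      refine ⟨?_, hK⟩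
      rw [Nat.mul_add, Nat.mul_one]; omega
    rw [h4.1, h4.2, h5, h0, hL]
    ring

theorem ext_add {K L : ℕ} (hK : 0 < K) (t : ℕ → ℕ) (k : ℕ) :
    ext K L t (k + K) = ext K L t k + L := by
  unfold ext
  rw [Nat.add_mod_right, Nat.add_div_right k hK]
  ring

theorem per_of_add {α : Type*} {f : ℕ → α} {K : ℕ} (hf : ∀ k, f (k + K) = f k) (k : ℕ) :
    f (k % K) = f k := by
  conv_rhs => rw [← Nat.mod_add_div k K]
  have : ∀ m, f (k % K + K * m) = f (k % K) := by
    intro m
    induction m with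
    | zero => rfl
    | succ m ih => rw [Nat.mul_succ, ← Nat.add_assoc, hf, ih]
  exact (this _).symm

theorem sa_add_mul_per (o : D) (i m : ℕ) :
    sa T σ o (i + m * H871.per T σ o) = sa T σ o i := by
  induction m with
  | zero => simp
  | succ m ih => rw [Nat.succ_mul, ← Nat.add_assoc, sa_add_per, ih]

theorem iter_mul_per (o : D) (i m : ℕ) :
    (T.st σ)^[i + m * H871.per T σ o] o = (T.st σ)^[i] o := by
  induction m with
  | zero => simp
  | succ m ih => rw [Nat.succ_mul, ← Nat.add_assoc, iter_per, ih]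

/-- **The times of the closed ring.** -/
theorem CRing.exists_loopT [Finite D] (hPl : T.Planar) (h : CRing T σ c K d P Q X ω)
    (hX : ∀ k, X (k + K) = X k) {g₀ : D} (hg : T.src g₀ = ω)
    (hor : Pos T σ (X 0) g₀ (d 0) (d 1)) :
    ∃ t, LoopT T σ K (d 0) t ∧ (∀ k, (T.st σ)^[t k] (d 0) = d k) ∧
      ∀ k n, t k ≤ n → n < t (k + 1) → T.src ((T.st σ)^[n] (d 0)) ∈ X k ∧
        T.tgt ((T.st σ)^[n] (d 0)) ∈ X k ∧ T.apex ((T.st σ)^[n] (d 0)) ∈ X k := by
  obtain ⟨p, q, N, t, h1, h2, h3, h4, h5, h6, h7⟩ := h.loop hPl hg hor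
  have hK : 0 < K := by have := h.four; omega
  have hK4 := h.four
  have hdec : ∀ k n, ext K (H871.per T σ (d 0)) t k ≤ n →
      n ≤ ext K (H871.per T σ (d 0)) t (k + 1) →
      ∃ n', n = n' + (k / K) * H871.per T σ (d 0) ∧ t (k % K) ≤ n' ∧ n' ≤ t (k % K + 1) := by
    intro k n g1 g2
    rw [ext_succ hK h2.t0 h3] at g2
    unfold ext at g1
    exact ⟨n - (k / K) * H871.per T σ (d 0), by omega, by omega, by omega⟩
  refine ⟨ext K (H871.per T σ (d 0)) t, ⟨?_, ?_, ?_, ?_, ?_⟩, ?_, ?_⟩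
  · exact (h1.tube 0 hK).bi
  · unfold ext
    rw [Nat.zero_mod, Nat.zero_div, h2.t0, zero_mul, add_zero]
  · intro k
    rw [ext_succ hK h2.t0 h3]
    unfold ext
    have := h2.inc (k % K) (Nat.mod_lt _ hK)
    omega
  · intro k
    exact ext_add hK t k
  · intro j k i i' a1 a2 a3 a4 a5 a6 he
    obtain ⟨n, rfl, b1, b2⟩ := hdec j i a3 a4
    obtain ⟨n', rfl, b3, b4⟩ := hdec k i' a5 a6
    rw [sa_add_mul_per, sa_add_mul_per] at he
    have e1 := Nat.div_add_mod j K
    have e2 := Nat.div_add_mod k K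
    have e3 := Nat.mod_lt j hK
    have e4 := Nat.mod_lt k hK
    have e5 : j / K ≤ k / K := Nat.div_le_div_right (by omega)
    have e6 : k / K ≤ j / K + 1 := by
      have : k / K ≤ (j + K) / K := Nat.div_le_div_right (by omega)
      rwa [Nat.add_div_right j hK] at this
    rcases Nat.lt_or_ge (j / K) (k / K) with e7 | e7
    · -- the period changes
      have e8 : k / K = j / K + 1 := by omega
      rw [e8, Nat.mul_add, Nat.mul_one] at e2
      have e9 : k % K + 2 ≤ j % K := by omega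
      have e10 : j % K + 2 ≤ k % K + K := by omega
      obtain ⟨c1, c2⟩ := h1.mem_pv h2 (show k % K < j % K by omega) e3 b3 b4 b1 b2 he.symm
      exact h.disj2 _ _ e9 e10 _ (h6 _ e4 c1) (h6 _ e3 c2)
    · have e8 : k / K = j / K := by omega
      rw [e8] at e2
      obtain ⟨c1, c2⟩ := h1.mem_pv h2 (show j % K < k % K by omega) e4 b1 b2 b3 b4 he
      exact h.disj2 _ _ (by omega) (by omega) _ (h6 _ e3 c1) (h6 _ e4 c2)
  · intro k
    unfold ext
    rw [iter_mul_per, h2.hit _ (Nat.mod_lt _ hK).le]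
    exact per_of_add h.dper k
  · intro k n a1 a2
    have a2' : n < t (k % K + 1) + (k / K) * H871.per T σ (d 0) := by
      rwa [ext_succ hK h2.t0 h3] at a2
    obtain ⟨n', rfl, b1, -⟩ := hdec k n a1 a2.le
    have hk := Nat.mod_lt k hK
    have := h1.seen h2 hk (h.out _) (h.conn _) (h7 _ hk) hg (h4 _ hk) (h5 _ hk) b1
      (show n' < t (k % K + 1) by omega)
    rw [iter_mul_per]
    rwa [per_of_add hX k] at this

/-- The first time at which the strand of `a` passes `b`, if it is less than the period, is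
unique. -/
theorem iter_unique {a b : D} {m n : ℕ} (hm : m < H871.per T σ a) (hn : n < H871.per T σ a)
    (h1 : (T.st σ)^[m] a = b) (h2 : (T.st σ)^[n] a = b) : m = n := by
  have h3 : (T.st σ)^[m] a = (T.st σ)^[n] a := by rw [h1, h2]
  exact (iterate_eq_iterate_iff_of_lt_minimalPeriod hm hn).1 h3

end Vale.Agent.P148.R2.H565
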