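import Vale.Agent.P148.R2.H565.Loc10

/-!
# From explored hubs and crossing walks to comb data
-/

namespace Vale.Agent.P148.R2.H565

open Function Vale.Agent.P148.R2.H258 Vale.Agent.P148.R2.H871

variable {V D : Type*} {T : Tri V D} {σ : V → Bool}

/-- The explored hub of a core: the core and its neighbours. -/
def hb (T : Tri V D) (E : Set V) : Set V := {v | v ∈ E ∨ ∃ g, T.src g = v ∧ T.tgt g ∈ E}

theorem rim_sub_hb {E : Set V} {ω : V} : rim T E ω ⊆ hb T E := by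
  rintro v ⟨-, d, h1, h2⟩
  exact Or.inr ⟨d, h1, h2⟩

/-- A vertex off a box with connected complement is far from everything in the box. -/
theorem far_of_box {H E : Set V} {ω v : V} (hω : ω ∉ H) (hE : E ⊆ H)
    (hc : ∀ x ∉ H, ∃ l, T.Walk x ω l ∧ ∀ g ∈ l, T.src g ∉ H) (hv : v ∉ H) : Far T E ω v := by
  obtain ⟨l, h1, h2⟩ := hc v hv
  have key : ∀ {u w : V} {l : List D}, T.Walk u w l → w ∉ H → (∀ g ∈ l, T.src g ∉ H) →
      (∀ g ∈ l, T.tgt g ∉ H) := by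
    intro u w l hl hw hs
    induction hl with
    | nil v => intro g hg; simp at hg
    | cons a w l hl ih =>
      intro g hg
      rcases List.mem_cons.1 hg with rfl | hg
      · rcases hl.casesOn' with ⟨_, h4⟩ | ⟨d', l'', h4, h5, _⟩
        · rw [h4]; exact hw
        · rw [← h5]; exact hs d' (by rw [h4]; simp)
      · exact ih hw (fun g hg => hs g (List.mem_cons_of_mem _ hg)) g hg
  refine ⟨fun h => hv (hE h), l, h1, fun g hg => ⟨fun h => h2 g hg (hE h),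
    fun h => key h1 hω h2 g hg (hE h)⟩⟩

theorem walk_suffix_tgt {l l' : List D} (h : l' <:+ l) {g : D} (hg : g ∈ l') : g ∈ l := h.subset hg

/-- **Rails.** A walk from one core to another one contains a fresh walk from rim to rim. -/
theorem exists_rail {E E' H H' : Set V} {ω : V} (hω : ω ∉ H) (hω' : ω ∉ H')
    (hEH : hb T E ⊆ H) (hEH' : hb T E' ⊆ H')
    (hc : ∀ x ∉ H, ∃ l, T.Walk x ω l ∧ ∀ g ∈ l, T.src g ∉ H)
    (hc' : ∀ x ∉ H', ∃ l, T.Walk x ω l ∧ ∀ g ∈ l, T.src g ∉ H')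
    (hdis : ∀ x, x ∈ H → x ∉ H') {u v : V} {l : List D} (hl : T.Walk u v l) (hu : u ∈ E)
    (hv : v ∈ E') : ∃ x ∈ rim T E ω, ∃ y ∈ rim T E' ω, ∃ l', T.Walk x y l' ∧ l' ≠ [] ∧
      ∀ g ∈ l', T.tgt g = y ∨ ((∃ g' ∈ l, T.tgt g' = T.tgt g) ∧ T.tgt g ∉ hb T E ∧
        T.tgt g ∉ hb T E') := by
  have hE : E ⊆ H := fun z hz => hEH (Or.inl hz)
  have hE' : E' ⊆ H' := fun z hz => hEH' (Or.inl hz)
  have hvF : Far T E ω v := far_of_box hω hE hc (fun h => hdis v h (hE' hv))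
  obtain ⟨x, hx, l1, h1, h2, h3⟩ := exit_rim hl hu hvF
  have hxH : x ∈ H := hEH (rim_sub_hb hx)
  have hxF : Far T E' ω x := far_of_box hω' hE' hc' (hdis x hxH)
  have h2r := h2.reverse
  obtain ⟨y, hy, l2, h4, h5, h6⟩ := exit_rim h2r hv hxF
  refine ⟨x, hx, y, hy, (l2.map T.rev).reverse, h5.reverse, ?_, ?_⟩
  · intro he
    have hl2 : l2 = [] := by simpa using he
    rw [hl2] at h5
    rcases h5.casesOn' with ⟨_, h7⟩ | ⟨_, _, h7, _⟩
    · exact hdis x hxH (h7 ▸ hEH' (rim_sub_hb hy))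
    · simp at h7
  · intro g hg
    rw [List.mem_reverse, List.mem_map] at hg
    obtain ⟨g', hg', rfl⟩ := hg
    rw [T.tgt_rev]
    -- `src g'` is `y` or the target of a dart of `l2`
    rcases walk_src_mem h5 g' hg' with h7 | ⟨g2, hg2, h7⟩
    · left; exact h7
    right
    obtain ⟨f1, f2⟩ := h6 g2 hg2
    rw [h7] at f1 f2
    -- `g'` is in the reversal of `l1`
    have h8 : g' ∈ (l1.map T.rev).reverse := h4.subset hg'
    rw [List.mem_reverse, List.mem_map] at h8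
    obtain ⟨g3, hg3, h9⟩ := h8
    have h10 : T.src g' = T.tgt g3 := by rw [← h9, T.src_rev]
    obtain ⟨f3, f4⟩ := h3 g3 hg3
    rw [← h10] at f3 f4
    refine ⟨⟨g3, h1.subset hg3, h10.symm⟩, ?_, ?_⟩
    · rintro (h11 | ⟨a, h11, h12⟩)
      · exact f3.1 h11
      · exact f4 ⟨f3, a, h11, h12⟩
    · rintro (h11 | ⟨a, h11, h12⟩)
      · exact f1.1 h11
      · exact f2 ⟨f1, a, h11, h12⟩

/-- Hub data: cores `E k` (inner) and `E' k` (outer) in disjoint hub boxes `H k`, `H' k` inside the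
gate box `B k`; the neighbours of the inner core have colour `c`, those of the outer core `!c`;
crossing walks whose vertices off the two hubs have the right colour. -/
structure Hubs (T : Tri V D) (σ : V → Bool) (c : Bool) (K : ℕ) (E E' H H' B X : ℕ → Set V)
    (ω : V) : Prop where
  four : 4 ≤ K
  eper : ∀ k, E (k + K) = E k
  eper' : ∀ k, E' (k + K) = E' k
  bper : ∀ k, B (k + K) = B k
  xper : ∀ k, X (k + K) = X k
  con : ∀ k, WConn T (E k)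
  con' : ∀ k, WConn T (E' k)
  col : ∀ k, ∀ v ∈ hb T (E k), v ∉ E k → σ v = c
  col' : ∀ k, ∀ v ∈ hb T (E' k), v ∉ E' k → σ v = !c
  sub : ∀ k, hb T (E k) ⊆ H k
  sub' : ∀ k, hb T (E' k) ⊆ H' k
  subB : ∀ k, H k ⊆ B k
  subB' : ∀ k, H' k ⊆ B k
  dis : ∀ k, ∀ x, x ∈ H k → x ∉ H' k
  disB : ∀ k, ∀ x, x ∈ B k → x ∉ B (k + 1)
  outH : ∀ k, ω ∉ H k
  outH' : ∀ k, ω ∉ H' k
  connH : ∀ k, ∀ x ∉ H k, ∃ l, T.Walk x ω l ∧ ∀ g ∈ l, T.src g ∉ H k
  connH' : ∀ k, ∀ x ∉ H' k, ∃ l, T.Walk x ω l ∧ ∀ g ∈ l, T.src g ∉ H' k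
  low : ∀ k, ∃ u ∈ E k, ∃ v ∈ E (k + 1), ∃ l, T.Walk u v l ∧ ∀ g ∈ l, T.tgt g ∈ X k ∧
    (T.tgt g ∉ hb T (E k) → T.tgt g ∉ hb T (E (k + 1)) → σ (T.tgt g) = c)
  up : ∀ k, ∃ u ∈ E' k, ∃ v ∈ E' (k + 1), ∃ l, T.Walk u v l ∧ ∀ g ∈ l, T.tgt g ∈ X k ∧
    (T.tgt g ∉ hb T (E' k) → T.tgt g ∉ hb T (E' (k + 1)) → σ (T.tgt g) = !c)
  tooth : ∀ k, ∃ u ∈ E k, ∃ v ∈ E' k, ∃ l, T.Walk u v l ∧ ∀ g ∈ l, T.tgt g ∈ B k ∧
    (T.tgt g ∉ hb T (E k) → T.tgt g ∉ hb T (E' k) → σ (T.tgt g) = !c)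
  sub1 : ∀ k, B k ⊆ X k
  sub2 : ∀ k, B (k + 1) ⊆ X k
  disjX : ∀ j k, j + 2 ≤ k → k + 2 ≤ j + K → ∀ x, x ∈ X j → x ∉ X k
  out : ∀ k, ω ∉ X k
  conn : ∀ k, ∀ x ∉ X k, ∃ l, T.Walk x ω l ∧ ∀ g ∈ l, T.src g ∉ X k

section hubs

variable {c : Bool} {K : ℕ} {E E' H H' B X : ℕ → Set V} {ω : V}

theorem Hubs.colR (h : Hubs T σ c K E E' H H' B X ω) (k : ℕ) : ∀ v ∈ rim T (E k) ω, σ v = c :=
  fun v hv => h.col k v (rim_sub_hb hv) hv.1.1

theorem Hubs.colR' (h : Hubs T σ c K E E' H H' B X ω) (k : ℕ) :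
    ∀ v ∈ rim T (E' k) ω, σ v = !c :=
  fun v hv => h.col' k v (rim_sub_hb hv) hv.1.1

/-- Admissible feet of a gate: a dart from the inner rim to a vertex of colour `!c` which is joined
to the outer rim by vertices of colour `!c`, in the gate box. -/
def FootOK (T : Tri V D) (σ : V → Bool) (c : Bool) (E E' B : Set V) (ω : V) (d : D) : Prop :=
  T.src d ∈ rim T E ω ∧ σ (T.tgt d) = (!c) ∧ T.tgt d ∈ B ∧
    ∃ y ∈ rim T E' ω, ∃ l, T.Walk (T.tgt d) y l ∧ ∀ g ∈ l, σ (T.tgt g) = (!c) ∧ T.tgt g ∈ B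

/-- The foot of gate `k`: the first dart of the fresh part of the tooth. -/
theorem Hubs.exists_foot (h : Hubs T σ c K E E' H H' B X ω) (k : ℕ) :
    ∃ d, FootOK T σ c (E k) (E' k) (B k) ω d := by
  obtain ⟨u, hu, v, hv, l, hl, hlm⟩ := h.tooth k
  obtain ⟨x, hx, y, hy, l', h1, h2, h3⟩ := exists_rail (h.outH k) (h.outH' k) (h.sub k) (h.sub' k)
    (h.connH k) (h.connH' k) (h.dis k) hl hu hv
  have hcol : ∀ g ∈ l', σ (T.tgt g) = (!c) ∧ T.tgt g ∈ B k := by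
    intro g hg
    rcases h3 g hg with h4 | ⟨⟨g', hg', h5⟩, h6, h7⟩
    · rw [h4]
      exact ⟨h.colR' k y hy, h.subB' k (h.sub' k (rim_sub_hb hy))⟩
    · obtain ⟨h8, h9⟩ := hlm g' hg'
      rw [h5] at h8 h9
      exact ⟨h9 h6 h7, h8⟩
  rcases h1.casesOn' with ⟨h4, _⟩ | ⟨d, l'', h4, h5, h6⟩
  · exact absurd h4 h2
  · exact ⟨d, by rw [h5]; exact hx, (hcol d (by rw [h4]; simp)).1,
      (hcol d (by rw [h4]; simp)).2, y, hy, l'', h6,
      fun g hg => hcol g (by rw [h4]; exact List.mem_cons_of_mem _ hg)⟩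

/-- **Hub data and admissible feet give comb data.** -/
theorem Hubs.comb [Finite D] (hPl : T.Planar) (h : Hubs T σ c K E E' H H' B X ω) {d : ℕ → D}
    (hdp : ∀ k, d (k + K) = d k) (hd : ∀ k, FootOK T σ c (E k) (E' k) (B k) ω (d k)) :
    Comb T σ c K d (fun k => rim T (E k) ω) (fun k => rim T (E' k) ω) B X ω where
  four := h.four
  dper := hdp
  xper := h.xper
  rc k := rim_conn hPl (h.con k) ω
  rc' k := rim_conn hPl (h.con' k) ω
  colR := h.colR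
  colR' := h.colR'
  subR k v hv := h.subB k (h.sub k (rim_sub_hb hv))
  subR' k v hv := h.subB' k (h.sub' k (rim_sub_hb hv))
  low k := by
    obtain ⟨u, hu, v, hv, l, hl, hlm⟩ := h.low k
    obtain ⟨x, hx, y, hy, l', h1, -, h3⟩ := exists_rail (h.outH k) (h.outH (k + 1)) (h.sub k)
      (h.sub (k + 1)) (h.connH k) (h.connH (k + 1))
      (fun x hx hx' => h.disB k x (h.subB k hx) (h.subB (k + 1) hx')) hl hu hv
    refine ⟨x, hx, y, hy, l', h1, fun g hg => ?_⟩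
    rcases h3 g hg with h5 | ⟨⟨g', hg', h5⟩, h6, h7⟩
    · rw [h5]
      exact ⟨h.colR _ y hy, h.sub2 k (h.subB _ (h.sub _ (rim_sub_hb hy)))⟩
    · obtain ⟨h8, h9⟩ := hlm g' hg'
      rw [h5] at h8 h9
      exact ⟨h9 h6 h7, h8⟩
  up k := by
    obtain ⟨u, hu, v, hv, l, hl, hlm⟩ := h.up k
    obtain ⟨x, hx, y, hy, l', h1, -, h3⟩ := exists_rail (h.outH' k) (h.outH' (k + 1)) (h.sub' k)
      (h.sub' (k + 1)) (h.connH' k) (h.connH' (k + 1))
      (fun x hx hx' => h.disB k x (h.subB' k hx) (h.subB' (k + 1) hx')) hl hu hv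
    refine ⟨x, hx, y, hy, l', h1, fun g hg => ?_⟩
    rcases h3 g hg with h5 | ⟨⟨g', hg', h5⟩, h6, h7⟩
    · rw [h5]
      exact ⟨h.colR' _ y hy, h.sub2 k (h.subB' _ (h.sub' _ (rim_sub_hb hy)))⟩
    · obtain ⟨h8, h9⟩ := hlm g' hg'
      rw [h5] at h8 h9
      exact ⟨h9 h6 h7, h8⟩
  foot k := (hd k).1
  footc k := (hd k).2.1
  footB k := (hd k).2.2.1
  tooth k := (hd k).2.2.2
  sub1 := h.sub1
  sub2 := h.sub2
  disjX := h.disjX
  out := h.out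
  conn := h.conn

end hubs

end Vale.Agent.P148.R2.H565
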