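import Vale.Agent.P148.R2.H565.Loc9
import Vale.Agent.P148.R2.H565.Loc11
import Vale.Agent.P148.R2.H678.Link
import Vale.Agent.P148.R2.H995.CombGeo2
import Vale.Agent.P148.R2.H959.Far

/-!
# The comb ring on a finite Delaunay triangulation

Dictionary between sites and vertices; the comb events give hub data.
-/

open Set Relation Metric Function

namespace Vale.Agent.P148.R2.H565

open Vale.Agent.P148.R2.H258 Vale.Agent.P148.R2.H871
open Vale.Agent.P148.R2.N (ms nc gateC gbox cell csq ms_pos)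
open Vale.Agent.P148.R2.H592 (HullTri nbr nbr_symm ConnIn Fc idmap fib_id tail head vc
  connIn_ball)
open Vale.Agent.P148.R2.H959 (Jn src_tri tgt_tri apex_tri walk_of_jn escape)
open Vale.Agent.P148.R2.H678 (core hub pin pout sd CBox CCr InGood OutGood Tooth Rails inHub outHub
  hbox uo)
open Vale.Agent.P148.R2.H995 (start_mem end_mem pin_mod pout_mod hbox_pin_sub hbox_pout_sub
  tooth_sub rail_hbox_disj railin_hout_disj railout_hin_disj tooth_hbox_disj hboxes_disj hbox_disj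
  pin_ne_pout pin_ne_succ pout_ne_succ norm_uo)

section dict

variable {X : Set ℂ} {b : ZMod 3 → ℂ} (h : HullTri X b) (x₀ : X)

/-- The Delaunay triangulation with the sites as vertices. -/
noncomputable abbrev HT : Tri X (Fc X b × ZMod 3) := h.tri258 (idmap X x₀) (fib_id X x₀)

theorem idmap_val {z : ℂ} (hz : z ∈ X) : ((idmap X x₀ z : X) : ℂ) = z := by
  unfold idmap
  rw [dif_pos hz]

theorem idmap_coe (v : X) : idmap X x₀ v.1 = v := Subtype.ext (idmap_val x₀ v.2)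

theorem idmap_inj {x y : ℂ} (hx : x ∈ X) (hy : y ∈ X) (h : idmap X x₀ x = idmap X x₀ y) :
    x = y := by
  rw [← idmap_val x₀ hx, ← idmap_val x₀ hy, h]

theorem faith_id (Q : Set ℂ) : H184.Faith X Q (idmap X x₀) := fun _ hx _ _ hy he =>
  idmap_inj x₀ hx hy he

theorem HT_src (q : Fc X b × ZMod 3) : (((HT h x₀).src q : X) : ℂ) = tail q := by
  rw [src_tri, idmap_val x₀ (h.nbr_th q).1]

theorem HT_tgt (q : Fc X b × ZMod 3) : (((HT h x₀).tgt q : X) : ℂ) = head q := by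
  rw [tgt_tri, idmap_val x₀ (h.nbr_th q).2.1]

theorem HT_apex (q : Fc X b × ZMod 3) : (((HT h x₀).apex q : X) : ℂ) = vc q.1 q.2 := by
  have h3 := h.nbr_th (q.1, q.2 + 2)
  rw [HullTri.tail_next2, HullTri.head_next2] at h3
  rw [apex_tri, idmap_val x₀ h3.1]

theorem HT_planar : (HT h x₀).Planar := h.planar258 _ _

/-- The vertices in a set of the plane. -/
def vs (S : Set ℂ) : Set X := {v | v.1 ∈ S}

theorem mem_vs {S : Set ℂ} {v : X} : v ∈ vs S ↔ v.1 ∈ S := Iff.rfl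

/-- A dart from a neighbouring pair. -/
theorem HT_dart {x y : X} (hxy : nbr X x y) : ∃ q, (HT h x₀).src q = x ∧ (HT h x₀).tgt q = y := by
  refine ⟨h.dart hxy, Subtype.ext ?_, Subtype.ext ?_⟩
  · rw [HT_src, h.tail_dart]
  · rw [HT_tgt, h.head_dart]

theorem HT_nbr (q : Fc X b × ZMod 3) :
    nbr X (((HT h x₀).src q : X) : ℂ) (((HT h x₀).tgt q : X) : ℂ) := by
  rw [HT_src, HT_tgt]
  exact h.nbr_th q

/-- A path of sites gives a walk of darts. -/
theorem HT_walk {Y : Set ℂ} {x y : X} (hxy : Jn X Y x y) :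
    ∃ l, (HT h x₀).Walk x y l ∧ ∀ g ∈ l, (HT h x₀).src g ∈ vs Y ∧ (HT h x₀).tgt g ∈ vs Y := by
  obtain ⟨l, h1, h2⟩ := walk_of_jn h (idmap X x₀) (fib_id X x₀) hxy
  rw [idmap_coe, idmap_coe] at h1
  refine ⟨l, h1, fun g hg => ?_⟩
  rw [mem_vs, mem_vs, HT_src, HT_tgt]
  exact h2 g hg

/-- The walk of a path given as a sequence. -/
theorem HT_walk_seq {n : ℕ} {v : ℕ → ℂ} (hv : ∀ i < n, nbr X (v i) (v (i + 1)))
    (hX : ∀ i ≤ n, v i ∈ X) : ∃ l, (HT h x₀).Walk ⟨v 0, hX 0 (Nat.zero_le n)⟩ ⟨v n, hX n le_rfl⟩ l ∧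
      ∀ g ∈ l, ∃ i < n, (((HT h x₀).tgt g : X) : ℂ) = v (i + 1) := by
  induction n with
  | zero => exact ⟨[], Tri.Walk.nil _, fun g hg => by simp at hg⟩
  | succ n ih =>
    obtain ⟨l, h1, h2⟩ := ih (fun i hi => hv i (by omega)) (fun i hi => hX i (by omega))
    obtain ⟨q, hq1, hq2⟩ := HT_dart h x₀ (x := ⟨v n, hX n (by omega)⟩)
      (y := ⟨v (n + 1), hX (n + 1) le_rfl⟩) (hv n (by omega))
    have h3 := Tri.Walk.single (T := HT h x₀) q
    rw [hq1, hq2] at h3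
    refine ⟨l ++ [q], h1.append h3, fun g hg => ?_⟩
    rw [List.mem_append, List.mem_singleton] at hg
    rcases hg with hg | rfl
    · obtain ⟨i, hi, h4⟩ := h2 g hg
      exact ⟨i, by omega, h4⟩
    · exact ⟨n, by omega, by rw [hq2]⟩

/-- A connected set of sites. -/
theorem HT_wconn {S : Set ℂ} (hS : ConnIn X S) : WConn (HT h x₀) (vs S) := by
  intro x hx y hy
  exact HT_walk h x₀ (hS.2 x hx y hy)

/-- The neighbourhood of a set of sites. -/
theorem mem_hb {E : Set ℂ} {v : X} :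
    v ∈ hb (HT h x₀) (vs E) ↔ v.1 ∈ E ∨ ∃ u ∈ E, nbr X u v.1 := by
  constructor
  · rintro (h1 | ⟨g, rfl, h1⟩)
    · exact Or.inl h1
    · exact Or.inr ⟨_, h1, nbr_symm (HT_nbr h x₀ g)⟩
  · rintro (h1 | ⟨u, hu, h1⟩)
    · exact Or.inl h1
    · obtain ⟨g, h2, h3⟩ := HT_dart h x₀ (x := v) (y := ⟨u, h1.1⟩) (nbr_symm h1)
      exact Or.inr ⟨g, h2, by rw [h3]; exact hu⟩

theorem mem_hb_core {S C : Set ℂ} {v : X} :
    v ∈ hb (HT h x₀) (vs (core (nbr X) S C)) ↔ v.1 ∈ hub (nbr X) S C := mem_hb h x₀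

/-- Escape from an open convex set. -/
theorem HT_escape {K : Set ℂ} (hK : Convex ℝ K) (hKo : IsOpen K) (hb : ∀ j, b j ∉ K) :
    ∀ x ∉ (vs K : Set X), ∃ l, (HT h x₀).Walk x ⟨b 0, h.mem 0⟩ l ∧
      ∀ g ∈ l, (HT h x₀).src g ∉ (vs K : Set X) := by
  intro x hx
  obtain ⟨l, h1, h2⟩ := HT_walk h x₀ (y := ⟨b 0, h.mem 0⟩) (escape h hK hKo hb x.2 hx)
  exact ⟨l, h1, fun g hg => (h2 g hg).1.2⟩

end dict

/-! ### small squares -/

theorem convex_csq (z : ℂ) (r : ℝ) : Convex ℝ (csq z r) := by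
  have h1 : csq z r = Complex.re ⁻¹' Ioo (z.re - r) (z.re + r) ∩
      Complex.im ⁻¹' Ioo (z.im - r) (z.im + r) := by
    ext w
    simp only [csq, mem_ofPred_eq, mem_inter_iff, mem_preimage, mem_Ioo, abs_lt]
    constructor
    · rintro ⟨⟨h1, h2⟩, h3, h4⟩
      exact ⟨⟨by linarith, by linarith⟩, by linarith, by linarith⟩
    · rintro ⟨⟨h1, h2⟩, h3, h4⟩
      exact ⟨⟨by linarith, by linarith⟩, by linarith, by linarith⟩
  rw [h1]
  exact ((convex_Ioo _ _).linear_preimage Complex.reLm).inter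
    ((convex_Ioo _ _).linear_preimage Complex.imLm)

theorem isOpen_csq (z : ℂ) (r : ℝ) : IsOpen (csq z r) := by
  have h1 : csq z r = {w : ℂ | |w.re - z.re| < r} ∩ {w : ℂ | |w.im - z.im| < r} := rfl
  rw [h1]
  exact (isOpen_lt (by fun_prop) (by fun_prop)).inter (isOpen_lt (by fun_prop) (by fun_prop))

variable {M : ℕ}

theorem hbox_sub_csq (hM : 0 < M) (z : ℂ) : hbox M z ⊆ csq z (ms M / 16) := by
  intro w hw
  have h1 := ms_pos hM
  rw [H995.mem_hbox] at hw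
  exact ⟨by linarith [hw.1], by linarith [hw.2]⟩

/-- The turns. -/
theorem uo_cases (M k : ℕ) : uo M k = 1 ∨ uo M k = Complex.I ∨ uo M k = -1 ∨ uo M k = -Complex.I := by
  unfold uo
  generalize k / (2 * M + 1) = s
  have h4 : ∀ n : ℕ, (Complex.I) ^ (n + 4) = Complex.I ^ n := N.I_pow_add_four
  induction s using Nat.strong_induction_on with
  | _ s ih =>
    rcases Nat.lt_or_ge s 4 with h | h
    · interval_cases s
      · left; rw [pow_zero]
      · right; left; rw [pow_one]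
      · right; right; left; exact Complex.I_sq
      · right; right; right; exact Complex.I_pow_three
    · obtain ⟨n, rfl⟩ := Nat.exists_eq_add_of_le' h
      rw [h4]
      exact ih n (by omega)

theorem csq_disj (hM : 0 < M) (k : ℕ) {w : ℂ} (h1 : w ∈ csq (pin M k) (ms M / 16))
    (h2 : w ∈ csq (pout M k) (ms M / 16)) : False := by
  have h0 := ms_pos hM
  obtain ⟨a1, a2⟩ := h1
  obtain ⟨b1, b2⟩ := h2
  rw [abs_lt] at a1 a2 b1 b2
  unfold pin at a1 a2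
  unfold pout at b1 b2
  rcases uo_cases M k with h | h | h | h <;> rw [h] at a1 a2 b1 b2 <;>
    simp only [one_mul, neg_mul, Complex.sub_re, Complex.sub_im, Complex.add_re, Complex.add_im,
      Complex.ofReal_re, Complex.ofReal_im, Complex.mul_re, Complex.mul_im, Complex.I_re,
      Complex.I_im, Complex.neg_re, Complex.neg_im] at a1 a2 b1 b2 <;>
    linarith [a1.1, a1.2, a2.1, a2.2, b1.1, b1.2, b2.1, b2.2]

theorem csq_pin_sub (hM : 0 < M) (k : ℕ) : csq (pin M k) (ms M / 16) ⊆ gbox M k := by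
  have h0 := ms_pos hM
  rintro w ⟨a1, a2⟩
  rw [abs_lt] at a1 a2
  unfold pin at a1 a2
  unfold gbox
  rw [N.mem_csq, abs_lt, abs_lt]
  rcases uo_cases M k with h | h | h | h <;> rw [h] at a1 a2 <;>
    simp only [one_mul, neg_mul, Complex.sub_re, Complex.sub_im, Complex.add_re, Complex.add_im,
      Complex.ofReal_re, Complex.ofReal_im, Complex.mul_re, Complex.mul_im, Complex.I_re,
      Complex.I_im, Complex.neg_re, Complex.neg_im] at a1 a2 <;>
    refine ⟨⟨?_, ?_⟩, ?_, ?_⟩ <;> linarith [a1.1, a1.2, a2.1, a2.2]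

theorem csq_pout_sub (hM : 0 < M) (k : ℕ) : csq (pout M k) (ms M / 16) ⊆ gbox M k := by
  have h0 := ms_pos hM
  rintro w ⟨a1, a2⟩
  rw [abs_lt] at a1 a2
  unfold pout at a1 a2
  unfold gbox
  rw [N.mem_csq, abs_lt, abs_lt]
  rcases uo_cases M k with h | h | h | h <;> rw [h] at a1 a2 <;>
    simp only [one_mul, neg_mul, Complex.sub_re, Complex.sub_im, Complex.add_re, Complex.add_im,
      Complex.ofReal_re, Complex.ofReal_im, Complex.mul_re, Complex.mul_im, Complex.I_re,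
      Complex.I_im, Complex.neg_re, Complex.neg_im] at a1 a2 <;>
    refine ⟨⟨?_, ?_⟩, ?_, ?_⟩ <;> linarith [a1.1, a1.2, a2.1, a2.2]

/-! ### the instance -/

/-- Regions of the tubes. -/
structure Regs (M : ℕ) (R : ℕ → Set ℂ) : Prop where
  per : ∀ k, R (k + nc M) = R k
  conv : ∀ k, Convex ℝ (R k)
  opn : ∀ k, IsOpen (R k)
  g1 : ∀ k, gbox M k ⊆ R k
  g2 : ∀ k, gbox M (k + 1) ⊆ R k
  lo : ∀ k, CBox M (pin M k) (pin M (k + 1)) ⊆ R k
  up : ∀ k, CBox M (pout M k) (pout M (k + 1)) ⊆ R k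
  disj : ∀ j k, j + 2 ≤ k → k + 2 ≤ j + nc M → Disjoint (R j) (R k)

/-- The comb events of all gates: `(Bl₁, Wh₁)` are the colours of the hubs, `(Bl₂, Wh₂)` those of
teeth and rails, and `s` is the composite colouring (`true` = black). -/
structure CombOK (M : ℕ) (X Bl₁ Wh₁ Bl₂ Wh₂ : Set ℂ) (s : ℂ → Bool) : Prop where
  b2 : Bl₂ ⊆ X
  w2 : Wh₂ ⊆ X
  inG : ∀ k < nc M, InGood M X Wh₁ k
  outG : ∀ k < nc M, OutGood M X Bl₁ k
  tooth : ∀ k < nc M, Tooth M X Wh₂ k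
  rails : ∀ k < nc M, Rails M X Bl₂ Wh₂ k
  hin : ∀ k < nc M, ∀ z ∈ inHub M X Wh₁ k, z ∉ Wh₁ → s z = true
  hout : ∀ k < nc M, ∀ z ∈ outHub M X Bl₁ k, z ∉ Bl₁ → s z = false
  off2 : ∀ z ∈ Bl₂, (∀ k < nc M, z ∉ inHub M X Wh₁ k ∧ z ∉ outHub M X Bl₁ k) → s z = true
  off2' : ∀ z ∈ Wh₂, (∀ k < nc M, z ∉ inHub M X Wh₁ k ∧ z ∉ outHub M X Bl₁ k) → s z = false

theorem nc_pos (M : ℕ) : 0 < nc M := by unfold nc; omega

theorem pin_succ_mod (M k : ℕ) : pin M (k % nc M + 1) = pin M (k + 1) := by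
  rw [← pin_mod M (k % nc M + 1), Nat.mod_add_mod, pin_mod]

theorem pout_succ_mod (M k : ℕ) : pout M (k % nc M + 1) = pout M (k + 1) := by
  rw [← pout_mod M (k % nc M + 1), Nat.mod_add_mod, pout_mod]

theorem pin_add_nc (M k : ℕ) : pin M (k + nc M) = pin M k := by
  rw [← pin_mod, Nat.add_mod_right, pin_mod]

theorem pout_add_nc (M k : ℕ) : pout M (k + nc M) = pout M k := by
  rw [← pout_mod, Nat.add_mod_right, pout_mod]

theorem inHub_mod (M : ℕ) (X Wh : Set ℂ) (k : ℕ) : inHub M X Wh (k % nc M) = inHub M X Wh k := by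
  unfold inHub; rw [pin_mod]

theorem outHub_mod (M : ℕ) (X Bl : Set ℂ) (k : ℕ) : outHub M X Bl (k % nc M) = outHub M X Bl k := by
  unfold outHub; rw [pout_mod]

theorem gbox_disj_succ (hM : 0 < M) (k : ℕ) : ∀ x, x ∈ gbox M k → x ∉ gbox M (k + 1) := by
  intro x hx hx'
  rw [← N.gbox_mod] at hx
  rw [← N.gbox_mod M (k + 1)] at hx'
  have h1 : 1 < nc M := by unfold nc; omega
  have hne : k % nc M ≠ (k + 1) % nc M := by
    intro he
    have h2 := Nat.mod_add_mod k (nc M) 1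
    rcases Nat.lt_or_ge (k % nc M + 1) (nc M) with h3 | h3
    · rw [Nat.mod_eq_of_lt h3] at h2; omega
    · have h4 := Nat.mod_lt k (nc_pos M)
      have h5 : k % nc M + 1 = nc M := by omega
      rw [h5, Nat.mod_self] at h2
      omega
  exact Set.disjoint_left.1 (N.disjoint_gbox hM (Nat.mod_lt _ (nc_pos M))
    (Nat.mod_lt _ (nc_pos M)) hne) hx hx'

section inst

variable {X Bl₁ Wh₁ Bl₂ Wh₂ : Set ℂ} {s : ℂ → Bool}

theorem CombOK.inG' (hc : CombOK M X Bl₁ Wh₁ Bl₂ Wh₂ s) (k : ℕ) :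
    inHub M X Wh₁ k ⊆ hbox M (pin M k) := by
  have h1 := hc.inG (k % nc M) (Nat.mod_lt _ (nc_pos M))
  unfold InGood at h1
  rwa [inHub_mod, pin_mod] at h1

theorem CombOK.outG' (hc : CombOK M X Bl₁ Wh₁ Bl₂ Wh₂ s) (k : ℕ) :
    outHub M X Bl₁ k ⊆ hbox M (pout M k) := by
  have h1 := hc.outG (k % nc M) (Nat.mod_lt _ (nc_pos M))
  unfold OutGood at h1
  rwa [outHub_mod, pout_mod] at h1

theorem CombOK.tooth' (hc : CombOK M X Bl₁ Wh₁ Bl₂ Wh₂ s) (k : ℕ) :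
    CCr M X Wh₂ (pin M k) (pout M k) := by
  have h1 := hc.tooth (k % nc M) (Nat.mod_lt _ (nc_pos M))
  unfold Tooth at h1
  rwa [pin_mod, pout_mod] at h1

theorem CombOK.rails' (hc : CombOK M X Bl₁ Wh₁ Bl₂ Wh₂ s) (k : ℕ) :
    CCr M X Bl₂ (pin M k) (pin M (k + 1)) ∧ CCr M X Wh₂ (pout M k) (pout M (k + 1)) := by
  have h1 := hc.rails (k % nc M) (Nat.mod_lt _ (nc_pos M))
  unfold Rails at h1
  rwa [pin_mod, pout_mod, pin_succ_mod, pout_succ_mod] at h1

theorem CombOK.hin' (hc : CombOK M X Bl₁ Wh₁ Bl₂ Wh₂ s) (k : ℕ) :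
    ∀ z ∈ inHub M X Wh₁ k, z ∉ Wh₁ → s z = true := by
  have h1 := hc.hin (k % nc M) (Nat.mod_lt _ (nc_pos M))
  rwa [inHub_mod] at h1

theorem CombOK.hout' (hc : CombOK M X Bl₁ Wh₁ Bl₂ Wh₂ s) (k : ℕ) :
    ∀ z ∈ outHub M X Bl₁ k, z ∉ Bl₁ → s z = false := by
  have h1 := hc.hout (k % nc M) (Nat.mod_lt _ (nc_pos M))
  rwa [outHub_mod] at h1

/-- Points of a lower rail off its two inner hubs are off all hubs. -/
theorem CombOK.off_lo (hM : 0 < M) (hc : CombOK M X Bl₁ Wh₁ Bl₂ Wh₂ s) {k : ℕ} {z : ℂ}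
    (hz : z ∈ CBox M (pin M k) (pin M (k + 1))) (h1 : z ∉ inHub M X Wh₁ k)
    (h2 : z ∉ inHub M X Wh₁ (k + 1)) : ∀ l < nc M, z ∉ inHub M X Wh₁ l ∧ z ∉ outHub M X Bl₁ l := by
  intro l hl
  have hk := Nat.mod_lt k (nc_pos M)
  rw [← pin_mod M k, ← pin_succ_mod M k] at hz
  constructor
  · intro hzl
    have h3 := hc.inG' l hzl
    by_cases e1 : l = k % nc M
    · rw [e1, inHub_mod] at hzl; exact h1 hzl
    by_cases e2 : l = (k % nc M + 1) % nc M
    · rw [e2, Nat.mod_add_mod, inHub_mod] at hzl; exact h2 hzl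
    exact Set.disjoint_left.1 (rail_hbox_disj hM hk hl e1 e2) (Or.inl hz) (Or.inl h3)
  · intro hzl
    exact Set.disjoint_left.1 (railin_hout_disj hM hk hl) hz (hc.outG' l hzl)

/-- Points of an upper rail off its two outer hubs are off all hubs. -/
theorem CombOK.off_up (hM : 0 < M) (hc : CombOK M X Bl₁ Wh₁ Bl₂ Wh₂ s) {k : ℕ} {z : ℂ}
    (hz : z ∈ CBox M (pout M k) (pout M (k + 1))) (h1 : z ∉ outHub M X Bl₁ k)
    (h2 : z ∉ outHub M X Bl₁ (k + 1)) :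
    ∀ l < nc M, z ∉ inHub M X Wh₁ l ∧ z ∉ outHub M X Bl₁ l := by
  intro l hl
  have hk := Nat.mod_lt k (nc_pos M)
  rw [← pout_mod M k, ← pout_succ_mod M k] at hz
  constructor
  · intro hzl
    exact Set.disjoint_left.1 (railout_hin_disj hM hk hl) hz (hc.inG' l hzl)
  · intro hzl
    have h3 := hc.outG' l hzl
    by_cases e1 : l = k % nc M
    · rw [e1, outHub_mod] at hzl; exact h1 hzl
    by_cases e2 : l = (k % nc M + 1) % nc M
    · rw [e2, Nat.mod_add_mod, outHub_mod] at hzl; exact h2 hzl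
    exact Set.disjoint_left.1 (rail_hbox_disj hM hk hl e1 e2) (Or.inr hz) (Or.inr h3)

/-- Points of a tooth off its two hubs are off all hubs. -/
theorem CombOK.off_tooth (hM : 0 < M) (hc : CombOK M X Bl₁ Wh₁ Bl₂ Wh₂ s) {k : ℕ} {z : ℂ}
    (hz : z ∈ CBox M (pin M k) (pout M k)) (h1 : z ∉ inHub M X Wh₁ k)
    (h2 : z ∉ outHub M X Bl₁ k) :
    ∀ l < nc M, z ∉ inHub M X Wh₁ l ∧ z ∉ outHub M X Bl₁ l := by
  intro l hl
  have hk := Nat.mod_lt k (nc_pos M)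
  rw [← pin_mod M k, ← pout_mod M k] at hz
  by_cases e1 : l = k % nc M
  · rw [e1, inHub_mod, outHub_mod]; exact ⟨h1, h2⟩
  have h3 := Set.disjoint_left.1 (tooth_hbox_disj hM hk hl (Ne.symm e1)) hz
  exact ⟨fun hzl => h3 (Or.inl (hc.inG' l hzl)), fun hzl => h3 (Or.inr (hc.outG' l hzl))⟩

/-- Seeds. -/
theorem seed_core' {X C : Set ℂ} {p z : ℂ} {r : ℝ} (hz : z ∈ X) (h : z ∈ ball p r) :
    z ∈ core (nbr X) (X ∩ ball p r) C := H678.seed_core ⟨hz, h⟩

/-- **The comb events give hub data on the triangulation.** -/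
theorem CombOK.hubs (hM : 0 < M) {b : ZMod 3 → ℂ} (h : HullTri X b) (x₀ : X)
    {R : ℕ → Set ℂ} (hR : Regs M R) (hbR : ∀ k j, b j ∉ R k)
    (hc : CombOK M X Bl₁ Wh₁ Bl₂ Wh₂ s) :
    Hubs (HT h x₀) (fun v => s v.1) true (nc M)
      (fun k => vs (core (nbr X) (X ∩ ball (pin M k) (sd M)) Wh₁))
      (fun k => vs (core (nbr X) (X ∩ ball (pout M k) (sd M)) Bl₁))
      (fun k => vs (csq (pin M k) (ms M / 16))) (fun k => vs (csq (pout M k) (ms M / 16)))
      (fun k => vs (gbox M k)) (fun k => vs (R k)) ⟨b 0, h.mem 0⟩ where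
  four := by unfold nc; omega
  eper k := by simp only [pin_add_nc]
  eper' k := by simp only [pout_add_nc]
  bper k := by simp only [N.gbox_add_nc]
  xper k := by simp only [hR.per]
  con k := HT_wconn h x₀ (H678.connIn_core h.fin _ _)
  con' k := HT_wconn h x₀ (H678.connIn_core h.fin _ _)
  col k v hv hvE := by
    have h1 := (mem_hb_core h x₀).1 hv
    exact hc.hin' k v.1 h1 (H678.rim_not ⟨h1, hvE⟩)
  col' k v hv hvE := by
    have h1 := (mem_hb_core h x₀).1 hv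
    exact hc.hout' k v.1 h1 (H678.rim_not ⟨h1, hvE⟩)
  sub k v hv := hbox_sub_csq hM _ (hc.inG' k ((mem_hb_core h x₀).1 hv))
  sub' k v hv := hbox_sub_csq hM _ (hc.outG' k ((mem_hb_core h x₀).1 hv))
  subB k v hv := csq_pin_sub hM k hv
  subB' k v hv := csq_pout_sub hM k hv
  dis k x hx hx' := csq_disj hM k hx hx'
  disB k x hx hx' := gbox_disj_succ hM k _ hx hx'
  outH k hb := hbR k 0 (hR.g1 k (csq_pin_sub hM k hb))
  outH' k hb := hbR k 0 (hR.g1 k (csq_pout_sub hM k hb))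
  connH k := HT_escape h x₀ (convex_csq _ _) (isOpen_csq _ _)
    fun j hb => hbR k j (hR.g1 k (csq_pin_sub hM k hb))
  connH' k := HT_escape h x₀ (convex_csq _ _) (isOpen_csq _ _)
    fun j hb => hbR k j (hR.g1 k (csq_pout_sub hM k hb))
  low k := by
    obtain ⟨n, v, h1, h2, h3, h4⟩ := (hc.rails' k).1
    have hX : ∀ i ≤ n, v i ∈ X := fun i hi => hc.b2 (h2 i hi).1
    obtain ⟨l, h5, h6⟩ := HT_walk_seq h x₀ h1 hX
    refine ⟨_, ?_, _, ?_, l, h5, fun g hg => ?_⟩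
    · exact seed_core' (hX 0 (Nat.zero_le n))
        (start_mem hM (pin_ne_succ hM k) (h2 0 (Nat.zero_le n)).2 h3)
    · exact seed_core' (hX n le_rfl) (end_mem hM (pin_ne_succ hM k) (h2 n le_rfl).2 h4)
    · obtain ⟨i, hi, h7⟩ := h6 g hg
      rw [mem_vs, mem_hb_core, mem_hb_core, h7]
      have h8 := h2 (i + 1) (by omega)
      exact ⟨hR.lo k h8.2, fun h9 h10 => hc.off2 _ h8.1 (hc.off_lo hM h8.2 h9 h10)⟩
  up k := by
    obtain ⟨n, v, h1, h2, h3, h4⟩ := (hc.rails' k).2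
    have hX : ∀ i ≤ n, v i ∈ X := fun i hi => hc.w2 (h2 i hi).1
    obtain ⟨l, h5, h6⟩ := HT_walk_seq h x₀ h1 hX
    refine ⟨_, ?_, _, ?_, l, h5, fun g hg => ?_⟩
    · exact seed_core' (hX 0 (Nat.zero_le n))
        (start_mem hM (pout_ne_succ hM k) (h2 0 (Nat.zero_le n)).2 h3)
    · exact seed_core' (hX n le_rfl) (end_mem hM (pout_ne_succ hM k) (h2 n le_rfl).2 h4)
    · obtain ⟨i, hi, h7⟩ := h6 g hg
      rw [mem_vs, mem_hb_core, mem_hb_core, h7]
      have h8 := h2 (i + 1) (by omega)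
      exact ⟨hR.up k h8.2, fun h9 h10 => hc.off2' _ h8.1 (hc.off_up hM h8.2 h9 h10)⟩
  tooth k := by
    obtain ⟨n, v, h1, h2, h3, h4⟩ := hc.tooth' k
    have hX : ∀ i ≤ n, v i ∈ X := fun i hi => hc.w2 (h2 i hi).1
    obtain ⟨l, h5, h6⟩ := HT_walk_seq h x₀ h1 hX
    refine ⟨_, ?_, _, ?_, l, h5, fun g hg => ?_⟩
    · exact seed_core' (hX 0 (Nat.zero_le n))
        (start_mem hM (pin_ne_pout hM k) (h2 0 (Nat.zero_le n)).2 h3)
    · exact seed_core' (hX n le_rfl) (end_mem hM (pin_ne_pout hM k) (h2 n le_rfl).2 h4)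
    · obtain ⟨i, hi, h7⟩ := h6 g hg
      rw [mem_vs, mem_hb_core, mem_hb_core, h7]
      have h8 := h2 (i + 1) (by omega)
      exact ⟨tooth_sub hM k h8.2, fun h9 h10 => hc.off2' _ h8.1 (hc.off_tooth hM h8.2 h9 h10)⟩
  sub1 k v hv := hR.g1 k hv
  sub2 k v hv := hR.g2 k hv
  disjX j k h1 h2 x hx hx' := Set.disjoint_left.1 (hR.disj j k h1 h2) hx hx'
  out k hb := hbR k 0 hb
  conn k := HT_escape h x₀ (hR.conv k) (hR.opn k) (hbR k)

end inst

end Vale.Agent.P148.R2.H565
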