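import Vale.Agent.P148.R2.H184.L3

/-!
# Intrinsic local strand pieces of the Delaunay triangulation
-/

open Set Metric Function

namespace Vale.Agent.P148.R2.H565

open H592 H184

/-- The edge of a dart. -/
def ed (d : Dt) : ℂ × ℂ := (d.1, d.2.1)

/-- `f 0, …, f (n - 1)` is a strand piece all of whose faces are local in `Q`; of `f n` only the
edge matters. -/
structure Sg (X Q : Set ℂ) (c : ℂ → Bool) (n : ℕ) (f : ℕ → Dt) : Prop where
  lf : ∀ i < n, LF X Q (f i)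
  nx : ∀ i < n, Nx c (f i) (f (i + 1))

/-- A piece from the edge `a` to the edge `b`. -/
structure PP (X Q : Set ℂ) (c : ℂ → Bool) (a b : ℂ × ℂ) (n : ℕ) (f : ℕ → Dt) : Prop where
  pos : 0 < n
  sg : Sg X Q c n f
  fst : ed (f 0) = a
  lst : ed (f n) = b
  min : ∀ i, 0 < i → i < n → ed (f i) ≠ b

/-- Local disjointness of the visits. -/
def DisQ (n : ℕ) (f : ℕ → Dt) (i : ℕ) : Prop :=
  ∀ a b, a ≤ i → i < b → b ≤ n → (f a).1 ≠ (f b).1

open Classical in
/-- Sum over the members of the loop erased piece. -/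
noncomputable def segQ (c : ℂ → Bool) (n : ℕ) (f : ℕ → Dt) (Θ : Dt → ℂ) : ℂ :=
  ∑ i ∈ Finset.range n, if Mn c (f i) ∧ DisQ n f i then Θ (f i) else 0

open Classical in
/-- The value of the piece from the edge `a` to the edge `b`, as a function of the coloured points
in `Q`. -/
noncomputable def PV (X Q : Set ℂ) (c : ℂ → Bool) (a b : ℂ × ℂ) (Θ : Dt → ℂ) : ℂ :=
  if h : ∃ nf : ℕ × (ℕ → Dt), PP X Q c a b nf.1 nf.2 then segQ c h.choose.1 h.choose.2 Θ else 0

variable {X X' Q Q' : Set ℂ} {c c' : ℂ → Bool} {a b : ℂ × ℂ} {n n' : ℕ} {f f' : ℕ → Dt}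

theorem Sg.mono (h : Sg X Q c n f) (hQ : Q ⊆ Q') : Sg X Q' c n f :=
  ⟨fun i hi => (h.lf i hi).mono hQ, h.nx⟩

theorem PP.mono (h : PP X Q c a b n f) (hQ : Q ⊆ Q') : PP X Q' c a b n f :=
  ⟨h.pos, h.sg.mono hQ, h.fst, h.lst, h.min⟩

theorem Nx_congr {d d' : Dt} (h1 : c' d.1 = c d.1) (h2 : c' d.2.1 = c d.2.1)
    (h3 : c' d.2.2 = c d.2.2) : Nx c' d d' ↔ Nx c d d' := by
  unfold Nx; rw [h1, h2, h3]

theorem Mn_congr {d : Dt} (h1 : c' d.1 = c d.1) (h2 : c' d.2.1 = c d.2.1)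
    (h3 : c' d.2.2 = c d.2.2) : Mn c' d ↔ Mn c d := by
  unfold Mn; rw [h1, h2, h3]

theorem LF.col {d : Dt} (hc : ∀ z ∈ X ∩ Q, c' z = c z) (h : LF X Q d) :
    c' d.1 = c d.1 ∧ c' d.2.1 = c d.2.1 ∧ c' d.2.2 = c d.2.2 := by
  obtain ⟨m1, m2, m3⟩ := h.mem
  exact ⟨hc _ ⟨h.1.1, m1⟩, hc _ ⟨h.1.2.1, m2⟩, hc _ ⟨h.1.2.2, m3⟩⟩

/-- Locality of pieces. -/
theorem Sg.congr (hX : X ∩ Q = X' ∩ Q) (hc : ∀ z ∈ X ∩ Q, c' z = c z) (h : Sg X Q c n f) :
    Sg X' Q c' n f := by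
  refine ⟨fun i hi => (h.lf i hi).congr hX, fun i hi => ?_⟩
  obtain ⟨h1, h2, h3⟩ := LF.col hc (h.lf i hi)
  exact (Nx_congr h1 h2 h3).2 (h.nx i hi)

theorem PP.congr (hX : X ∩ Q = X' ∩ Q) (hc : ∀ z ∈ X ∩ Q, c' z = c z) (h : PP X Q c a b n f) :
    PP X' Q c' a b n f :=
  ⟨h.pos, h.sg.congr hX hc, h.fst, h.lst, h.min⟩

theorem PP_iff (hX : X ∩ Q = X' ∩ Q) (hc : ∀ z ∈ X ∩ Q, c' z = c z) :
    PP X' Q c' a b n f ↔ PP X Q c a b n f :=
  ⟨fun h => h.congr hX.symm (fun z hz => (hc z (hX ▸ hz)).symm), fun h => h.congr hX hc⟩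

theorem segQ_congr {Θ : Dt → ℂ} (hc : ∀ i < n, c' (f i).1 = c (f i).1 ∧ c' (f i).2.1 = c (f i).2.1 ∧
    c' (f i).2.2 = c (f i).2.2) : segQ c' n f Θ = segQ c n f Θ := by
  unfold segQ
  apply Finset.sum_congr rfl
  intro i hi
  rw [Finset.mem_range] at hi
  obtain ⟨h1, h2, h3⟩ := hc i hi
  rw [Mn_congr h1 h2 h3]

/-- **Locality of the value of a piece.** -/
theorem PV_congr (hX : X ∩ Q = X' ∩ Q) (hc : ∀ z ∈ X ∩ Q, c' z = c z) (Θ : Dt → ℂ) :
    PV X' Q c' a b Θ = PV X Q c a b Θ := by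
  have hP : (fun nf : ℕ × (ℕ → Dt) => PP X' Q c' a b nf.1 nf.2) =
      (fun nf : ℕ × (ℕ → Dt) => PP X Q c a b nf.1 nf.2) := by
    funext nf; exact propext (PP_iff hX hc)
  unfold PV
  by_cases h : ∃ nf : ℕ × (ℕ → Dt), PP X Q c a b nf.1 nf.2
  · have h' : ∃ nf : ℕ × (ℕ → Dt), PP X' Q c' a b nf.1 nf.2 := by
      obtain ⟨nf, hh⟩ := h
      exact ⟨nf, (PP_iff hX hc).2 hh⟩
    rw [dif_pos h, dif_pos h']
    have e : h'.choose = h.choose := by
      have : ∀ (P P' : ℕ × (ℕ → Dt) → Prop) (hPP : P' = P) (g' : ∃ x, P' x) (g : ∃ x, P x),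
          g'.choose = g.choose := by
        intro P P' hPP g' g
        subst hPP
        rfl
      exact this _ _ hP h' h
    rw [e]
    exact segQ_congr (fun i hi => LF.col hc (h.choose_spec.sg.lf i hi))
  · have h' : ¬ ∃ nf : ℕ × (ℕ → Dt), PP X' Q c' a b nf.1 nf.2 := by
      rintro ⟨nf, hh⟩
      exact h ⟨nf, (PP_iff hX hc).1 hh⟩
    rw [dif_neg h, dif_neg h']

/-- Pieces are deterministic. -/
theorem PP.det (h3 : Three X) (h : PP X Q c a b n f) (h' : PP X Q' c a b n' f') :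
    n = n' ∧ (∀ i < n, f i = f' i) ∧ (f n).1 = (f' n).1 := by
  have key : ∀ i, i < n → i < n' → f i = f' i := by
    intro i
    induction i with
    | zero =>
      intro h1 h2
      have e := h.fst.trans h'.fst.symm
      exact (h.sg.lf 0 h1).unique h3 (h'.sg.lf 0 h2) (congrArg (fun p : ℂ × ℂ => p.1) e)
        (congrArg (fun p : ℂ × ℂ => p.2) e)
    | succ i ih =>
      intro h1 h2
      have e := ih (by omega) (by omega)
      have e1 := h.sg.nx i (by omega)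
      have e2 := h'.sg.nx i (by omega)
      rw [e] at e1
      exact e1.det h3 e2 (h.sg.lf _ h1) (h'.sg.lf _ h2)
  have hed : ∀ i, i ≤ n → i ≤ n' → ed (f i) = ed (f' i) := by
    intro i h1 h2
    rcases Nat.eq_zero_or_pos i with h0 | h0
    · rw [h0]; exact h.fst.trans h'.fst.symm
    · have e := key (i - 1) (by omega) (by omega)
      have e1 := h.sg.nx (i - 1) (by omega)
      have e2 := h'.sg.nx (i - 1) (by omega)
      rw [Nat.sub_add_cancel h0] at e1 e2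
      rw [e] at e1
      exact Prod.ext (e1.2.1.trans e2.2.1.symm) (e1.2.2.trans e2.2.2.symm)
  have hn : n = n' := by
    rcases lt_trichotomy n n' with hlt | heq | hgt
    · exfalso
      apply h'.min n h.pos hlt
      rw [← hed n le_rfl hlt.le]; exact h.lst
    · exact heq
    · exfalso
      apply h.min n' h'.pos hgt
      rw [hed n' hgt.le le_rfl]; exact h'.lst
  refine ⟨hn, fun i hi => key i hi (by omega), ?_⟩
  exact congrArg (fun p : ℂ × ℂ => p.1) (hed n le_rfl (by omega))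

theorem segQ_eq_of {Θ : Dt → ℂ} (hf : ∀ i < n, f i = f' i) (hn : (f n).1 = (f' n).1) :
    segQ c n f Θ = segQ c n f' Θ := by
  unfold segQ
  apply Finset.sum_congr rfl
  intro i hi
  rw [Finset.mem_range] at hi
  have e : ∀ j ≤ n, (f j).1 = (f' j).1 := by
    intro j hj
    rcases hj.lt_or_eq with h1 | h1
    · rw [hf j h1]
    · rw [h1, hn]
  have e2 : DisQ n f i ↔ DisQ n f' i := by
    unfold DisQ
    constructor
    · intro hD x y h1 h2 h3
      rw [← e x (by omega), ← e y h3]; exact hD x y h1 h2 h3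
    · intro hD x y h1 h2 h3
      rw [e x (by omega), e y h3]; exact hD x y h1 h2 h3
  rw [hf i hi, e2]

theorem PV_eq (h3 : Three X) (h : PP X Q c a b n f) (Θ : Dt → ℂ) :
    PV X Q c a b Θ = segQ c n f Θ := by
  have hex : ∃ nf : ℕ × (ℕ → Dt), PP X Q c a b nf.1 nf.2 := ⟨(n, f), h⟩
  unfold PV
  rw [dif_pos hex]
  obtain ⟨h1, h2, h4⟩ := hex.choose_spec.det h3 h
  rw [segQ_eq_of h2 h4, h1]

/-- The value does not depend on the window. -/
theorem PV_window (h3 : Three X) (h : PP X Q c a b n f) (h' : PP X Q' c a b n' f')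
    (Θ : Dt → ℂ) : PV X Q c a b Θ = PV X Q' c a b Θ := by
  obtain ⟨h1, h2, h4⟩ := h.det h3 h'
  rw [PV_eq h3 h, PV_eq h3 h', segQ_eq_of h2 h4, h1]

/-! ### Similarities -/

/-- The similarity `z ↦ α z + β`. -/
def sm (α β : ℂ) (z : ℂ) : ℂ := α * z + β

/-- Image of a dart. -/
def smD (α β : ℂ) (d : Dt) : Dt := (sm α β d.1, sm α β d.2.1, sm α β d.2.2)

theorem sm_inj {α β : ℂ} (hα : α ≠ 0) : Injective (sm α β) := by
  intro z w h
  unfold sm at h
  have : α * z = α * w := add_right_cancel h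
  exact mul_left_cancel₀ hα this

theorem sm_surj {α β : ℂ} (hα : α ≠ 0) : Surjective (sm α β) := by
  intro w
  refine ⟨(w - β) / α, ?_⟩
  unfold sm
  field_simp
  ring

theorem dist_sm (α β z w : ℂ) : dist (sm α β z) (sm α β w) = ‖α‖ * dist z w := by
  unfold sm
  rw [dist_eq_norm, dist_eq_norm, ← norm_mul]
  congr 1
  ring

theorem cr_sm (α β u v w : ℂ) : cr (sm α β u) (sm α β v) (sm α β w) = ‖α‖ ^ 2 * cr u v w := by
  rw [← Complex.normSq_eq_norm_sq, Complex.normSq_apply]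
  unfold cr sm
  simp only [Complex.add_re, Complex.add_im, Complex.mul_re, Complex.mul_im]
  ring

theorem vcell_sm {α β : ℂ} (hα : α ≠ 0) (X : Set ℂ) (v z : ℂ) :
    sm α β z ∈ vcell (sm α β '' X) (sm α β v) ↔ z ∈ vcell X v := by
  have hp : 0 < ‖α‖ := norm_pos_iff.2 hα
  unfold vcell
  constructor
  · intro h w hw
    have := h _ (mem_image_of_mem _ hw)
    rw [dist_sm, dist_sm] at this
    exact le_of_mul_le_mul_left this hp
  · rintro h _ ⟨w, hw, rfl⟩
    rw [dist_sm, dist_sm]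
    exact mul_le_mul_of_nonneg_left (h w hw) hp.le

theorem Three_sm {α β : ℂ} (hα : α ≠ 0) (h : Three X) : Three (sm α β '' X) := by
  rintro z _ _ _ _ ⟨a, ha, rfl⟩ ⟨b, hb, rfl⟩ ⟨e, he, rfl⟩ ⟨d, hd, rfl⟩ h1 h2 h3 h4 h5 h6 h7
  obtain ⟨z, rfl⟩ := sm_surj (β := β) hα z
  rw [vcell_sm hα] at h1 h2 h3 h4
  rcases h z a b e d ha hb he hd h1 h2 h3 h4 (fun hh => h5 (by rw [hh])) (fun hh => h6 (by rw [hh]))
    (fun hh => h7 (by rw [hh])) with h8 | h8 | h8
  · left; rw [h8]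
  · right; left; rw [h8]
  · right; right; rw [h8]

theorem cc_sm {α β : ℂ} (hα : α ≠ 0) {d : Dt} (h : cr d.1 d.2.1 d.2.2 ≠ 0) :
    cc (smD α β d) = sm α β (cc d) := by
  symm
  apply cc_unique
  · show cr (sm α β _) (sm α β _) (sm α β _) ≠ 0
    rw [cr_sm]
    exact mul_ne_zero (pow_ne_zero _ (norm_ne_zero_iff.2 hα)) h
  · show dist (sm α β _) (sm α β _) = dist (sm α β _) (sm α β _)
    rw [dist_sm, dist_sm, dist_cc1 h]
  · show dist (sm α β _) (sm α β _) = dist (sm α β _) (sm α β _)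
    rw [dist_sm, dist_sm, dist_cc2 h]

theorem LF_sm {α β : ℂ} (hα : α ≠ 0) {d : Dt} :
    LF (sm α β '' X) (sm α β '' Q) (smD α β d) ↔ LF X Q d := by
  have hp : 0 < ‖α‖ := norm_pos_iff.2 hα
  have hinj := sm_inj (β := β) hα
  have hmem : ∀ (S : Set ℂ) z, sm α β z ∈ sm α β '' S ↔ z ∈ S := by
    intro S z
    constructor
    · rintro ⟨w, hw, he⟩; rwa [← hinj he]
    · intro hz; exact mem_image_of_mem _ hz
  have hcr : 0 < cr (sm α β d.1) (sm α β d.2.1) (sm α β d.2.2) ↔ 0 < cr d.1 d.2.1 d.2.2 := by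
    rw [cr_sm]
    constructor
    · intro h; exact (mul_pos_iff_of_pos_left (by positivity)).1 h
    · intro h; positivity
  unfold LF
  refine and_congr ?_ ?_
  · exact and_congr (hmem _ _) (and_congr (hmem _ _) (hmem _ _))
  · refine (and_congr_left' hcr).trans ?_
    refine and_congr_right (fun h0 => ?_)
    rw [cc_sm hα h0.ne']
    refine and_congr ?_ ?_
    · have hb : closedBall (sm α β (cc d)) (dist (sm α β (cc d)) (smD α β d).1) =
          sm α β '' closedBall (cc d) (dist (cc d) d.1) := by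
        show closedBall (sm α β (cc d)) (dist (sm α β (cc d)) (sm α β d.1)) = _
        rw [dist_sm]
        ext z
        obtain ⟨z, rfl⟩ := sm_surj (β := β) hα z
        rw [hmem, mem_closedBall, mem_closedBall, dist_sm]
        exact ⟨fun h => le_of_mul_le_mul_left h hp, fun h => mul_le_mul_of_nonneg_left h hp.le⟩
      rw [hb, image_subset_image_iff hinj]
    · show (∀ x ∈ sm α β '' X, dist (sm α β (cc d)) (sm α β d.1) ≤ dist (sm α β (cc d)) x) ↔ _
      constructor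
      · intro h x hx
        have := h _ (mem_image_of_mem _ hx)
        rw [dist_sm, dist_sm] at this
        exact le_of_mul_le_mul_left this hp
      · rintro h _ ⟨x, hx, rfl⟩
        rw [dist_sm, dist_sm]
        exact mul_le_mul_of_nonneg_left (h x hx) hp.le

theorem PP_sm {α β : ℂ} (hα : α ≠ 0) (hc : ∀ z ∈ X ∩ Q, c' (sm α β z) = c z)
    (h : PP X Q c a b n f) : PP (sm α β '' X) (sm α β '' Q) c' (sm α β a.1, sm α β a.2)
      (sm α β b.1, sm α β b.2) n (fun i => smD α β (f i)) := by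
  refine ⟨h.pos, ⟨fun i hi => (LF_sm hα).2 (h.sg.lf i hi), fun i hi => ?_⟩, ?_, ?_, ?_⟩
  · have hl := h.sg.lf i hi
    obtain ⟨m1, m2, m3⟩ := hl.mem
    obtain ⟨h1, h2, h3⟩ := h.sg.nx i hi
    have e1 : c' (smD α β (f i)).1 = c (f i).1 := hc _ ⟨hl.1.1, m1⟩
    have e2 : c' (smD α β (f i)).2.1 = c (f i).2.1 := hc _ ⟨hl.1.2.1, m2⟩
    have e3 : c' (smD α β (f i)).2.2 = c (f i).2.2 := hc _ ⟨hl.1.2.2, m3⟩
    refine ⟨by rw [e1, e2]; exact h1, ?_, ?_⟩
    · rw [e1, e3]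
      show sm α β (f (i + 1)).1 = _
      rw [h2]
      split_ifs <;> rfl
    · rw [e1, e3]
      show sm α β (f (i + 1)).2.1 = _
      rw [h3]
      split_ifs <;> rfl
  · show (sm α β (f 0).1, sm α β (f 0).2.1) = _
    rw [← h.fst]; rfl
  · show (sm α β (f n).1, sm α β (f n).2.1) = _
    rw [← h.lst]; rfl
  · intro i h1 h2 h3
    apply h.min i h1 h2
    have e1 := congrArg (fun p : ℂ × ℂ => p.1) h3
    have e2 := congrArg (fun p : ℂ × ℂ => p.2) h3
    exact Prod.ext (sm_inj hα e1) (sm_inj hα e2)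

/-- **Equivariance of the value of a piece** (when the piece exists). -/
theorem PV_sm (h3 : Three X) {α β : ℂ} (hα : α ≠ 0) (hc : ∀ z ∈ X ∩ Q, c' (sm α β z) = c z)
    (h : PP X Q c a b n f) (Θ : Dt → ℂ) :
    PV (sm α β '' X) (sm α β '' Q) c' (sm α β a.1, sm α β a.2) (sm α β b.1, sm α β b.2) Θ =
      PV X Q c a b (fun d => Θ (smD α β d)) := by
  rw [PV_eq (Three_sm hα h3) (PP_sm hα hc h), PV_eq h3 h]
  unfold segQ
  apply Finset.sum_congr rfl
  intro i hi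
  rw [Finset.mem_range] at hi
  have hl := h.sg.lf i hi
  obtain ⟨m1, m2, m3⟩ := hl.mem
  have e1 : c' (smD α β (f i)).1 = c (f i).1 := hc _ ⟨hl.1.1, m1⟩
  have e2 : c' (smD α β (f i)).2.1 = c (f i).2.1 := hc _ ⟨hl.1.2.1, m2⟩
  have e3 : c' (smD α β (f i)).2.2 = c (f i).2.2 := hc _ ⟨hl.1.2.2, m3⟩
  have hM : Mn c' (smD α β (f i)) ↔ Mn c (f i) := by
    unfold Mn; rw [e1, e2, e3]
  have hD : DisQ n (fun i => smD α β (f i)) i ↔ DisQ n f i := by
    unfold DisQ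
    constructor
    · intro hD x y h1 h2 h4 h5
      apply hD x y h1 h2 h4
      show sm α β (f x).1 = sm α β (f y).1
      rw [h5]
    · intro hD x y h1 h2 h4 h5
      exact hD x y h1 h2 h4 (sm_inj hα h5)
  rw [hM, hD]

end Vale.Agent.P148.R2.H565
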