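import Vale.Agent.P148.R2.H565.Loc9
import Vale.Agent.P148.R2.H678.CombDef

/-!
# The value of a cell of the comb ring: definition

`cellV M X B Θ k` is the value of the cell `k`: `X` is the set of sites, `B` the set of black sites
(of the composite colouring), `Θ` a weight (for instance the part in the cell `k` of a rotating
weight). By definition it is a function of `X ∩ Q`, `B ∩ Q`, `Q` the window of the cell.

It is the sum of `Θ` over the members of the loop erased strand piece between a foot of the gate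
`k - 2` and a foot of the gate `k + 3`. When `Θ` lives on the faces of the cell `k` it does not
depend on the feet; to avoid a choice we take the mean over all pairs of feet. The orientation is
not fixed: the piece goes from the first foot to the second one or back.
-/

open Set Relation Metric Function
open scoped Classical

namespace Vale.Agent.P148.R2.H565

open Vale.Agent.P148.R2.N (ms nc gateC cellC gbox csq)
open Vale.Agent.P148.R2.H592 (nbr)
open Vale.Agent.P148.R2.H184 (Dt cc)
open Vale.Agent.P148.R2.H678 (inHub outHub inRim outRim)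

/-- The colouring with the black set `B`. -/
noncomputable def bc (B : Set ℂ) (z : ℂ) : Bool := decide (z ∈ B)

/-- `a = (x, y)` is a foot of the gate `k`: the first edge of a path in the gate box from the inner
(black) rim to the outer (white) rim, whose inner points are white and off the two hubs. -/
def Foot (M : ℕ) (Y B : Set ℂ) (k : ℕ) (a : ℂ × ℂ) : Prop :=
  ∃ (n : ℕ) (v : ℕ → ℂ), 0 < n ∧ (∀ i < n, nbr Y (v i) (v (i + 1))) ∧ v 0 = a.1 ∧ v 1 = a.2 ∧
    v 0 ∈ inRim M Y (Y \ B) k ∧ v n ∈ outRim M Y B k ∧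
    (∀ i, 0 < i → i < n → v i ∉ B ∧ v i ∉ inHub M Y (Y \ B) k ∧ v i ∉ outHub M Y B k) ∧
    ∀ i ≤ n, v i ∈ gbox M k

/-- The window of the gates `m, …, m + 5` (centred at the cell `m + 2`). -/
noncomputable def Qw (M m : ℕ) : Set ℂ := csq (cellC M (m + 2)) (3 * ms M)

/-- Pairs of feet of the gates `m` and `m + 5` joined by a strand piece in the window. -/
def FP (M : ℕ) (Y B : Set ℂ) (m : ℕ) : Set ((ℂ × ℂ) × (ℂ × ℂ)) :=
  {p | ((Foot M Y B m p.1 ∧ Foot M Y B (m + 5) p.2) ∨
      (Foot M Y B (m + 5) p.1 ∧ Foot M Y B m p.2)) ∧ ∃ n f, PP Y (Qw M m) (bc B) p.1 p.2 n f}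

/-- The value between the gates `m` and `m + 5`, from the coloured sites `Y` of the window. -/
noncomputable def Fv (M : ℕ) (Y B : Set ℂ) (Θ : Dt → ℂ) (m : ℕ) : ℂ :=
  (∑ᶠ p ∈ FP M Y B m, PV Y (Qw M m) (bc B) p.1 p.2 Θ) / ((FP M Y B m).ncard : ℂ)

/-- The first gate of the window of the cell `k` (the gate `k - 2`, made nonnegative). -/
def gb (M k : ℕ) : ℕ := k + (nc M - 2)

/-- **The value of the cell `k`.** -/
noncomputable def cellV (M : ℕ) (X B : Set ℂ) (Θ : Dt → ℂ) (k : ℕ) : ℂ :=
  Fv M (X ∩ Qw M (gb M k)) (B ∩ Qw M (gb M k)) Θ (gb M k)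

theorem gb_add (M k : ℕ) : gb M k + 2 = k + nc M := by
  unfold gb
  have : 4 ≤ nc M := by unfold nc; omega
  omega

theorem Qw_gb (M k : ℕ) : Qw M (gb M k) = csq (cellC M k) (3 * ms M) := by
  unfold Qw
  rw [gb_add, N.cellC_add_nc]

/-- The value of a cell is a function of the coloured sites in its window. -/
theorem cellV_congr {M : ℕ} {X B X' B' : Set ℂ} {Θ : Dt → ℂ} {k : ℕ}
    (hX : X' ∩ csq (cellC M k) (3 * ms M) = X ∩ csq (cellC M k) (3 * ms M))
    (h1 : B' ∩ csq (cellC M k) (3 * ms M) = B ∩ csq (cellC M k) (3 * ms M)) :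
    cellV M X' B' Θ k = cellV M X B Θ k := by
  unfold cellV
  rw [Qw_gb, hX, h1]

end Vale.Agent.P148.R2.H565
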