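import Vale.Agent.P148.R2.H565.Loc10
import Vale.Agent.P148.R2.H258.A4

/-!
# The main cycle of a closed ring of tubes

Times of the closed loop in cyclic pieces; local membership `LD`; the minority darts with local
membership are one class; there are members in any two consecutive pieces; sums.
-/

namespace Vale.Agent.P148.R2.H565

open Function Vale.Agent.P148.R2.H258 Vale.Agent.P148.R2.H871

variable {V D : Type*} {T : Tri V D} {σ : V → Bool}

/-- The strand of `o` is cut by the times `t` into pieces (`K` pieces per period); vertices seen in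
non adjacent pieces are different. -/
structure LoopT (T : Tri V D) (σ : V → Bool) (K : ℕ) (o : D) (t : ℕ → ℕ) : Prop where
  bi : T.Bi σ o
  zero : t 0 = 0
  inc : ∀ k, t k < t (k + 1)
  per : ∀ k, t (k + K) = t k + H871.per T σ o
  adj : ∀ j k i i', j + 2 ≤ k → k + 2 ≤ j + K → t j ≤ i → i ≤ t (j + 1) → t k ≤ i' →
    i' ≤ t (k + 1) → sa T σ o i ≠ sa T σ o i'

/-- Local disjointness: no vertex is visited both before and after `n` within two consecutive
pieces. -/
def LD (T : Tri V D) (σ : V → Bool) (o : D) (t : ℕ → ℕ) (n : ℕ) : Prop :=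
  ∀ u i j, t u ≤ i → i ≤ n → n < j → j ≤ t (u + 2) → sa T σ o i ≠ sa T σ o j

section loop

variable {K : ℕ} {o : D} {t : ℕ → ℕ}

theorem LoopT.strictMono (h : LoopT T σ K o t) : StrictMono t := strictMono_nat_of_lt_succ h.inc

theorem LoopT.mono (h : LoopT T σ K o t) {j k : ℕ} (hjk : j ≤ k) : t j ≤ t k :=
  h.strictMono.monotone hjk

theorem LoopT.lt_iff (h : LoopT T σ K o t) {j k : ℕ} : t j < t k ↔ j < k := h.strictMono.lt_iff_lt

theorem LoopT.le_iff (h : LoopT T σ K o t) {j k : ℕ} : t j ≤ t k ↔ j ≤ k := h.strictMono.le_iff_le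

/-- The piece of a time. -/
theorem LoopT.loc (h : LoopT T σ K o t) (n : ℕ) : ∃ k, t k ≤ n ∧ n < t (k + 1) := by
  classical
  have h1 : ∃ k, n < t (k + 1) := ⟨n, lt_of_lt_of_le (Nat.lt_succ_self n) (h.strictMono.id_le _)⟩
  refine ⟨Nat.find h1, ?_, Nat.find_spec h1⟩
  rcases Nat.eq_zero_or_pos (Nat.find h1) with h2 | h2
  · rw [h2, h.zero]; exact Nat.zero_le n
  · have h3 := Nat.find_min h1 (m := Nat.find h1 - 1) (by omega)
    rw [show Nat.find h1 - 1 + 1 = Nat.find h1 by omega] at h3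
    omega

theorem LoopT.loc' (h : LoopT T σ K o t) {n : ℕ} (hn : 0 < n) : ∃ k, t k < n ∧ n ≤ t (k + 1) := by
  obtain ⟨k, h1, h2⟩ := h.loc (n - 1)
  exact ⟨k, by omega, by omega⟩

theorem LoopT.per_pos (h : LoopT T σ K o t) (hK : 0 < K) : 0 < H871.per T σ o := by
  have h1 := h.per 0
  have h2 := h.lt_iff.2 (show 0 < 0 + K by omega)
  omega

theorem LoopT.ld_per (h : LoopT T σ K o t) {n : ℕ} (hn : t 1 ≤ n) :
    LD T σ o t (n + H871.per T σ o) ↔ LD T σ o t n := by
  constructor
  · intro hl u i j h1 h2 h3 h4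
    have h5 := hl (u + K) (i + H871.per T σ o) (j + H871.per T σ o) (by rw [h.per]; omega)
      (by omega) (by omega) (by rw [show u + K + 2 = u + 2 + K by omega, h.per]; omega)
    rwa [sa_add_per, sa_add_per] at h5
  · intro hl u i j h1 h2 h3 h4
    have h5 : K ≤ u := by
      have h6 : t (1 + K) < t (u + 2) := by rw [h.per]; omega
      have := h.lt_iff.1 h6
      omega
    obtain ⟨v, rfl⟩ := Nat.exists_eq_add_of_le' h5
    rw [h.per] at h1
    rw [show v + K + 2 = v + 2 + K by omega, h.per] at h4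
    obtain ⟨i', rfl⟩ := Nat.exists_eq_add_of_le' (show H871.per T σ o ≤ i by omega)
    obtain ⟨j', rfl⟩ := Nat.exists_eq_add_of_le' (show H871.per T σ o ≤ j by omega)
    rw [sa_add_per, sa_add_per]
    exact hl v i' j' (by omega) (by omega) (by omega) (by omega)

/-- **Local membership in a window.** -/
theorem LoopT.disjOn_iff (h : LoopT T σ K o t) {a b k n α β : ℕ} (hα : t a ≤ α) (hβ : β ≤ t b)
    (hab : b + 1 ≤ a + K) (h1 : α ≤ t (k - 1)) (h2 : t (k + 2) ≤ β) (hk : 1 ≤ k)
    (hn1 : t k ≤ n) (hn2 : n < t (k + 1)) : DisjOn T σ o α β n ↔ LD T σ o t n := by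
  constructor
  · intro hd u i j h3 h4 h5 h6
    have h7 : u < k + 1 := h.lt_iff.1 (by omega)
    have h8 : k < u + 2 := h.lt_iff.1 (by omega)
    have h9 := h.mono (show k - 1 ≤ u by omega)
    have h10 := h.mono (show u + 2 ≤ k + 2 by omega)
    exact hd i j (by omega) h4 h5 (by omega)
  · intro hl i j h3 h4 h5 h6
    obtain ⟨u, hu1, hu2⟩ := h.loc i
    obtain ⟨v, hv1, hv2⟩ := h.loc' (n := j) (by omega)
    by_cases huv : v ≤ u + 1
    · exact hl u i j hu1 h4 h5 (hv2.trans (h.mono (by omega)))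
    · have h7 : v < b := h.lt_iff.1 (by omega)
      have h8 : a < u + 1 := h.lt_iff.1 (by omega)
      exact h.adj u v i j (by omega) (by omega) hu1 hu2.le hv1.le hv2

theorem disjOn_shift (c a b n : ℕ) :
    DisjOn T σ ((T.st σ)^[c] o) a b n ↔ DisjOn T σ o (c + a) (c + b) (c + n) := by
  constructor
  · intro hd i j h1 h2 h3 h4
    have h5 := hd (i - c) (j - c) (by omega) (by omega) (by omega) (by omega)
    rw [sa_add, sa_add] at h5
    rwa [show c + (i - c) = i by omega, show c + (j - c) = j by omega] at h5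
  · intro hd i j h1 h2 h3 h4
    rw [sa_add, sa_add]
    exact hd (c + i) (c + j) (by omega) (by omega) (by omega) (by omega)

/-- **The main class**: from a member, the members are the local members. -/
theorem LoopT.rel_iff [Finite D] (h : LoopT T σ K o t) {m n : ℕ} (hm : t 1 ≤ m)
    (hmi : T.Mi σ ((T.st σ)^[m] o)) (hml : LD T σ o t m) (h1 : m ≤ n)
    (h2 : n < m + H871.per T σ o) :
    T.Rel σ ((T.st σ)^[m] o) ((T.st σ)^[n] o) ↔
      T.Mi σ ((T.st σ)^[n] o) ∧ LD T σ o t n := by
  have e1 : (T.st σ)^[n] o = (T.st σ)^[n - m] ((T.st σ)^[m] o) := by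
    rw [← iterate_add_apply, Nat.sub_add_cancel h1]
  have e2 : H871.per T σ ((T.st σ)^[m] o) = H871.per T σ o := per_iter T σ o m
  rw [e1, rel_iter T hmi (by rw [e2]; omega), ← e1, disj_iff, e2]
  refine and_congr_right fun _ => ?_
  constructor
  · intro hd u i j h3 h4 h5 h6
    by_cases hi : i ≤ m
    · exact hml u i j h3 hi (by omega) h6
    by_cases hj : j ≤ m + H871.per T σ o
    · have h7 := hd (i - m) (j - m) (by omega) (by omega) (by omega) (by omega)
      rw [sa_add, sa_add] at h7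
      rwa [show m + (i - m) = i by omega, show m + (j - m) = j by omega] at h7
    · exact (h.ld_per hm).2 hml u i j h3 (by omega) (by omega) h6
  · intro hl i j h3 h4 h5 h6
    rw [sa_add, sa_add]
    obtain ⟨u, hu1, hu2⟩ := h.loc (m + i)
    obtain ⟨v, hv1, hv2⟩ := h.loc' (n := m + j) (by omega)
    by_cases huv : v ≤ u + 1
    · exact hl u (m + i) (m + j) hu1 (by omega) (by omega) (hv2.trans (h.mono (by omega)))
    by_cases huv' : v + 2 ≤ u + K
    · exact h.adj u v _ _ (by omega) huv' hu1 hu2.le hv1.le hv2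
    · have h7 : m + i + H871.per T σ o ≤ t (v + 2) := by
        have h8 := h.mono (show u + 1 + K ≤ v + 2 by omega)
        rw [h.per] at h8
        omega
      have h9 := (h.ld_per hm).2 hml v (m + j) (m + i + H871.per T σ o) hv1.le (by omega)
        (by omega) h7
      rw [sa_add_per] at h9
      exact h9.symm

/-- **There are members in any two consecutive pieces.** -/
theorem LoopT.exists_member [Finite D] (hPl : T.Planar) (h : LoopT T σ K o t) (hK : 5 ≤ K) {u : ℕ}
    (hu : 1 ≤ u) : ∃ n, t u ≤ n ∧ n < t (u + 2) ∧ T.Mi σ ((T.st σ)^[n] o) ∧ LD T σ o t n := by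
  classical
  -- the last time whose vertex is visited before `t u`
  have hex : ∃ k, t u ≤ k ∧ k ≤ t (u + 3) ∧ ∃ i, t (u - 1) ≤ i ∧ i ≤ t u ∧
      sa T σ o i = sa T σ o k :=
    ⟨t u, le_rfl, h.mono (by omega), t u, h.mono (by omega), le_rfl, rfl⟩
  let Pr : ℕ → Prop := fun k => t u ≤ k ∧ k ≤ t (u + 3) ∧ ∃ i, t (u - 1) ≤ i ∧ i ≤ t u ∧
      sa T σ o i = sa T σ o k
  obtain ⟨k0, hk0⟩ := hex
  set k := Nat.findGreatest Pr (t (u + 3)) with hk
  have hPk : Pr k := Nat.findGreatest_spec (P := Pr) hk0.2.1 hk0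
  have hmax : ∀ j, k < j → j ≤ t (u + 3) → ¬ Pr j := fun j h1 h2 =>
    Nat.findGreatest_is_greatest h1 h2
  obtain ⟨h1, h2, i0, h3, h4, h5⟩ := hPk
  -- `k` is before `t (u + 2)`
  have h6 : k < t (u + 2) := by
    by_contra hc
    push Not at hc
    obtain ⟨v, hv1, hv2⟩ := h.loc' (n := i0 + 1) (by omega)
    have hvu : v ≤ u := by
      have := h.lt_iff.1 (show t v < t (u + 1) by have := h.inc u; omega)
      omega
    -- `i0` is in the closed piece `u - 1`
    have := h.adj (u - 1) (u + 2) i0 k (by omega) (by omega) h3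
      (by rw [show u - 1 + 1 = u by omega]; exact h4) hc h2
    exact this h5
  have h7 : k < t (u + 3) := h6.trans (h.inc (u + 2))
  refine ⟨k, h1, h6, ?_, ?_⟩
  · refine mi_of_ne T h.bi fun he => hmax (k + 1) (by omega) (by omega) ?_
    exact ⟨by omega, by omega, i0, h3, h4, by rw [h5, he]⟩
  · intro w i j g1 g2 g3 g4 he
    have h8 : w < u + 2 := h.lt_iff.1 (by omega)
    have h9 : u < w + 2 := h.lt_iff.1 (by omega)
    have h10 := h.mono (show u - 1 ≤ w by omega)
    have h11 := h.mono (show w + 2 ≤ u + 3 by omega)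
    by_cases hi : i ≤ t u
    · exact hmax j g3 (by omega) ⟨by omega, by omega, i, by omega, hi, he⟩
    · by_cases hik : i = k
      · exact hmax j g3 (by omega) ⟨by omega, by omega, i0, h3, h4, by rw [h5, ← hik, he]⟩
      · have hper : t (u + 3) ≤ t (u - 1) + H871.per T σ o := by
          rw [← h.per]; exact h.mono (by omega)
        have := non_cross T hPl h.bi (i := i0) (j := i) (k := k) (l := j) (by omega) (by omega) g3
          (by omega) h5.symm he.symm
        exact hmax j g3 (by omega) ⟨by omega, by omega, i0, h3, h4, by rw [← this, he]⟩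

open Classical in
/-- The sum over the members at times in `[u, v)`. -/
noncomputable def msum {M : Type*} [AddCommMonoid M] (T : Tri V D) (σ : V → Bool) (o : D)
    (t : ℕ → ℕ) (u v : ℕ) (Θ : D → M) : M :=
  ∑ n ∈ Finset.Ico u v,
    if T.Mi σ ((T.st σ)^[n] o) ∧ LD T σ o t n then Θ ((T.st σ)^[n] o) else 0

theorem msum_add {M : Type*} [AddCommMonoid M] {u v w : ℕ} (h1 : u ≤ v) (h2 : v ≤ w)
    (Θ : D → M) : msum T σ o t u w Θ = msum T σ o t u v Θ + msum T σ o t v w Θ := by
  unfold msum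
  exact (Finset.sum_Ico_consecutive _ h1 h2).symm

theorem msum_zero {M : Type*} [AddCommMonoid M] {u v : ℕ} {Θ : D → M}
    (h : ∀ n, u ≤ n → n < v → Θ ((T.st σ)^[n] o) = 0) : msum T σ o t u v Θ = 0 := by
  unfold msum
  refine Finset.sum_eq_zero fun n hn => ?_
  rw [Finset.mem_Ico] at hn
  rw [h n hn.1 hn.2]
  simp

theorem msum_sum {M ι : Type*} [AddCommMonoid M] {u v : ℕ} (s : Finset ι) (Θ : ι → D → M) :
    msum T σ o t u v (fun g => ∑ i ∈ s, Θ i g) = ∑ i ∈ s, msum T σ o t u v (Θ i) := by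
  unfold msum
  rw [Finset.sum_comm]
  refine Finset.sum_congr rfl fun n _ => ?_
  split_ifs
  · rfl
  · simp

theorem iter_per (T : Tri V D) (σ : V → Bool) (o : D) (n : ℕ) :
    (T.st σ)^[n + H871.per T σ o] o = (T.st σ)^[n] o := by
  unfold H871.per
  rw [iterate_add_apply, iterate_minimalPeriod]

theorem LoopT.msum_shift (h : LoopT T σ K o t) {M : Type*} [AddCommMonoid M] {u v : ℕ}
    (hu : t 1 ≤ u) (Θ : D → M) :
    msum T σ o t (u + H871.per T σ o) (v + H871.per T σ o) Θ = msum T σ o t u v Θ := by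
  unfold msum
  rw [← Finset.sum_Ico_add']
  refine Finset.sum_congr rfl fun n hn => ?_
  rw [Finset.mem_Ico] at hn
  rw [iter_per, h.ld_per (by omega)]

/-- A full period can start anywhere. -/
theorem LoopT.msum_period (h : LoopT T σ K o t) {M : Type*} [AddCommMonoid M] {u v : ℕ}
    (hu : t 1 ≤ u) (huv : u ≤ v) (Θ : D → M) :
    msum T σ o t v (v + H871.per T σ o) Θ = msum T σ o t u (u + H871.per T σ o) Θ := by
  have key : ∀ w, t 1 ≤ w → msum T σ o t (w + 1) (w + 1 + H871.per T σ o) Θ =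
      msum T σ o t w (w + H871.per T σ o) Θ := by
    intro w hw
    by_cases hp : H871.per T σ o = 0
    · rw [hp]; simp [msum]
    have h1 := msum_add (T := T) (σ := σ) (o := o) (t := t) (show w ≤ w + 1 by omega)
      (show w + 1 ≤ w + H871.per T σ o by omega) Θ
    have h2 := msum_add (T := T) (σ := σ) (o := o) (t := t)
      (show w + 1 ≤ w + H871.per T σ o by omega)
      (show w + H871.per T σ o ≤ w + 1 + H871.per T σ o by omega) Θ
    have h3 := h.msum_shift (u := w) (v := w + 1) hw Θ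
    rw [h2, h1, show w + 1 + H871.per T σ o = (w + 1) + H871.per T σ o from rfl, ← h3, add_comm]
  obtain ⟨d, rfl⟩ := Nat.exists_eq_add_of_le huv
  induction d with
  | zero => rfl
  | succ d ih =>
    rw [← ih (by omega), show u + (d + 1) = (u + d) + 1 by omega]
    exact key (u + d) (by omega)

/-- **The value of the main class.** -/
theorem LoopT.cls_eq [Fintype D] (h : LoopT T σ K o t) {m : ℕ} (hm : t 1 ≤ m)
    (hmi : T.Mi σ ((T.st σ)^[m] o)) (hml : LD T σ o t m) {u : ℕ} (hu : t 1 ≤ u) (Θ : D → ℂ) :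
    T.cls σ ((T.st σ)^[m] o) Θ = msum T σ o t u (u + H871.per T σ o) Θ := by
  classical
  have e2 : H871.per T σ ((T.st σ)^[m] o) = H871.per T σ o := per_iter T σ o m
  have h1 : T.cls σ ((T.st σ)^[m] o) Θ = msum T σ o t m (m + H871.per T σ o) Θ := by
    unfold Tri.cls
    rw [cls_eq_sum T hmi Θ, e2]
    unfold msum
    rw [Finset.sum_Ico_eq_sum_range, Nat.add_sub_cancel_left]
    refine Finset.sum_congr rfl fun n hn => ?_
    rw [Finset.mem_range] at hn
    have e1 : (T.st σ)^[n] ((T.st σ)^[m] o) = (T.st σ)^[m + n] o := by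
      rw [← iterate_add_apply, add_comm]
    have h2 := h.rel_iff hm hmi hml (n := m + n) (by omega) (by omega)
    rw [← e1, rel_iter T hmi (by rw [e2]; exact hn)] at h2
    rw [← e1]
    by_cases h3 : T.Mi σ ((T.st σ)^[n] ((T.st σ)^[m] o)) ∧ T.Disj σ ((T.st σ)^[m] o) n
    · rw [if_pos h3, if_pos (h2.1 h3)]
    · rw [if_neg h3, if_neg (fun hc => h3 (h2.2 hc))]
  rw [h1]
  rcases le_total m u with h2 | h2
  · exact (h.msum_period hm h2 Θ).symm
  · exact h.msum_period hu h2 Θ

/-- **The value of a cell**: a weight seen only in the pieces `k - 1`, `k`, `k + 1`. -/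
theorem LoopT.cls_eq_seg [Fintype D] (h : LoopT T σ K o t) (hK : 8 ≤ K) {m : ℕ} (hm : t 1 ≤ m)
    (hmi : T.Mi σ ((T.st σ)^[m] o)) (hml : LD T σ o t m) {k : ℕ} (hk : 4 ≤ k) {Θ : D → ℂ}
    (hΘ : ∀ j n, t j ≤ n → n < t (j + 1) → Θ ((T.st σ)^[n] o) ≠ 0 →
      j % K = (k - 1) % K ∨ j % K = k % K ∨ j % K = (k + 1) % K) {α β : ℕ}
    (hα1 : t (k - 3) ≤ α) (hα2 : α ≤ t (k - 2)) (hβ1 : t (k + 3) ≤ β) (hβ2 : β ≤ t (k + 4)) :
    T.cls σ ((T.st σ)^[m] o) Θ = seg T σ ((T.st σ)^[α] o) (β - α) Θ := by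
  classical
  have hz : ∀ j n, t j ≤ n → n < t (j + 1) → (k + 2 ≤ j ∧ j + 2 ≤ k + K ∨ j + 2 ≤ k ∧
      k + 2 ≤ j + K) → Θ ((T.st σ)^[n] o) = 0 := by
    intro j n h1 h2 h3
    by_contra hc
    rcases hΘ j n h1 h2 hc with h4 | h4 | h4
    · rcases h3 with h3 | h3
      · exact mod_ne (show k - 1 < j by omega) (by omega) h4.symm
      · exact mod_ne (show j < k - 1 by omega) (by omega) h4
    · rcases h3 with h3 | h3
      · exact mod_ne (show k < j by omega) (by omega) h4.symm
      · exact mod_ne (show j < k by omega) (by omega) h4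
    · rcases h3 with h3 | h3
      · exact mod_ne (show k + 1 < j by omega) (by omega) h4.symm
      · exact mod_ne (show j < k + 1 by omega) (by omega) h4
  have hαβ : α ≤ β := by have := h.mono (show k - 2 ≤ k + 3 by omega); omega
  have h1 : t 1 ≤ t (k - 3) := h.mono (by omega)
  rw [h.cls_eq hm hmi hml h1 Θ, ← h.per]
  have g1 := h.mono (show k - 2 ≤ k - 1 by omega)
  have g2 := h.mono (show k - 1 ≤ k + 2 by omega)
  have g3 := h.mono (show k + 2 ≤ k + 3 by omega)
  have g4 := h.mono (show k + 4 ≤ k - 3 + K by omega)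
  have gz : ∀ a b n, k + 2 ≤ b + 1 → t a ≤ n → n < t b →
      (n < t (k - 1) ∨ t (k + 2) ≤ n) → (k - 3 ≤ a) → (b ≤ k - 3 + K) → Θ ((T.st σ)^[n] o) = 0 := by
    intro a b n _ h3 h4 h5 h6 h7
    obtain ⟨j, hj1, hj2⟩ := h.loc n
    refine hz j n hj1 hj2 ?_
    have h8 : j < b := h.lt_iff.1 (by omega)
    have h9 : a < j + 1 := h.lt_iff.1 (by omega)
    rcases h5 with h5 | h5
    · have : j < k - 1 := h.lt_iff.1 (by omega)
      right; omega
    · have : k + 2 < j + 1 := h.lt_iff.1 (by omega)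
      left; omega
  -- the sum over the period
  rw [msum_add (h.mono (show k - 3 ≤ k - 1 by omega))
    (h.mono (show k - 1 ≤ k - 3 + K by omega)), msum_add g2 (h.mono (show k + 2 ≤ k - 3 + K by omega)),
    msum_zero (u := t (k - 3)), msum_zero (u := t (k + 2)), zero_add, add_zero]
  · -- the piece
    unfold seg
    rw [show (0 : ℕ) = 0 from rfl, sideSum_shift, add_zero, show α + (β - α) = β by omega,
      sideSum_eq_mid, mid_add (show α ≤ t (k - 1) by omega) (show t (k - 1) ≤ β by omega),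
      mid_add g2 (show t (k + 2) ≤ β by omega)]
    have z1 : mid T σ o α β α (t (k - 1)) Θ = 0 := by
      unfold mid
      refine Finset.sum_eq_zero fun n hn => ?_
      rw [Finset.mem_Ico] at hn
      rw [gz (k - 3) (k + 4) n (by omega) (by omega)
        (by have := h.mono (show k - 1 ≤ k + 4 by omega); omega) (Or.inl hn.2) le_rfl (by omega)]
      simp
    have z2 : mid T σ o α β (t (k + 2)) β Θ = 0 := by
      unfold mid
      refine Finset.sum_eq_zero fun n hn => ?_
      rw [Finset.mem_Ico] at hn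
      rw [gz (k - 3) (k + 4) n (by omega)
        (by have := h.mono (show k - 3 ≤ k + 2 by omega); omega) (by omega) (Or.inr hn.1) le_rfl
        (by omega)]
      simp
    rw [z1, z2, zero_add, add_zero]
    unfold msum mid
    refine Finset.sum_congr rfl fun n hn => ?_
    rw [Finset.mem_Ico] at hn
    obtain ⟨j, hj1, hj2⟩ := h.loc n
    have h8 : j < k + 2 := h.lt_iff.1 (by omega)
    have h9 : k - 1 < j + 1 := h.lt_iff.1 (by omega)
    have hd : DisjOn T σ o α β n ↔ LD T σ o t n :=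
      h.disjOn_iff hα1 hβ2 (by omega) (hα2.trans (h.mono (by omega)))
        ((h.mono (show j + 2 ≤ k + 3 by omega)).trans hβ1) (by omega) hj1 hj2
    by_cases h10 : T.Mi σ ((T.st σ)^[n] o) ∧ LD T σ o t n
    · rw [if_pos h10, if_pos ⟨h10.1, hd.2 h10.2⟩]
    · rw [if_neg h10, if_neg (fun hc => h10 ⟨hc.1, hd.1 hc.2⟩)]
  · intro n hn1 hn2
    exact gz (k - 3) (k - 3 + K) n (by omega)
      (by have := h.mono (show k - 3 ≤ k + 2 by omega); omega) hn2 (Or.inr hn1) le_rfl le_rfl
  · intro n hn1 hn2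
    exact gz (k - 3) (k + 4) n (by omega) hn1
      (by have := h.mono (show k - 1 ≤ k + 4 by omega); omega) (Or.inl hn2) le_rfl (by omega)

end loop

end Vale.Agent.P148.R2.H565
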