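import Vale.Agent.P148.R2.H565.Loc15
import Vale.Agent.P148.R2.H504.Local
import Vale.Agent.P148.R2.H112.Ori3

/-!
# The feet of the comb are local; the value of a cell for the comb ring
-/

set_option linter.unusedSectionVars false

open Set Relation Metric Function

namespace Vale.Agent.P148.R2.H565

open Vale.Agent.P148.R2.H258 Vale.Agent.P148.R2.H871
open Vale.Agent.P148.R2.H184 (Dt cc LF dt Faith pc rt)
open Vale.Agent.P148.R2.H592 (HullTri nbr nbr_symm ConnIn Fc Fib idmap fib_id tail head vc)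
open Vale.Agent.P148.R2.N (ms nc gateC cellC gbox cell csq ms_pos)
open Vale.Agent.P148.R2.H959 (reg)
open Vale.Agent.P148.R2.H678 (core hub pin pout sd CBox CCr InGood OutGood Tooth Rails inHub outHub
  inRim outRim hbox mix mB mW Ex HubsGood mem_Ex mem_mix_of_mem mem_mix_of_not_mem hub_congr)
open Vale.Agent.P148.R2.H488 (cw hc Wd)
open Vale.Agent.P148.R2.H504 (NAgree ball_sub_hbox hub_loc)
open Vale.Agent.P148.R2.H291 (Stab)
open Vale.Agent.P148.R2.H419 (Col oco)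
open Vale.Agent.P148.R2.H995 (nsup)

/-! ### locality of the feet -/

section loc

variable {M k : ℕ} {X Y B B' : Set ℂ}

theorem core_loc {z : ℂ} {C C' : Set ℂ} (h : NAgree X Y (hbox M z))
    (hC : C' ∩ hbox M z = C ∩ hbox M z)
    (hin : hub (nbr X) (X ∩ ball z (sd M)) C ⊆ hbox M z) :
    core (nbr Y) (Y ∩ ball z (sd M)) C' = core (nbr X) (X ∩ ball z (sd M)) C := by
  have h1 : Y ∩ ball z (sd M) = X ∩ ball z (sd M) :=
    H938.inter_eq_of_sub h.pts (ball_sub_hbox M z)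
  have h2 : core (nbr Y) (X ∩ ball z (sd M)) C = core (nbr X) (X ∩ ball z (sd M)) C :=
    H678.core_congr_rel fun u hu v => h.nb u (hin (H678.core_sub_hub hu)) v
  have h3 : hub (nbr Y) (X ∩ ball z (sd M)) C = hub (nbr X) (X ∩ ball z (sd M)) C :=
    H678.hub_congr_rel fun u hu v => h.nb u (hin (H678.core_sub_hub hu)) v
  rw [h1, ← h2]
  refine H678.core_congr fun v hv => ?_
  rw [h3] at hv
  have h4 := hin hv
  constructor
  · intro h5
    exact (hC ▸ (⟨h5, h4⟩ : v ∈ C' ∩ hbox M z) : v ∈ C ∩ hbox M z).1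
  · intro h5
    exact (hC.symm ▸ (⟨h5, h4⟩ : v ∈ C ∩ hbox M z) : v ∈ C' ∩ hbox M z).1

theorem sdiff_inter_eq {A : Set ℂ} (hX : Y ∩ A = X ∩ A) (hB : B' ∩ A = B ∩ A) :
    (Y \ B') ∩ A = (X \ B) ∩ A := by
  ext z
  constructor
  · rintro ⟨⟨h1, h2⟩, h3⟩
    have h4 : z ∈ X ∩ A := hX ▸ ⟨h1, h3⟩
    refine ⟨⟨h4.1, fun h5 => h2 ?_⟩, h3⟩
    exact (hB.symm ▸ (⟨h5, h3⟩ : z ∈ B ∩ A) : z ∈ B' ∩ A).1
  · rintro ⟨⟨h1, h2⟩, h3⟩
    have h4 : z ∈ Y ∩ A := hX.symm ▸ ⟨h1, h3⟩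
    refine ⟨⟨h4.1, fun h5 => h2 ?_⟩, h3⟩
    exact (hB ▸ (⟨h5, h3⟩ : z ∈ B' ∩ A) : z ∈ B ∩ A).1

/-- **The feet of a good gate are local.** -/
theorem Foot_loc (hM : 0 < M) (h : NAgree X Y (gbox M k)) (hB : B' ∩ gbox M k = B ∩ gbox M k)
    (hin : InGood M X (X \ B) k) (hout : OutGood M X B k) (a : ℂ × ℂ) :
    Foot M Y B' k a ↔ Foot M X B k a := by
  have s1 := H995.hbox_pin_sub hM k
  have s2 := H995.hbox_pout_sub hM k
  have hBi : B' ∩ hbox M (pout M k) = B ∩ hbox M (pout M k) := H938.inter_eq_of_sub hB s2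
  have hWi : (Y \ B') ∩ hbox M (pin M k) = (X \ B) ∩ hbox M (pin M k) :=
    H938.inter_eq_of_sub (sdiff_inter_eq h.pts hB) s1
  have e1 : inHub M Y (Y \ B') k = inHub M X (X \ B) k := hub_loc (h.mono s1) hWi hin
  have e2 : outHub M Y B' k = outHub M X B k := hub_loc (h.mono s2) hBi hout
  have e3 : inRim M Y (Y \ B') k = inRim M X (X \ B) k := by
    unfold inRim H678.rim
    rw [core_loc (h.mono s1) hWi hin]
    exact congrArg (fun S => S \ core (nbr X) (X ∩ ball (pin M k) (sd M)) (X \ B)) e1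
  have e4 : outRim M Y B' k = outRim M X B k := by
    unfold outRim H678.rim
    rw [core_loc (h.mono s2) hBi hout]
    exact congrArg (fun S => S \ core (nbr X) (X ∩ ball (pout M k) (sd M)) B) e2
  have hb : ∀ z ∈ gbox M k, (z ∈ B' ↔ z ∈ B) := by
    intro z hz
    constructor
    · intro h5
      exact (hB ▸ (⟨h5, hz⟩ : z ∈ B' ∩ gbox M k) : z ∈ B ∩ gbox M k).1
    · intro h5
      exact (hB.symm ▸ (⟨h5, hz⟩ : z ∈ B ∩ gbox M k) : z ∈ B' ∩ gbox M k).1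
  unfold Foot
  rw [e1, e2, e3, e4]
  constructor
  · rintro ⟨n, v, h0, h1, h2, h3, h4, h5, h6, h7⟩
    exact ⟨n, v, h0, fun i hi => (h.nb _ (h7 i hi.le) _).1 (h1 i hi), h2, h3, h4, h5,
      fun i hi hin => ⟨fun hc => (h6 i hi hin).1 ((hb _ (h7 i hin.le)).2 hc), (h6 i hi hin).2⟩, h7⟩
  · rintro ⟨n, v, h0, h1, h2, h3, h4, h5, h6, h7⟩
    exact ⟨n, v, h0, fun i hi => (h.nb _ (h7 i hi.le) _).2 (h1 i hi), h2, h3, h4, h5,
      fun i hi hin => ⟨fun hc => (h6 i hi hin).1 ((hb _ (h7 i hin.le)).1 hc), (h6 i hi hin).2⟩, h7⟩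

end loc

/-! ### the feet of the comb data -/

section col

variable {M : ℕ} {X : Set ℂ} {b : ZMod 3 → ℂ} {Bl₁ Wh₁ Bl₂ Wh₂ B : Set ℂ} {s : ℂ → Bool}

section basic

variable (hC : Col M X b Bl₁ Wh₁ Bl₂ Wh₂ s) (hB : ∀ z ∈ X, (z ∈ B ↔ s z = true))
include hC hB

theorem col_in (k : ℕ) : ∀ v ∈ inHub M X Wh₁ k, (v ∈ X \ B ↔ v ∈ Wh₁) := by
  intro v hv
  have hvX : v ∈ X := H678.hub_sub_X hv
  have hE : v ∈ Ex M X Bl₁ Wh₁ := mem_iUnion.2 ⟨k, Or.inl hv⟩
  have h1 := hC.cW v hvX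
  unfold mW at h1
  rw [mem_mix_of_mem hE] at h1
  rw [h1, mem_sdiff, hB v hvX]
  simp [hvX]

theorem col_out (k : ℕ) : ∀ v ∈ outHub M X Bl₁ k, (v ∈ B ↔ v ∈ Bl₁) := by
  intro v hv
  have hvX : v ∈ X := H678.hub_sub_X hv
  have hE : v ∈ Ex M X Bl₁ Wh₁ := mem_iUnion.2 ⟨k, Or.inr hv⟩
  have h1 := hC.cB v hvX
  unfold mB at h1
  rw [mem_mix_of_mem hE] at h1
  rw [h1, hB v hvX]

theorem col_core_in (k : ℕ) : core (nbr X) (X ∩ ball (pin M k) (sd M)) (X \ B) =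
    core (nbr X) (X ∩ ball (pin M k) (sd M)) Wh₁ := H678.core_congr (col_in hC hB k)

theorem col_core_out (k : ℕ) : core (nbr X) (X ∩ ball (pout M k) (sd M)) B =
    core (nbr X) (X ∩ ball (pout M k) (sd M)) Bl₁ := H678.core_congr (col_out hC hB k)

theorem col_inHub (k : ℕ) : inHub M X (X \ B) k = inHub M X Wh₁ k := by
  unfold inHub hub
  rw [col_core_in hC hB]

theorem col_outHub (k : ℕ) : outHub M X B k = outHub M X Bl₁ k := by
  unfold outHub hub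
  rw [col_core_out hC hB]

theorem col_inRim (k : ℕ) : inRim M X (X \ B) k = inRim M X Wh₁ k := by
  unfold inRim H678.rim hub
  rw [col_core_in hC hB]

theorem col_outRim (k : ℕ) : outRim M X B k = outRim M X Bl₁ k := by
  unfold outRim H678.rim hub
  rw [col_core_out hC hB]

theorem col_inGood (k : ℕ) : InGood M X (X \ B) k := by
  unfold InGood
  rw [col_inHub hC hB]
  exact hC.comb.inG' k

theorem col_outGood (k : ℕ) : OutGood M X B k := by
  unfold OutGood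
  rw [col_outHub hC hB]
  exact hC.comb.outG' k

theorem col_off {v : ℂ} (hv : v ∈ Wh₂) (hE : v ∉ Ex M X Bl₁ Wh₁) : v ∉ B := by
  have hvX : v ∈ X := hC.comb.w2 hv
  have h1 := hC.cW v hvX
  unfold mW at h1
  rw [mem_mix_of_not_mem hE] at h1
  rw [hB v hvX, h1.1 hv]
  exact Bool.false_ne_true

/-- Every gate has a foot. -/
theorem col_exists_Foot (k : ℕ) : ∃ a, Foot M X B k a := by
  have hM := hC.hM
  obtain ⟨n, v, h0, h1, h2, h3, h4, h5⟩ := hC.good.tooth_link hM hC.comb.w2 (hC.comb.tooth' k)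
  refine ⟨(v 0, v 1), n, v, h0, h1, rfl, rfl, ?_, ?_, ?_, fun i hi => H995.tooth_sub hM k (h5 i hi)⟩
  · rw [col_inRim hC hB]; exact h2
  · rw [col_outRim hC hB]; exact h3
  · intro i hi hin
    obtain ⟨g1, g2⟩ := h4 i hi hin
    rw [col_inHub hC hB, col_outHub hC hB]
    exact ⟨col_off hC hB g1 g2, fun hc => g2 (mem_iUnion.2 ⟨k, Or.inl hc⟩),
      fun hc => g2 (mem_iUnion.2 ⟨k, Or.inr hc⟩)⟩

theorem col_false {v : ℂ} (hv : v ∈ X) (h : v ∉ B) : s v = false := by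
  have := (hB v hv).not.1 h
  simpa using this

/-- **A foot of a gate is an admissible foot on the triangulation.** -/
theorem col_footOK (x₀ : X) {k : ℕ} {a : ℂ × ℂ} (ha : Foot M X B k a) :
    ∃ g : Fc X b × ZMod 3, ed (dt g) = a ∧ H419.Foot hC.hull x₀ M Bl₁ Wh₁ s k g := by
  have hM := hC.hM
  obtain ⟨n, v, h0, h1, h2, h3, h4, h5, h6, h7⟩ := ha
  rw [col_inRim hC hB] at h4
  rw [col_outRim hC hB] at h5
  have hH := hC.hubs x₀
  have hX : ∀ i ≤ n, v i ∈ X := by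
    intro i hi
    rcases Nat.eq_zero_or_pos i with rfl | h8
    · exact (h1 0 h0).1
    · have := (h1 (i - 1) (by omega)).2.1
      rwa [show i - 1 + 1 = i by omega] at this
  -- positions of the two ends
  have p0 : v 0 ∈ inHub M X Wh₁ k := h4.1
  have pn : v n ∈ outHub M X Bl₁ k := h5.1
  have q0 : v 0 ∈ csq (pin M k) (ms M / 16) := hbox_sub_csq hM _ (hC.comb.inG' k p0)
  have qn : v n ∈ csq (pout M k) (ms M / 16) := hbox_sub_csq hM _ (hC.comb.outG' k pn)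
  have o0 : ∀ i, 0 < i → i ≤ n → v i ∉ core (nbr X) (X ∩ ball (pin M k) (sd M)) Wh₁ := by
    intro i hi hin hcon
    rcases hin.lt_or_eq with h8 | h8
    · have := (h6 i hi h8).2.1
      rw [col_inHub hC hB] at this
      exact this (H678.core_sub_hub hcon)
    · subst h8
      exact csq_disj hM k (hbox_sub_csq hM _ (hC.comb.inG' k (H678.core_sub_hub hcon))) qn
  have o1 : ∀ i, i ≤ n → v i ∉ core (nbr X) (X ∩ ball (pout M k) (sd M)) Bl₁ := by
    intro i hin hcon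
    rcases Nat.eq_zero_or_pos i with h8 | hi
    · subst h8
      exact csq_disj hM k q0 (hbox_sub_csq hM _ (hC.comb.outG' k (H678.core_sub_hub hcon)))
    rcases hin.lt_or_eq with h8 | h8
    · have := (h6 i hi h8).2.2
      rw [col_outHub hC hB] at this
      exact this (H678.core_sub_hub hcon)
    · subst h8
      exact h5.2 hcon
  -- the walk from `v 1` to `v n`
  obtain ⟨l, l1, l2⟩ := HT_walk_seq' hC.hull x₀ (n := n - 1) (v := fun i => v (i + 1))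
    (fun i hi => h1 (i + 1) (by omega)) (fun i hi => hX (i + 1) (by omega))
  simp only [Nat.zero_add] at l1
  have hn : (⟨v (n - 1 + 1), hX (n - 1 + 1) (by omega)⟩ : X) = ⟨v n, hX n le_rfl⟩ := by
    apply Subtype.ext
    show v (n - 1 + 1) = v n
    rw [show n - 1 + 1 = n by omega]
  rw [hn] at l1
  -- the full walk, backwards
  obtain ⟨m, m1, m2⟩ := HT_walk_seq' hC.hull x₀ h1 hX
  have fn : Far (HT hC.hull x₀) (vs (core (nbr X) (X ∩ ball (pin M k) (sd M)) Wh₁))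
      ⟨b 0, hC.hull.mem 0⟩ ⟨v n, hX n le_rfl⟩ := by
    refine far_of_box (hH.outH k) (fun z hz => hH.sub k (Or.inl hz)) (hH.connH k) ?_
    exact fun hcon => csq_disj hM k hcon qn
  have f1 : Far (HT hC.hull x₀) (vs (core (nbr X) (X ∩ ball (pin M k) (sd M)) Wh₁))
      ⟨b 0, hC.hull.mem 0⟩ ⟨v 1, hX 1 h0⟩ := by
    refine fn.walk l1 fun g hg => ?_
    obtain ⟨i, hi, g1, g2⟩ := l2 g hg
    constructor
    · rw [mem_vs, g1]; exact o0 (i + 1) (by omega) (by omega)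
    · rw [mem_vs, g2]; exact o0 (i + 1 + 1) (by omega) (by omega)
  obtain ⟨g, g1, g2⟩ := HT_dart hC.hull x₀ (x := ⟨v 0, hX 0 h0.le⟩) (y := ⟨v 1, hX 1 h0⟩) (h1 0 h0)
  have hsg : (((HT hC.hull x₀).src g : X) : ℂ) = v 0 := by rw [g1]
  have htg : (((HT hC.hull x₀).tgt g : X) : ℂ) = v 1 := by rw [g2]
  have f0 : Far (HT hC.hull x₀) (vs (core (nbr X) (X ∩ ball (pin M k) (sd M)) Wh₁))
      ⟨b 0, hC.hull.mem 0⟩ ((HT hC.hull x₀).src g) := by
    refine Far.walk (v := (HT hC.hull x₀).tgt g) (by rw [g2]; exact f1) (Tri.Walk.single g) ?_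
    intro g' hg'
    rw [List.mem_singleton] at hg'
    subst hg'
    refine ⟨?_, ?_⟩
    · rw [mem_vs, hsg]; exact h4.2
    · rw [mem_vs, htg]; exact o0 1 one_pos h0
  -- the far outer rim
  have F0 : Far (HT hC.hull x₀) (vs (oco M X Bl₁ k)) ⟨b 0, hC.hull.mem 0⟩
      ⟨v 0, hX 0 h0.le⟩ := by
    refine far_of_box (hH.outH' k) (fun z hz => hH.sub' k (Or.inl hz)) (hH.connH' k) ?_
    exact fun hcon => csq_disj hM k q0 hcon
  have Fn : Far (HT hC.hull x₀) (vs (oco M X Bl₁ k)) ⟨b 0, hC.hull.mem 0⟩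
      ⟨v n, hX n le_rfl⟩ := by
    refine F0.walk m1.reverse (rev_walk_off fun g hg => ?_)
    obtain ⟨i, hi, g1, g2⟩ := m2 g hg
    constructor
    · rw [mem_vs, g1]; exact o1 i (by omega)
    · rw [mem_vs, g2]; exact o1 (i + 1) (by omega)
  have white : ∀ i, 0 < i → i ≤ n → s (v i) = !true := by
    intro i hi hin
    rw [Bool.not_true]
    rcases hin.lt_or_eq with h8 | h8
    · exact col_false hC hB (hX i hin) (h6 i hi h8).1
    · rw [h8]
      refine col_false hC hB (hX n le_rfl) ?_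
      rw [col_out hC hB k _ pn]
      exact H678.rim_not h5
  refine ⟨g, ?_, ⟨f0, ?_⟩, ?_, ?_, ⟨v n, hX n le_rfl⟩, ⟨Fn, ?_⟩, l, ?_, ?_⟩
  · refine Prod.ext ?_ ?_
    · show tail g = a.1
      rw [← HT_src hC.hull x₀ g, hsg, h2]
    · show head g = a.2
      rw [← HT_tgt hC.hull x₀ g, htg, h3]
  · obtain ⟨u, hu, huv⟩ := H678.rim_nbr h4
    obtain ⟨d, d1, d2⟩ := HT_dart hC.hull x₀ (x := ⟨v 0, hX 0 h0.le⟩) (y := ⟨u, huv.1⟩)
      (nbr_symm huv)
    refine ⟨d, by rw [d1, g1], ?_⟩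
    rw [d2]; exact hu
  · show s (((HT hC.hull x₀).tgt g : X) : ℂ) = _
    rw [htg]; exact white 1 one_pos h0
  · rw [mem_vs, htg]; exact h7 1 h0
  · obtain ⟨u, hu, huv⟩ := H678.rim_nbr h5
    obtain ⟨d, d1, d2⟩ := HT_dart hC.hull x₀ (x := ⟨v n, hX n le_rfl⟩) (y := ⟨u, huv.1⟩)
      (nbr_symm huv)
    refine ⟨d, d1, ?_⟩
    rw [d2]; exact hu
  · rw [g2]; exact l1
  · intro g' hg'
    obtain ⟨i, hi, e1, e2⟩ := l2 g' hg'
    constructor
    · show s (((HT hC.hull x₀).tgt g' : X) : ℂ) = _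
      rw [e2]; exact white (i + 1 + 1) (by omega) (by omega)
    · rw [mem_vs, e2]; exact h7 (i + 1 + 1) (by omega)

end basic

/-! ### the value of a cell -/

section val

variable (hC : Col M X b Bl₁ Wh₁ Bl₂ Wh₂ s)

/-- The comb ring with all choices of its feet, positively oriented. -/
theorem col_PF {i₀ : ℂ} (hi₀ : i₀ ∈ X) (hin : nsup i₀ ≤ 1 - ms M / 8) (hM : 2 ≤ M) (x₀ : X)
    {g₀ : Fc X b × ZMod 3} (hg : (HT hC.hull x₀).src g₀ = ⟨b 0, hC.hull.mem 0⟩) :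
    PF (HT hC.hull x₀) (fun v => s v.1) true (nc M)
      (fun k => H419.Foot hC.hull x₀ M Bl₁ Wh₁ s k) (fun k => vs (reg M k)) g₀ := by
  have := hC.hull.finite_Fc
  have hnc : nc M = 8 * M + 4 := by unfold nc; ring
  have h1 := (hC.hubs x₀).cf (HT_planar hC.hull x₀) (show 12 ≤ nc M by omega)
  refine ⟨by rw [hg]; exact h1, fun d hd k => ?_⟩
  obtain ⟨P, Q, hR⟩ := h1.ring d hd.1 hd.2
  exact H112.pos_ring hC hi₀ hin hd.1 hd.2 hR hg k

theorem exists_g0 (h : HullTri X b) (x₀ : X) : ∃ g₀, (HT h x₀).src g₀ = ⟨b 0, h.mem 0⟩ := by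
  obtain ⟨g₀, hg, -⟩ := HT_dart h x₀ (x := ⟨b 0, h.mem 0⟩) (y := ⟨b (0 + 1), h.mem _⟩)
    (nbr_symm (h.nbr_hull 0))
  exact ⟨g₀, hg⟩

/-- The neighbourhoods of the feet are seen in the window. -/
def NWin (M κ : ℕ) (X : Set ℂ) : Prop :=
  NAgree X (X ∩ Wd M κ) (gbox M (gb M κ)) ∧ NAgree X (X ∩ Wd M κ) (gbox M (gb M κ + 5))

include hC in
theorem col_loc (hB : ∀ z ∈ X, (z ∈ B ↔ s z = true)) {κ : ℕ} (hN : NWin M κ X) {j : ℕ}
    (hj : j = gb M κ ∨ j = gb M κ + 5) (hg : gbox M j ⊆ Wd M κ) (a : ℂ × ℂ) :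
    Foot M (X ∩ Wd M κ) (B ∩ Wd M κ) j a ↔ Foot M X B j a := by
  have hb : (B ∩ Wd M κ) ∩ gbox M j = B ∩ gbox M j := by
    rw [inter_assoc, inter_eq_self_of_subset_right hg]
  rcases hj with rfl | rfl
  · exact Foot_loc hC.hM hN.1 hb (col_inGood hC hB _) (col_outGood hC hB _) a
  · exact Foot_loc hC.hM hN.2 hb (col_inGood hC hB _) (col_outGood hC hB _) a

theorem gbox_Wd (hM : 0 < M) {κ j : ℕ} (hj : j = gb M κ ∨ j = gb M κ + 5) :
    ∀ z ∈ gbox M j, z ∈ csq (cellC M κ) (21 / 8 * ms M) := by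
  intro z hz
  have hnc : nc M = 8 * M + 4 := by unfold nc; ring
  have hgb : gb M κ = κ + (nc M - 2) := rfl
  have key : ∀ i, κ + nc M ≤ i + 2 → i ≤ κ + nc M + 2 → z ∈ reg M i →
      z ∈ csq (cellC M κ) (21 / 8 * ms M) := by
    intro i h1 h2 hz
    have h3 := H959.reg_subset_window hM (k := κ + nc M) (n := 2) (j := i) h1 h2 hz
    rw [N.cellC_add_nc] at h3
    obtain ⟨a1, a2⟩ := h3
    push_cast at a1 a2
    exact ⟨by linarith, by linarith⟩
  rcases hj with rfl | rfl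
  · exact key (gb M κ) (by omega) (by omega) (H959.gbox_subset_reg M _ hz)
  · exact key (gb M κ + 4) (by omega) (by omega) (H959.gbox_succ_subset_reg hM _ hz)

/-- **The class of the members of the main cycle of the comb, with a weight in the cell `κ`.** -/
theorem col_cls [Fintype (Fc X b × ZMod 3)] (hB : ∀ z ∈ X, (z ∈ B ↔ s z = true)) {i₀ : ℂ}
    (hi₀ : i₀ ∈ X) (hin : nsup i₀ ≤ 1 - ms M / 8) (hM : 2 ≤ M) (x₀ : X) {κ : ℕ} (hκ : 1 ≤ κ)
    (hN : NWin M κ X) {r : ℝ} (hF : SmallR M X b r) (hr : 0 ≤ r) (hr' : r < ms M / 16)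
    {Θ : Dt → ℂ} {d : ℕ → Fc X b × ZMod 3} {t : ℕ → ℕ}
    (hd : Fam (nc M) (fun k => H419.Foot hC.hull x₀ M Bl₁ Wh₁ s k) d)
    (ht : LT (HT hC.hull x₀) (fun v => s v.1) (nc M) d (fun k => vs (reg M k)) t)
    {g : Fc X b × ZMod 3} (hg : MemD (HT hC.hull x₀) (fun v => s v.1) (d 0) t g) :
    (HT hC.hull x₀).cls (fun v => s v.1) g (fun q => cw (hc M κ) Θ (dt q)) =
      cellV M X B (cw (hc M κ) Θ) κ := by
  obtain ⟨g₀, hg₀⟩ := exists_g0 hC.hull x₀
  refine (col_PF hC hi₀ hin hM x₀ hg₀).value hM hκ (fun j a ha => ?_)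
    (fun j => col_exists_Foot hC hB j) (fun z hz _ => hB z hz) (fun j hj a => ?_) hF hr hr' hd ht hg
  · exact col_footOK hC hB x₀ ha
  · refine col_loc hC hB hN hj (fun z hz => ?_) a
    have h0 := ms_pos hC.hM
    obtain ⟨a1, a2⟩ := gbox_Wd hC.hM hj z hz
    exact ⟨by linarith, by linarith⟩

/-- **The value of a cell of the comb ring, from any two admissible feet.** -/
theorem col_seg (hB : ∀ z ∈ X, (z ∈ B ↔ s z = true)) {i₀ : ℂ}
    (hi₀ : i₀ ∈ X) (hin : nsup i₀ ≤ 1 - ms M / 8) (hM : 2 ≤ M) (x₀ : X) {κ : ℕ} (hκ : 1 ≤ κ)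
    (hN : NWin M κ X) {r : ℝ} (hF : SmallR M X b r) (hr : 0 ≤ r) (hr' : r < ms M / 16)
    {Θ : Dt → ℂ} {q q' : Fc X b × ZMod 3}
    (hq : H419.Foot hC.hull x₀ M Bl₁ Wh₁ s (gb M κ) q)
    (hq' : H419.Foot hC.hull x₀ M Bl₁ Wh₁ s (gb M κ + 5) q') {n : ℕ}
    (hn : n < H871.per (HT hC.hull x₀) (fun v => s v.1) q)
    (hit : ((HT hC.hull x₀).st (fun v => s v.1))^[n] q = q') :
    seg (HT hC.hull x₀) (fun v => s v.1) q n (fun g => cw (hc M κ) Θ (dt g)) =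
      cellV M X B (cw (hc M κ) Θ) κ := by
  have hfin : Finite (Fc X b × ZMod 3) := by
    have := hC.hull.finite_Fc
    infer_instance
  have : Fintype (Fc X b × ZMod 3) := Fintype.ofFinite _
  have hM0 : 0 < M := by omega
  have hnc : nc M = 8 * M + 4 := by unfold nc; ring
  have hgb : gb M κ = κ + (nc M - 2) := rfl
  have hPl := HT_planar hC.hull x₀
  obtain ⟨g₀, hg₀⟩ := exists_g0 hC.hull x₀
  have hPF := col_PF hC hi₀ hin hM x₀ hg₀
  obtain ⟨d, hd⟩ := hPF.cf.exists_fam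
  obtain ⟨t, ht⟩ := hPF.exists_lt hPl hd
  obtain ⟨m, n1, n2, n3, n4⟩ := ht.loop.exists_member hPl (by omega) (u := 1) le_rfl
  have hg : MemD (HT hC.hull x₀) (fun v => s v.1) (d 0) t
    (((HT hC.hull x₀).st (fun v => s v.1))^[m] (d 0)) := ⟨m, n1, rfl, n3, n4⟩
  obtain ⟨-, N, -, hNper, hNq, -, hcls⟩ := hPF.cell hPl hd ht hg (k := gb M κ + 2)
    (by omega) (Θ := fun q => cw (hc M κ) Θ (dt q)) (fun j q1 h1 h2 h3 h4 => by
      have h5 : tail q1 ∈ reg M j := by rw [← HT_src hC.hull x₀ q1]; exact h1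
      have h6 := hF.cells hM0 hr hr' hκ h5 h4
      have e1 : (gb M κ + 2 - 1) % nc M = (κ - 1) % nc M := by
        rw [show gb M κ + 2 - 1 = (κ - 1) + nc M by omega, Nat.add_mod_right]
      have e2 : (gb M κ + 2) % nc M = κ % nc M := by
        rw [show gb M κ + 2 = κ + nc M by omega, Nat.add_mod_right]
      have e3 : (gb M κ + 2 + 1) % nc M = (κ + 1) % nc M := by
        rw [show gb M κ + 2 + 1 = (κ + 1) + nc M by omega, Nat.add_mod_right]
      rw [e1, e2, e3]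
      exact h6) (a := q) (b := q') hq hq'
  have e : n = N := iter_unique hn hNper hit hNq
  rw [e, ← hcls]
  exact col_cls hC hB hi₀ hin hM x₀ hκ hN hF hr hr' hd ht hg

end val

end col

end Vale.Agent.P148.R2.H565
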