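import Vale.Agent.P148.R2.H565.Loc1

/-!
# Cut times, additivity of side sums, chains of tubes
-/

namespace Vale.Agent.P148.R2.H565

open Function Vale.Agent.P148.R2.H258 Vale.Agent.P148.R2.H871

variable {V D : Type*}

/-- `t` is a cut time of the strand of `o` between `a` and `b`: a source visited both before and
after `t` is the source at time `t`. -/
def Cut (T : Tri V D) (σ : V → Bool) (o : D) (a t b : ℕ) : Prop :=
  ∀ i j, a ≤ i → i ≤ t → t ≤ j → j ≤ b → sa T σ o i = sa T σ o j → sa T σ o i = sa T σ o t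

variable {T : Tri V D} {σ : V → Bool} {o : D}

theorem Cut.mono {a t b a' b' : ℕ} (h : Cut T σ o a t b) (ha : a ≤ a') (hb : b' ≤ b) :
    Cut T σ o a' t b' :=
  fun i j h1 h2 h3 h4 h5 => h i j (by omega) h2 h3 (by omega) h5

theorem disjOn_cut_left {a t b n : ℕ} (h : Cut T σ o a t b) (hn : n < t) (htb : t ≤ b) :
    DisjOn T σ o a b n ↔ DisjOn T σ o a t n := by
  constructor
  · intro hD i j h1 h2 h3 h4
    exact hD i j h1 h2 h3 (by omega)
  · intro hD i j h1 h2 h3 h4 h5
    by_cases hj : j ≤ t
    · exact hD i j h1 h2 h3 hj h5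
    · exact hD i t h1 h2 hn le_rfl (h i j h1 (by omega) (by omega) h4 h5)

theorem disjOn_cut_right {a t b n : ℕ} (h : Cut T σ o a t b) (hn : t ≤ n) (hat : a ≤ t) :
    DisjOn T σ o a b n ↔ DisjOn T σ o t b n := by
  constructor
  · intro hD i j h1 h2 h3 h4
    exact hD i j (by omega) h2 h3 h4
  · intro hD i j h1 h2 h3 h4 h5
    by_cases hi : t ≤ i
    · exact hD i j hi h2 h3 h4 h5
    · have := h i j h1 (by omega) (by omega) h4 h5
      exact hD t j le_rfl hn h3 h4 (by rw [← this, h5])

/-- Side sums are additive at cut times. -/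
theorem sideSum_cut {M : Type*} [AddCommMonoid M] {a t b : ℕ} (h : Cut T σ o a t b) (hat : a ≤ t)
    (htb : t ≤ b) (Θ : D → M) :
    sideSum T σ o a b Θ = sideSum T σ o a t Θ + sideSum T σ o t b Θ := by
  unfold sideSum
  rw [← Finset.sum_Ico_consecutive _ hat htb]
  congr 1
  · apply Finset.sum_congr rfl
    intro n hn
    rw [Finset.mem_Ico] at hn
    rw [disjOn_cut_left h hn.2 htb]
  · apply Finset.sum_congr rfl
    intro n hn
    rw [Finset.mem_Ico] at hn
    rw [disjOn_cut_right h hn.1 hat]

theorem sideSum_self {M : Type*} [AddCommMonoid M] (a : ℕ) (Θ : D → M) :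
    sideSum T σ o a a Θ = 0 := by
  unfold sideSum; simp

/-- Side sums over several cut times. -/
theorem sideSum_cuts {M : Type*} [AddCommMonoid M] (t : ℕ → ℕ) {j k : ℕ} (hjk : j ≤ k)
    (hmono : ∀ i, j ≤ i → i < k → t i ≤ t (i + 1))
    (h : ∀ i, j ≤ i → i ≤ k → Cut T σ o (t j) (t i) (t k)) (Θ : D → M) :
    sideSum T σ o (t j) (t k) Θ = ∑ i ∈ Finset.Ico j k, sideSum T σ o (t i) (t (i + 1)) Θ := by
  have hm : ∀ i, j ≤ i → i ≤ k → t j ≤ t i ∧ t i ≤ t k := by
    have h1 : ∀ n, j + n ≤ k → t j ≤ t (j + n) := by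
      intro n
      induction n with
      | zero => intro _; exact le_rfl
      | succ n ih => intro hn; exact (ih (by omega)).trans (hmono _ (by omega) (by omega))
    have h2 : ∀ n, j + n ≤ k → t (k - n) ≤ t k := by
      intro n
      induction n with
      | zero => intro _; exact le_rfl
      | succ n ih =>
        intro hn
        refine le_trans ?_ (ih (by omega))
        have := hmono (k - (n + 1)) (by omega) (by omega)
        rwa [show k - (n + 1) + 1 = k - n by omega] at this
    intro i hi1 hi2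
    constructor
    · have := h1 (i - j) (by omega)
      rwa [show j + (i - j) = i by omega] at this
    · have := h2 (k - i) (by omega)
      rwa [show k - (k - i) = i by omega] at this
  have key : ∀ n, j + n ≤ k → sideSum T σ o (t j) (t (j + n)) Θ =
      ∑ i ∈ Finset.Ico j (j + n), sideSum T σ o (t i) (t (i + 1)) Θ := by
    intro n
    induction n with
    | zero => intro _; simp [sideSum_self]
    | succ n ih =>
      intro hn
      have hc : Cut T σ o (t j) (t (j + n)) (t (j + (n + 1))) :=
        (h (j + n) (by omega) (by omega)).mono le_rfl (hm _ (by omega) (by omega)).2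
      rw [sideSum_cut hc (hm _ (by omega) (by omega)).1 (hmono _ (by omega) (by omega)),
        ih (by omega), show j + (n + 1) = j + n + 1 by ring, Finset.sum_Ico_succ_top (by omega)]
  have := key (k - j) (by omega)
  rwa [show j + (k - j) = k by omega] at this

/-- Shift of the starting dart. -/
theorem sideSum_shift {M : Type*} [AddCommMonoid M] (c a b : ℕ) (Θ : D → M) :
    sideSum T σ ((T.st σ)^[c] o) a b Θ = sideSum T σ o (c + a) (c + b) Θ := by
  unfold sideSum
  rw [add_comm c a, add_comm c b, ← Finset.sum_Ico_add']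
  apply Finset.sum_congr rfl
  intro n _
  have e1 : (T.st σ)^[n] ((T.st σ)^[c] o) = (T.st σ)^[n + c] o :=
    (iterate_add_apply _ n c o).symm
  have e2 : DisjOn T σ ((T.st σ)^[c] o) a b n ↔ DisjOn T σ o (a + c) (b + c) (n + c) := by
    constructor
    · intro hD i j h1 h2 h3 h4
      have := hD (i - c) (j - c) (by omega) (by omega) (by omega) (by omega)
      rw [sa_add, sa_add, show c + (i - c) = i by omega, show c + (j - c) = j by omega] at this
      exact this
    · intro hD i j h1 h2 h3 h4
      rw [sa_add, sa_add, add_comm c i, add_comm c j]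
      exact hD (i + c) (j + c) (by omega) (by omega) (by omega) (by omega)
  rw [e1, e2]

theorem sideSum_per {M : Type*} [AddCommMonoid M] (a b : ℕ) (Θ : D → M) :
    sideSum T σ o (per T σ o + a) (per T σ o + b) Θ = sideSum T σ o a b Θ := by
  rw [← sideSum_shift (T := T) (σ := σ) (o := o) (per T σ o) a b Θ]
  have : (T.st σ)^[per T σ o] o = o := iterate_minimalPeriod
  rw [this]

/-- The piece sum of the first `n` darts of the strand of `d` (members of the loop erased walk). -/
noncomputable def seg {M : Type*} [AddCommMonoid M] (T : Tri V D) (σ : V → Bool) (d : D) (n : ℕ)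
    (Θ : D → M) : M := sideSum T σ d 0 n Θ

theorem sideSum_eq_seg {M : Type*} [AddCommMonoid M] {a b : ℕ} (hab : a ≤ b) {d : D}
    (hd : (T.st σ)^[a] o = d) (Θ : D → M) :
    sideSum T σ o a b Θ = seg T σ d (b - a) Θ := by
  unfold seg
  rw [← hd, sideSum_shift, add_zero, show a + (b - a) = b by omega]

/-- The piece only depends on the colours seen by its darts. -/
theorem seg_iter_congr {σ' : V → Bool} {d : D} {n : ℕ}
    (h : ∀ i < n, σ' (T.src ((T.st σ)^[i] d)) = σ (T.src ((T.st σ)^[i] d)) ∧
      σ' (T.tgt ((T.st σ)^[i] d)) = σ (T.tgt ((T.st σ)^[i] d)) ∧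
      σ' (T.apex ((T.st σ)^[i] d)) = σ (T.apex ((T.st σ)^[i] d))) {i : ℕ} (hi : i ≤ n) :
    (T.st σ')^[i] d = (T.st σ)^[i] d := by
  induction i with
  | zero => rfl
  | succ i ih =>
    rw [iterate_succ', comp_apply, ih (by omega), iterate_succ', comp_apply]
    obtain ⟨h1, h2, h3⟩ := h i (by omega)
    exact T.st_congr h1 h2 h3

theorem seg_congr {M : Type*} [AddCommMonoid M] {σ' : V → Bool} {d : D} {n : ℕ}
    (h : ∀ i < n, σ' (T.src ((T.st σ)^[i] d)) = σ (T.src ((T.st σ)^[i] d)) ∧
      σ' (T.tgt ((T.st σ)^[i] d)) = σ (T.tgt ((T.st σ)^[i] d)) ∧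
      σ' (T.apex ((T.st σ)^[i] d)) = σ (T.apex ((T.st σ)^[i] d))) (Θ : D → M) :
    seg T σ' d n Θ = seg T σ d n Θ := by
  unfold seg sideSum
  apply Finset.sum_congr rfl
  intro i hi
  rw [Finset.mem_Ico] at hi
  have hiter : ∀ j ≤ n, (T.st σ')^[j] d = (T.st σ)^[j] d := fun j hj => seg_iter_congr h hj
  have e1 : T.Mi σ' ((T.st σ')^[i] d) ↔ T.Mi σ ((T.st σ)^[i] d) := by
    rw [hiter i (by omega)]
    unfold Tri.Mi
    obtain ⟨h1, h2, h3⟩ := h i (by omega)
    rw [h1, h2, h3]
  have e2 : DisjOn T σ' d 0 n i ↔ DisjOn T σ d 0 n i := by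
    unfold DisjOn
    have : ∀ j ≤ n, sa T σ' d j = sa T σ d j := by
      intro j hj; unfold sa; rw [hiter j hj]
    constructor
    · intro hD a b h1 h2 h3 h4
      rw [← this a (by omega), ← this b (by omega)]
      exact hD a b h1 h2 h3 h4
    · intro hD a b h1 h2 h3 h4
      rw [this a (by omega), this b (by omega)]
      exact hD a b h1 h2 h3 h4
  rw [e1, e2, hiter i (by omega)]

/-- A chain of tubes with consecutive feet `d 0, d 1, …, d K`; `N k` is a potential of the `k`-th
tube and the first foot is outside all other tubes. -/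
structure Chain0 (T : Tri V D) (σ : V → Bool) (K : ℕ) (d : ℕ → D) (p q : ℕ → List D)
    (N : ℕ → D → ZMod 2) : Prop where
  tube : ∀ k < K, Tube T σ (d k) (d (k + 1)) (p k) (q k)
  pot : ∀ k < K, T.Pot (gam T (d k) (d (k + 1)) (p k) (q k)) (N k)
  ext : ∀ k < K, 0 < k → N k (d 0) = N k (d k) + 1

/-- A chain of tubes whose feet are cut vertices. -/
structure Chain (T : Tri V D) (σ : V → Bool) (K : ℕ) (d : ℕ → D) (p q : ℕ → List D)
    (N : ℕ → D → ZMod 2) : Prop extends Chain0 T σ K d p q N where
  disj : ∀ j k, j < k → k < K → ∀ x, x ∈ pv T (d j) (p j) → x ∈ pv T (d k) (p k) →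
    ∀ m, j < m → m ≤ k → x = T.src (d m)

/-- The passing times of the feet. -/
structure Times (T : Tri V D) (σ : V → Bool) (K : ℕ) (d : ℕ → D) (N : ℕ → D → ZMod 2)
    (t : ℕ → ℕ) : Prop where
  t0 : t 0 = 0
  hit : ∀ k ≤ K, (T.st σ)^[t k] (d 0) = d k
  inc : ∀ k < K, t k < t (k + 1)
  le : ∀ k ≤ K, t k ≤ per T σ (d 0)
  hin : ∀ k < K, ∀ i, t k ≤ i → i < t (k + 1) → N k ((T.st σ)^[i] (d 0)) = N k (d k)
  hout : ∀ k < K, ∀ i, t (k + 1) ≤ i → i < t k + per T σ (d 0) →
    N k ((T.st σ)^[i] (d 0)) = N k (d k) + 1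

section chain

variable {K : ℕ} {d : ℕ → D} {p q : ℕ → List D} {N : ℕ → D → ZMod 2}

theorem Chain0.col (h : Chain0 T σ K d p q N) {k : ℕ} (hk : k ≤ K) :
    σ (T.src (d k)) = σ (T.src (d 0)) ∧ σ (T.tgt (d k)) = σ (T.tgt (d 0)) := by
  induction k with
  | zero => exact ⟨rfl, rfl⟩
  | succ k ih =>
    obtain ⟨h1, h2⟩ := ih (by omega)
    have := h.tube k (by omega)
    exact ⟨this.csrc.trans h1, this.ctgt.trans h2⟩

/-- The times at which the strand of the first foot passes the feet. -/
theorem Chain0.exists_times [Finite D] (h : Chain0 T σ K d p q N) :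
    ∃ t : ℕ → ℕ, Times T σ K d N t := by
  classical
  have hn : ∀ k : ℕ, ∃ n : ℕ, k < K → (0 < n ∧ n < per T σ (d k) ∧ (T.st σ)^[n] (d k) = d (k + 1) ∧
      (∀ i < n, N k ((T.st σ)^[i] (d k)) = N k (d k)) ∧
      ∀ i, n ≤ i → i < per T σ (d k) → N k ((T.st σ)^[i] (d k)) = N k (d k) + 1) := by
    intro k
    by_cases hk : k < K
    · obtain ⟨n, hh⟩ := (h.tube k hk).two_feet (h.pot k hk)
      exact ⟨n, fun _ => hh⟩
    · exact ⟨0, fun h => absurd h hk⟩
  choose n hn using hn
  set t : ℕ → ℕ := fun k => ∑ j ∈ Finset.range k, n j with ht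
  have t0 : t 0 = 0 := by simp [ht]
  have ts : ∀ k, t (k + 1) = t k + n k := by intro k; simp only [ht, Finset.sum_range_succ]
  have hit : ∀ k ≤ K, (T.st σ)^[t k] (d 0) = d k := by
    intro k
    induction k with
    | zero => intro _; rw [t0]; rfl
    | succ k ih =>
      intro hk
      rw [ts, add_comm, iterate_add_apply, ih (by omega)]
      exact (hn k (by omega)).2.2.1
  have hper : ∀ k ≤ K, per T σ (d k) = per T σ (d 0) := by
    intro k hk
    rw [← hit k hk, per_iter]
  have hlt : ∀ k < K, t k < per T σ (d 0) ∧ t (k + 1) ≤ per T σ (d 0) := by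
    intro k
    induction k with
    | zero =>
      intro hk
      rw [ts, t0, zero_add]
      exact ⟨per_pos T σ (d 0), (hn 0 hk).2.1.le⟩
    | succ k ih =>
      intro hk
      obtain ⟨h1, h2⟩ := ih (by omega)
      obtain ⟨a1, a2, a3, a4, a5⟩ := hn (k + 1) hk
      have hne : t (k + 1) ≠ per T σ (d 0) := by
        intro hh
        have h3 := hit (k + 1) (by omega)
        have h4 : (T.st σ)^[per T σ (d 0)] (d 0) = d 0 := iterate_minimalPeriod
        rw [hh, h4] at h3
        have h5 := h.ext (k + 1) hk (by omega)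
        rw [← h3] at h5
        revert h5
        generalize N (k + 1) (d 0) = a
        revert a; decide
      have hlt1 : t (k + 1) < per T σ (d 0) := lt_of_le_of_ne h2 hne
      refine ⟨hlt1, ?_⟩
      by_contra hc
      push Not at hc
      rw [ts (k + 1)] at hc
      have h6 := a4 (per T σ (d 0) - t (k + 1)) (by omega)
      have h7 : (T.st σ)^[per T σ (d 0) - t (k + 1)] (d (k + 1)) = d 0 := by
        rw [← hit (k + 1) (by omega), ← iterate_add_apply, Nat.sub_add_cancel hlt1.le]
        exact iterate_minimalPeriod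
      rw [h7, h.ext (k + 1) hk (by omega)] at h6
      revert h6
      generalize N (k + 1) (d (k + 1)) = a
      revert a; decide
  refine ⟨t, ⟨t0, hit, fun k hk => ?_, fun k hk => ?_, fun k hk i hi1 hi2 => ?_,
    fun k hk i hi1 hi2 => ?_⟩⟩
  · rw [ts]; have := (hn k hk).1; omega
  · rcases Nat.eq_zero_or_pos k with rfl | hk0
    · rw [t0]; exact Nat.zero_le _
    · have := (hlt (k - 1) (by omega)).2
      rwa [Nat.sub_add_cancel hk0] at this
  · have := (hn k hk).2.2.2.1 (i - t k) (by rw [ts] at hi2; omega)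
    rwa [← hit k (by omega), ← iterate_add_apply, Nat.sub_add_cancel hi1, hit k (by omega)] at this
  · rw [ts] at hi1
    have := (hn k hk).2.2.2.2 (i - t k) (by omega) (by rw [hper k (by omega)]; omega)
    rwa [← hit k (by omega), ← iterate_add_apply, Nat.sub_add_cancel (by omega),
      hit k (by omega)] at this

theorem Times.mono {t : ℕ → ℕ} (h : Times T σ K d N t) {j k : ℕ} (hjk : j ≤ k) (hk : k ≤ K) :
    t j ≤ t k := by
  induction k with
  | zero => rw [Nat.le_zero.1 hjk]
  | succ k ih =>
    rcases Nat.lt_succ_iff_lt_or_eq.1 (Nat.lt_succ_of_le hjk) with h1 | h1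
    · exact (ih (by omega) (by omega)).trans (h.inc k (by omega)).le
    · rw [h1]

/-- A vertex visited by two different pieces is on both black walks. -/
theorem Chain0.mem_pv (h : Chain0 T σ K d p q N) {t : ℕ → ℕ} (ht : Times T σ K d N t)
    {j k : ℕ} (hjk : j < k) (hk : k < K) {i i' : ℕ} (hi1 : t j ≤ i) (hi2 : i ≤ t (j + 1))
    (hi3 : t k ≤ i') (hi4 : i' ≤ t (k + 1)) (hx : sa T σ (d 0) i = sa T σ (d 0) i') :
    sa T σ (d 0) i ∈ pv T (d j) (p j) ∧ sa T σ (d 0) i ∈ pv T (d k) (p k) := by
  have hcol : ∀ i k, k ≤ K → σ (T.src ((T.st σ)^[i] (d 0))) = σ (T.src (d k)) := by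
    intro i k hk
    rw [T.col_src_iter σ, (h.col hk).1]
  have hflip : ∀ a : ZMod 2, a ≠ a + 1 := by decide
  have htj : t (j + 1) ≤ t k := ht.mono (by omega) (by omega)
  have hik : i' ≤ per T σ (d 0) := hi4.trans (ht.le _ (by omega))
  constructor
  · rcases hi2.lt_or_eq with h0 | h0
    · by_contra hc
      have e1 := ht.hin j (by omega) i hi1 h0
      by_cases hlt : i' < t j + per T σ (d 0)
      · have e2 := ht.hout j (by omega) i' (by omega) hlt
        have e3 := (h.tube j (by omega)).const (h.pot j (by omega)) (f := (T.st σ)^[i] (d 0))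
          (g := (T.st σ)^[i'] (d 0)) hx (hcol i j (by omega)) hc
        rw [e1, e2] at e3
        exact hflip _ e3
      · have h1 : t j = 0 := by omega
        have h2 : i' = per T σ (d 0) := by omega
        have h3 : j = 0 := by
          rcases Nat.eq_zero_or_pos j with h4 | h4
          · exact h4
          · have a1 := ht.inc 0 (by omega)
            have a2 := ht.mono (j := 0 + 1) (k := j) (by omega) (by omega)
            omega
        apply hc
        rw [hx, h2, sa_per, h3]
        exact Or.inl rfl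
    · have e1 : sa T σ (d 0) i = T.src (d (j + 1)) := by
        unfold sa; rw [h0, ht.hit _ (by omega)]
      rw [e1]
      exact (h.tube j (by omega)).src_mem'
  · rcases hi4.lt_or_eq with h0 | h0
    · rcases (show i ≤ t k by omega).lt_or_eq with h1 | h1
      · by_contra hc
        have e1 := ht.hin k hk i' hi3 h0
        have e2 := ht.hout k hk (i + per T σ (d 0))
          (by have := ht.le (k + 1) (by omega); omega) (by omega)
        have e4 : (T.st σ)^[i + per T σ (d 0)] (d 0) = (T.st σ)^[i] (d 0) := by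
          rw [iterate_add_apply]
          congr 1
          exact iterate_minimalPeriod
        rw [e4] at e2
        have e3 := (h.tube k hk).const (h.pot k hk) (f := (T.st σ)^[i] (d 0))
          (g := (T.st σ)^[i'] (d 0)) hx (hcol i k (by omega)) hc
        rw [e1, e2] at e3
        exact hflip _ e3.symm
      · have e1 : sa T σ (d 0) i = T.src (d k) := by
          unfold sa; rw [h1, ht.hit _ (by omega)]
        rw [e1]
        exact (h.tube k hk).src_mem
    · have e1 : sa T σ (d 0) i' = T.src (d (k + 1)) := by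
        unfold sa; rw [h0, ht.hit _ (by omega)]
      rw [hx, e1]
      exact (h.tube k hk).src_mem'

/-- Location of a time before `t m`. -/
theorem Times.loc {t : ℕ → ℕ} (ht : Times T σ K d N t) {i m : ℕ} (hi : i < t m) :
    ∃ j < m, t j ≤ i ∧ i < t (j + 1) := by
  classical
  have hex : ∃ k, i < t k := ⟨m, hi⟩
  have h1 := Nat.find_spec hex
  have h2 : Nat.find hex ≠ 0 := by
    intro h0
    rw [h0, ht.t0] at h1
    omega
  refine ⟨Nat.find hex - 1, ?_, ?_, ?_⟩
  · have : Nat.find hex ≤ m := Nat.find_le hi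
    omega
  · have := Nat.find_min hex (m := Nat.find hex - 1) (by omega)
    omega
  · rwa [Nat.sub_add_cancel (by omega)]

/-- Location of a time after `t m`. -/
theorem Times.loc' {t : ℕ → ℕ} (ht : Times T σ K d N t) {i m : ℕ} (hm : m ≤ K) (hi : t m < i)
    (hi' : i ≤ t K) : ∃ k < K, t k < i ∧ i ≤ t (k + 1) ∧ m ≤ k := by
  classical
  have hex : ∃ k, i ≤ t k := ⟨K, hi'⟩
  have h1 := Nat.find_spec hex
  have h3 : m < Nat.find hex := by
    rw [Nat.lt_find_iff]
    intro l hl
    have := ht.mono hl hm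
    omega
  have h4 : Nat.find hex ≤ K := Nat.find_le hi'
  refine ⟨Nat.find hex - 1, by omega, ?_, ?_, by omega⟩
  · have := Nat.find_min hex (m := Nat.find hex - 1) (by omega)
    omega
  · rwa [Nat.sub_add_cancel (by omega)]

/-- The feet are cut vertices of the strand. -/
theorem Chain.cut (h : Chain T σ K d p q N) {t : ℕ → ℕ} (ht : Times T σ K d N t) {m : ℕ}
    (hm : m ≤ K) : Cut T σ (d 0) 0 (t m) (t K) := by
  intro i i' hi0 hi1 hi2 hi3 hx
  by_cases him : i = t m
  · rw [him]
  by_cases him' : i' = t m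
  · rw [hx, him']
  obtain ⟨j, hj, hj1, hj2⟩ := ht.loc (i := i) (m := m) (by omega)
  obtain ⟨k, hk, hk1, hk2, hk3⟩ := ht.loc' (i := i') hm (by omega) hi3
  obtain ⟨hxj, hxk⟩ := h.toChain0.mem_pv ht (show j < k by omega) hk hj1 hj2.le hk1.le hk2 hx
  have := h.disj j k (by omega) hk _ hxj hxk m hj hk3
  rw [this]
  unfold sa
  rw [ht.hit m hm]

end chain

end Vale.Agent.P148.R2.H565
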