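import Vale.Agent.P148.R2.H565.Loc3
import Vale.Agent.P148.R2.H565.Loc4

/-!
# Pieces of the Delaunay triangulation: bridge, confinement in a box
-/

open Set Metric Function

namespace Vale.Agent.P148.R2.H565

open H592 H184

/-- In a dense window every empty circumdisc with a corner in `B` is small. -/
theorem rad_lt_of_dense {X B : Set ℂ} {ρ : ℝ} (hρ : 0 < ρ)
    (hd : ∀ y ∈ B, ∀ z, dist z y ≤ ρ → ∃ x ∈ X, dist z x < ρ) {d : Dt} (hl : LF X univ d)
    (hB : d.1 ∈ B) : dist (cc d) d.1 < ρ := by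
  by_contra hc
  push Not at hc
  set r := dist (cc d) d.1 with hr
  have hr0 : 0 < r := lt_of_lt_of_le hρ hc
  set z : ℂ := d.1 + ((ρ / r : ℝ) : ℂ) * (cc d - d.1) with hz
  have hn : ‖cc d - d.1‖ = r := by rw [hr, dist_eq_norm]
  have h1 : dist z d.1 = ρ := by
    rw [hz, dist_eq_norm, add_sub_cancel_left, norm_mul, hn, Complex.norm_real, Real.norm_eq_abs,
      abs_of_pos (by positivity)]
    field_simp
  have h2 : dist (cc d) z = r - ρ := by
    have : cc d - z = ((1 - ρ / r : ℝ) : ℂ) * (cc d - d.1) := by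
      rw [hz]; push_cast; ring
    rw [dist_eq_norm, this, norm_mul, hn, Complex.norm_real, Real.norm_eq_abs, abs_of_nonneg]
    · field_simp
    · rw [sub_nonneg, div_le_one hr0]; exact hc
  obtain ⟨x, hx, hxz⟩ := hd _ hB z h1.le
  have h3 := hl.2.2.2 x hx
  have h4 : dist (cc d) x ≤ dist (cc d) z + dist z x := dist_triangle _ _ _
  rw [← hr] at h3
  linarith

/-- Local faces from density. -/
theorem LF_of_dense {X B Q : Set ℂ} {ρ : ℝ} (hρ : 0 < ρ)
    (hd : ∀ y ∈ B, ∀ z, dist z y ≤ ρ → ∃ x ∈ X, dist z x < ρ)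
    (hQ : ∀ y ∈ B, closedBall y (2 * ρ) ⊆ Q) {d : Dt} (hl : LF X univ d) (hB : d.1 ∈ B) :
    LF X Q d := by
  have hr := rad_lt_of_dense hρ hd hl hB
  refine ⟨hl.1, hl.2.1, ?_, hl.2.2.2⟩
  intro w hw
  apply hQ _ hB
  rw [mem_closedBall] at hw ⊢
  have := dist_triangle w (cc d) d.1
  linarith

section bridge

variable {X : Set ℂ} {b : ZMod 3 → ℂ} (h : HullTri X b) {V : Type*} (π : ℂ → V) (hπ : Fib X π)
variable {Q : Set ℂ}

include h in
/-- A dart of the triangulation whose tail is not a corner of the hull lies in a Delaunay face. -/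
theorem LF_univ_dt {q : Fc X b × ZMod 3} (hb : ∀ j, (dt q).1 ≠ b j) : LF X univ (dt q) := by
  rw [LF_univ]
  rcases th_Tl q with h1 | ⟨j, h1, -, -⟩
  · exact h1
  · exact absurd h1 (hb _)

/-- A strand piece with local faces is an intrinsic piece. -/
theorem PP_of_iter {σ : V → Bool} {q r : Fc X b × ZMod 3} (hb : (h.tri258 π hπ).Bi σ q) {n : ℕ}
    (hn : 0 < n) (hr : ((h.tri258 π hπ).st σ)^[n] q = r)
    (hmin : ∀ i, 0 < i → i < n → ((h.tri258 π hπ).st σ)^[i] q ≠ r)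
    (hLF : ∀ i < n, LF X Q (dt (((h.tri258 π hπ).st σ)^[i] q))) :
    PP X Q (pc π σ) (ed (dt q)) (ed (dt r)) n
      (fun i => dt (((h.tri258 π hπ).st σ)^[i] q)) := by
  refine ⟨hn, ⟨hLF, fun i _ => ?_⟩, rfl, by rw [hr], fun i h1 h2 h3 => ?_⟩
  · have := nx_st h π hπ (((h.tri258 π hπ).bi_iter i).2 hb)
    rw [iterate_succ', comp_apply]
    exact this
  · apply hmin i h1 h2
    exact h.th_inj (congrArg (fun p : ℂ × ℂ => p.1) h3) (congrArg (fun p : ℂ × ℂ => p.2) h3)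

/-- The sum over the members of the loop erased piece is the intrinsic value. -/
theorem seg_eq_PV (hF : Faith X Q π) {σ : V → Bool} {q r : Fc X b × ZMod 3}
    (hb : (h.tri258 π hπ).Bi σ q) {n : ℕ} (hn : 0 < n)
    (hr : ((h.tri258 π hπ).st σ)^[n] q = r)
    (hmin : ∀ i, 0 < i → i < n → ((h.tri258 π hπ).st σ)^[i] q ≠ r)
    (hLF : ∀ i < n, LF X Q (dt (((h.tri258 π hπ).st σ)^[i] q))) (Θ : Dt → ℂ) :
    seg (h.tri258 π hπ) σ q n (fun g => Θ (dt g)) =
      PV X Q (pc π σ) (ed (dt q)) (ed (dt r)) Θ := by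
  rw [PV_eq h.three (PP_of_iter h π hπ hb hn hr hmin hLF)]
  unfold seg H871.sideSum segQ
  rw [Finset.range_eq_Ico]
  apply Finset.sum_congr rfl
  intro i hi
  rw [Finset.mem_Ico] at hi
  rw [mi_iff]
  have hD : H871.DisjOn (h.tri258 π hπ) σ q 0 n i ↔
      DisQ n (fun i => dt (((h.tri258 π hπ).st σ)^[i] q)) i := by
    constructor
    · intro hD a c h1 h2 h3 h4
      apply hD a c (Nat.zero_le _) h1 h2 h3
      show π _ = π _
      exact congrArg π h4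
    · intro hD a c _ h1 h2 h3 h4
      apply hD a c h1 h2 h3
      have hl := hLF a (by omega)
      exact hF _ hl.1.1 hl.mem.1 _ (h.nbr_th _).1 h4
  rw [hD]

/-- **A confined tube gives an intrinsic piece.** `B` is the box, `Q` a neighbourhood of it,
`XV` the set of vertices in the box. -/
theorem tube_piece (hF : Faith X Q π) {σ : V → Bool} {d e : Fc X b × ZMod 3}
    {p q : List (Fc X b × ZMod 3)} (ht : Tube (h.tri258 π hπ) σ d e p q)
    {N : Fc X b × ZMod 3 → ZMod 2} (hN : (h.tri258 π hπ).Pot (gam (h.tri258 π hπ) d e p q) N)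
    {XV : Set V} {ω : V} (hω : ω ∉ XV)
    (hX : ∀ x ∉ XV, ∃ l, (h.tri258 π hπ).Walk x ω l ∧
      ∀ g ∈ l, (h.tri258 π hπ).src g ∉ XV)
    (hΓ : ∀ f ∈ gam (h.tri258 π hπ) d e p q, (h.tri258 π hπ).src f ∈ XV)
    {g₀ : Fc X b × ZMod 3} (hg : (h.tri258 π hπ).src g₀ = ω) (hin : N d ≠ N g₀)
    {B : Set ℂ} (hB : ∀ x ∈ X, π x ∈ XV → x ∈ B) (hbB : ∀ j, b j ∉ B) {ρ : ℝ} (hρ : 0 < ρ)
    (hd : ∀ y ∈ B, ∀ z, dist z y ≤ ρ → ∃ x ∈ X, dist z x < ρ)
    (hQ : ∀ y ∈ B, closedBall y (2 * ρ) ⊆ Q) (Θ : Dt → ℂ) :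
    ∃ n, 0 < n ∧ n < H871.per (h.tri258 π hπ) σ d ∧
      ((h.tri258 π hπ).st σ)^[n] d = e ∧
      (∀ i < n, LF X Q (dt (((h.tri258 π hπ).st σ)^[i] d))) ∧
      PP X Q (pc π σ) (ed (dt d)) (ed (dt e)) n
        (fun i => dt (((h.tri258 π hπ).st σ)^[i] d)) ∧
      seg (h.tri258 π hπ) σ d n (fun g => Θ (dt g)) =
        PV X Q (pc π σ) (ed (dt d)) (ed (dt e)) Θ := by
  have := h.finite_Fc
  obtain ⟨n, h1, h2, h3, h4, h5⟩ := ht.two_feet hN
  have hLF : ∀ i < n, LF X Q (dt (((h.tri258 π hπ).st σ)^[i] d)) := by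
    intro i hi
    have hs : (h.tri258 π hπ).src (((h.tri258 π hπ).st σ)^[i] d) ∈ XV :=
      confine ht.closed hN hω hX hΓ hg (by rw [h4 i hi]; exact hin)
    have hm : (dt (((h.tri258 π hπ).st σ)^[i] d)).1 ∈ B := hB _ (h.nbr_th _).1 hs
    refine LF_of_dense hρ hd hQ (LF_univ_dt h ?_) hm
    intro j hj
    exact hbB j (hj ▸ hm)
  have hmin : ∀ i, 0 < i → i < n → ((h.tri258 π hπ).st σ)^[i] d ≠ e := by
    intro i hi1 hi2 hi3
    have e1 : (fun k => ((h.tri258 π hπ).st σ)^[k] d) i = (fun k => ((h.tri258 π hπ).st σ)^[k] d) n := by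
      show ((h.tri258 π hπ).st σ)^[i] d = ((h.tri258 π hπ).st σ)^[n] d
      rw [hi3, h3]
    have := (iterate_eq_iterate_iff_of_lt_minimalPeriod (f := (h.tri258 π hπ).st σ) (x := d)
      (lt_trans hi2 h2) h2).1 e1
    omega
  exact ⟨n, h1, h2, h3, hLF, PP_of_iter h π hπ ht.bi h1 h3 hmin hLF,
    seg_eq_PV h π hπ hF ht.bi h1 h3 hmin hLF Θ⟩

end bridge

end Vale.Agent.P148.R2.H565
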