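import Vale.Agent.P148.R2.H871.N0c
import Vale.Agent.P148.R2.H258.A6

/-!
# Tubes: closed walks with exactly two bichromatic edges, and the two-feet lemma
-/

namespace Vale.Agent.P148.R2.H565

open Function Vale.Agent.P148.R2.H258 Vale.Agent.P148.R2.H871

variable {V D : Type*}

/-- A tube: a walk `p` of the colour of `src d` from `src d` to `src e` and a walk `q` of the
colour of `tgt d` from `tgt e` to `tgt d`. The darts `d ≠ e` are its two feet. -/
structure Tube (T : Tri V D) (σ : V → Bool) (d e : D) (p q : List D) : Prop where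
  bi : T.Bi σ d
  csrc : σ (T.src e) = σ (T.src d)
  ctgt : σ (T.tgt e) = σ (T.tgt d)
  ne : e ≠ d
  wp : T.Walk (T.src d) (T.src e) p
  wq : T.Walk (T.tgt e) (T.tgt d) q
  cp : ∀ g ∈ p, σ (T.src g) = σ (T.src d) ∧ σ (T.tgt g) = σ (T.src d)
  cq : ∀ g ∈ q, σ (T.src g) = σ (T.tgt d) ∧ σ (T.tgt g) = σ (T.tgt d)

/-- The closed walk of a tube. -/
def gam (T : Tri V D) (d e : D) (p q : List D) : List D := p ++ (e :: (q ++ [T.rev d]))

/-- The vertices of the first walk of a tube. -/
def pv (T : Tri V D) (d : D) (p : List D) : Set V := {v | v = T.src d ∨ ∃ g ∈ p, T.tgt g = v}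

variable {T : Tri V D} {σ : V → Bool} {d e : D} {p q : List D}

theorem Tube.closed (h : Tube T σ d e p q) : T.Walk (T.src d) (T.src d) (gam T d e p q) := by
  unfold gam
  refine h.wp.append (Tri.Walk.cons' e rfl (h.wq.append ?_))
  have h2 := Tri.Walk.single (T := T) (T.rev d)
  rw [T.src_rev, T.tgt_rev] at h2
  exact h2

theorem Tube.bie (h : Tube T σ d e p q) : T.Bi σ e := by
  unfold Tri.Bi
  rw [h.csrc, h.ctgt]
  exact h.bi

theorem rev_ne {T : Tri V D} {σ : V → Bool} {f g : D} (hb : T.Bi σ g)
    (hc : σ (T.src f) = σ (T.src g)) : T.rev g ≠ f := by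
  rintro rfl
  rw [T.src_rev] at hc
  exact hb hc.symm

open Classical in
theorem Tube.mu_eq (h : Tube T σ d e p q) {f : D} (hf : T.Bi σ f)
    (hc : σ (T.src f) = σ (T.src d)) :
    T.mu (gam T d e p q) f = (if e = f then 1 else 0) + (if d = f then 1 else 0) := by
  unfold gam
  rw [T.mu_append, T.mu_cons, T.mu_append, T.mu_cons, T.mu_nil]
  rw [T.mu_mono (σ := σ) (l := p) (fun g hg => by rw [(h.cp g hg).1, (h.cp g hg).2]) hf]
  rw [T.mu_mono (σ := σ) (l := q) (fun g hg => by rw [(h.cq g hg).1, (h.cq g hg).2]) hf]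
  have e1 : ¬ e = T.rev f := fun h1 => rev_ne (T := T) (f := e) hf (by rw [h.csrc, hc]) h1.symm
  have e2 : ¬ T.rev d = f := rev_ne h.bi hc
  have e3 : (T.rev d = T.rev f) ↔ (d = f) := by
    constructor
    · intro h1
      have := congrArg T.rev h1
      rwa [T.rev_rev, T.rev_rev] at this
    · rintro rfl; rfl
  simp only [if_neg e1, if_neg e2, e3]
  ring

theorem zmod2_sub {a b c : ZMod 2} (h : a + b = c) : a = b + c := by
  revert a b c; decide

/-- The potential of a tube along a strand of the same type. -/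
theorem Tube.step (h : Tube T σ d e p q) {N : D → ZMod 2} (hN : T.Pot (gam T d e p q) N) {f : D}
    (hf : T.Bi σ f) : N (T.st σ f) = N f + T.mu (gam T d e p q) (T.st σ f) := by
  have hb1 : T.Bi σ (T.st σ f) := T.bi_st.2 hf
  have h3 := hN.2 (T.st σ f) (Or.inl (fun hh => hb1 (by rw [hh])))
  have h4 : N (T.rev (T.st σ f)) = N f := T.face_st hN.1 hf
  rw [h4] at h3
  exact zmod2_sub h3

/-- **Two-feet lemma.** The strand from the first foot reaches the second foot; the face potential
is constant before and after. -/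
theorem Tube.two_feet [Finite D] (h : Tube T σ d e p q) {N : D → ZMod 2}
    (hN : T.Pot (gam T d e p q) N) :
    ∃ n, 0 < n ∧ n < per T σ d ∧ (T.st σ)^[n] d = e ∧ (∀ k < n, N ((T.st σ)^[k] d) = N d) ∧
      ∀ k, n ≤ k → k < per T σ d → N ((T.st σ)^[k] d) = N d + 1 := by
  classical
  set L := per T σ d with hL
  have hLpos : 0 < L := per_pos T σ d
  have hLd : (T.st σ)^[L] d = d := iterate_minimalPeriod
  have hinj : ∀ {a b : ℕ}, a < L → b < L → (T.st σ)^[a] d = (T.st σ)^[b] d → a = b :=
    fun ha hb hab => (iterate_eq_iterate_iff_of_lt_minimalPeriod ha hb).1 hab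
  have hstep : ∀ k, N ((T.st σ)^[k + 1] d) = N ((T.st σ)^[k] d) +
      ((if e = (T.st σ)^[k + 1] d then 1 else 0) + (if d = (T.st σ)^[k + 1] d then 1 else 0)) := by
    intro k
    rw [iterate_succ', comp_apply, h.step hN ((T.bi_iter k).2 h.bi), h.mu_eq]
    · exact T.bi_st.2 ((T.bi_iter k).2 h.bi)
    · rw [T.col_src_st σ, T.col_src_iter σ]
  have hd : ∀ k, k + 1 < L → ¬ d = (T.st σ)^[k + 1] d := by
    intro k hk hh
    have := hinj (a := 0) (b := k + 1) hLpos hk hh
    omega
  -- the second foot is reached
  have hex : ∃ n, n < L ∧ (T.st σ)^[n] d = e := by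
    by_contra hc
    push Not at hc
    have hconst : ∀ k, k < L → N ((T.st σ)^[k] d) = N d := by
      intro k
      induction k with
      | zero => intro _; rfl
      | succ k ih =>
        intro hk
        rw [hstep k, ih (by omega), if_neg (fun hh => hc _ hk hh.symm), if_neg (hd k hk)]
        simp
    have h1 := hstep (L - 1)
    rw [Nat.sub_add_cancel hLpos, hLd, hconst (L - 1) (by omega), if_neg h.ne, if_pos rfl] at h1
    revert h1
    generalize N d = a
    revert a; decide
  obtain ⟨n, hn, hne⟩ := hex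
  have hn0 : 0 < n := by
    rcases Nat.eq_zero_or_pos n with rfl | h0
    · exact absurd hne.symm h.ne
    · exact h0
  have hA : ∀ k, k < n → N ((T.st σ)^[k] d) = N d := by
    intro k
    induction k with
    | zero => intro _; rfl
    | succ k ih =>
      intro hk
      have e1 : ¬ e = (T.st σ)^[k + 1] d := by
        intro hh
        have := hinj (a := n) (b := k + 1) hn (by omega) (hne.trans hh)
        omega
      rw [hstep k, ih (by omega), if_neg e1, if_neg (hd k (by omega))]
      simp
  have hB : ∀ k, n + k < L → N ((T.st σ)^[n + k] d) = N d + 1 := by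
    intro k
    induction k with
    | zero =>
      intro _
      have h1 := hstep (n - 1)
      rw [Nat.sub_add_cancel hn0, hne, hA (n - 1) (by omega), if_pos rfl,
        if_neg (fun hh => h.ne hh.symm)] at h1
      rw [Nat.add_zero, hne, h1, add_zero]
    | succ k ih =>
      intro hk
      have e1 : ¬ e = (T.st σ)^[n + k + 1] d := by
        intro hh
        have := hinj (a := n) (b := n + k + 1) hn (by omega) (hne.trans hh)
        omega
      have := hstep (n + k)
      rw [show n + (k + 1) = n + k + 1 by ring, this, ih (by omega), if_neg e1,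
        if_neg (hd (n + k) (by omega))]
      simp
  refine ⟨n, hn0, hn, hne, hA, fun k h1 h2 => ?_⟩
  have := hB (k - n) (by omega)
  rwa [show n + (k - n) = k by omega] at this

theorem walk_src_mem {T : Tri V D} {u v : V} {l : List D} (h : T.Walk u v l) :
    ∀ g ∈ l, T.src g = u ∨ ∃ g' ∈ l, T.tgt g' = T.src g := by
  induction h with
  | nil v => intro g hg; simp at hg
  | cons a w l hw ih =>
    intro g hg
    rcases List.mem_cons.1 hg with rfl | hg
    · left; rfl
    · rcases ih g hg with h1 | ⟨g', hg', h1⟩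
      · right; exact ⟨a, by simp, h1.symm⟩
      · right; exact ⟨g', List.mem_cons_of_mem _ hg', h1⟩

theorem walk_tgt_last {T : Tri V D} {u v : V} {l : List D} (h : T.Walk u v l) :
    v = u ∨ ∃ g ∈ l, T.tgt g = v := by
  induction h with
  | nil v => left; rfl
  | cons a w l hw ih =>
    right
    rcases ih with h1 | ⟨g, hg, h1⟩
    · exact ⟨a, by simp, h1.symm⟩
    · exact ⟨g, List.mem_cons_of_mem _ hg, h1⟩

theorem Tube.src_mem (_h : Tube T σ d e p q) : T.src d ∈ pv T d p := Or.inl rfl

theorem Tube.src_mem' (h : Tube T σ d e p q) : T.src e ∈ pv T d p := by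
  rcases walk_tgt_last h.wp with h1 | h1
  · exact Or.inl h1
  · exact Or.inr h1

/-- A vertex of the first colour which is a source of the closed walk is on the first walk. -/
theorem Tube.gam_src (h : Tube T σ d e p q) {f : D} (hf : f ∈ gam T d e p q)
    (hc : σ (T.src f) = σ (T.src d)) : T.src f ∈ pv T d p := by
  unfold gam at hf
  rw [List.mem_append, List.mem_cons, List.mem_append, List.mem_singleton] at hf
  rcases hf with hf | hf | hf | hf
  · rcases walk_src_mem h.wp f hf with h1 | h1
    · exact Or.inl h1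
    · exact Or.inr h1
  · rw [hf]; exact h.src_mem'
  · rw [(h.cq f hf).1] at hc
    exact absurd hc.symm h.bi
  · rw [hf, T.src_rev] at hc
    exact absurd hc.symm h.bi

/-- Around a vertex off the tube the potential is constant. -/
theorem Tube.const (h : Tube T σ d e p q) {N : D → ZMod 2} (hN : T.Pot (gam T d e p q) N)
    {f g : D} (hfg : T.src f = T.src g) (hc : σ (T.src f) = σ (T.src d))
    (hn : T.src f ∉ pv T d p) : N f = N g := by
  refine T.const_at h.closed hN.1 hN.2 hfg ?_
  intro x hx hh
  exact hn (hh ▸ h.gam_src hx (by rw [hh, hc]))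

end Vale.Agent.P148.R2.H565
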