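import Vale.Agent.P148.R2.H565.Rim

/-!
# Comb data give closed rings; the orientation dichotomy
-/

namespace Vale.Agent.P148.R2.H565

open Function Vale.Agent.P148.R2.H258 Vale.Agent.P148.R2.H871

variable {V D : Type*} {T : Tri V D} {σ : V → Bool}

/-- Comb data: connected monochromatic rims `R k` (colour `c`) and `R' k` (colour `!c`) in gate `k`,
a walk of colour `c` from `R k` to `R (k + 1)`, a walk of colour `!c` from `R' k` to `R' (k + 1)`, and
a tooth of colour `!c` from `R k` to `R' k` whose first dart is the foot `d k`. -/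
structure Comb (T : Tri V D) (σ : V → Bool) (c : Bool) (K : ℕ) (d : ℕ → D)
    (R R' B X : ℕ → Set V) (ω : V) : Prop where
  four : 4 ≤ K
  dper : ∀ k, d (k + K) = d k
  xper : ∀ k, X (k + K) = X k
  rc : ∀ k, WConn T (R k)
  rc' : ∀ k, WConn T (R' k)
  colR : ∀ k, ∀ v ∈ R k, σ v = c
  colR' : ∀ k, ∀ v ∈ R' k, σ v = !c
  subR : ∀ k, R k ⊆ B k
  subR' : ∀ k, R' k ⊆ B k
  low : ∀ k, ∃ x ∈ R k, ∃ y ∈ R (k + 1), ∃ l, T.Walk x y l ∧
    ∀ g ∈ l, σ (T.tgt g) = c ∧ T.tgt g ∈ X k
  up : ∀ k, ∃ x ∈ R' k, ∃ y ∈ R' (k + 1), ∃ l, T.Walk x y l ∧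
    ∀ g ∈ l, σ (T.tgt g) = !c ∧ T.tgt g ∈ X k
  foot : ∀ k, T.src (d k) ∈ R k
  footc : ∀ k, σ (T.tgt (d k)) = !c
  footB : ∀ k, T.tgt (d k) ∈ B k
  tooth : ∀ k, ∃ y ∈ R' k, ∃ l, T.Walk (T.tgt (d k)) y l ∧
    ∀ g ∈ l, σ (T.tgt g) = !c ∧ T.tgt g ∈ B k
  sub1 : ∀ k, B k ⊆ X k
  sub2 : ∀ k, B (k + 1) ⊆ X k
  disjX : ∀ j k, j + 2 ≤ k → k + 2 ≤ j + K → ∀ x, x ∈ X j → x ∉ X k
  out : ∀ k, ω ∉ X k
  conn : ∀ k, ∀ x ∉ X k, ∃ l, T.Walk x ω l ∧ ∀ g ∈ l, T.src g ∉ X k

section comb

variable {c : Bool} {K : ℕ} {d : ℕ → D} {R R' B X : ℕ → Set V} {ω : V}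

/-- The white part of a gate. -/
theorem Comb.exists_tooth (h : Comb T σ c K d R R' B X ω) (k : ℕ) :
    ∃ S : Set V, WConn T S ∧ (∀ v ∈ S, σ v = !c) ∧ T.tgt (d k) ∈ S ∧ R' k ⊆ S ∧ S ⊆ B k := by
  obtain ⟨y, hy, l, hl, hlm⟩ := h.tooth k
  refine ⟨{x | x = T.tgt (d k) ∨ ∃ g ∈ l, T.tgt g = x} ∪ R' k, ?_, ?_, ?_, ?_, ?_⟩
  · refine (WConn.walk hl).union (h.rc' k) (x := y) ?_ hy
    rcases walk_tgt_last hl with h1 | h1
    · exact Or.inl h1
    · exact Or.inr h1
  · rintro v ((rfl | ⟨g, hg, rfl⟩) | hv)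
    · exact h.footc k
    · exact (hlm g hg).1
    · exact h.colR' k v hv
  · exact Or.inl (Or.inl rfl)
  · exact fun v hv => Or.inr hv
  · rintro v ((rfl | ⟨g, hg, rfl⟩) | hv)
    · exact h.footB k
    · exact (hlm g hg).2
    · exact h.subR' k hv

/-- The black part of tube `k`. -/
theorem Comb.exists_P (h : Comb T σ c K d R R' B X ω) (k : ℕ) :
    ∃ S : Set V, WConn T S ∧ (∀ v ∈ S, σ v = c) ∧ T.src (d k) ∈ S ∧ T.src (d (k + 1)) ∈ S ∧
      S ⊆ X k := by
  obtain ⟨x, hx, y, hy, l, hl, hlm⟩ := h.low k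
  refine ⟨(R k ∪ {z | z = x ∨ ∃ g ∈ l, T.tgt g = z}) ∪ R (k + 1), ?_, ?_, ?_, ?_, ?_⟩
  · refine ((h.rc k).union (WConn.walk hl) hx (Or.inl rfl)).union (h.rc (k + 1)) (x := y)
      (Or.inr ?_) hy
    rcases walk_tgt_last hl with h1 | h1
    · exact Or.inl h1
    · exact Or.inr h1
  · rintro v ((hv | (rfl | ⟨g, hg, rfl⟩)) | hv)
    · exact h.colR k v hv
    · exact h.colR k _ hx
    · exact (hlm g hg).1
    · exact h.colR (k + 1) v hv
  · exact Or.inl (Or.inl (h.foot k))
  · exact Or.inr (h.foot (k + 1))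
  · rintro v ((hv | (rfl | ⟨g, hg, rfl⟩)) | hv)
    · exact h.sub1 k (h.subR k hv)
    · exact h.sub1 k (h.subR k hx)
    · exact (hlm g hg).2
    · exact h.sub2 k (h.subR _ hv)

/-- The white part of tube `k`. -/
theorem Comb.exists_Q (h : Comb T σ c K d R R' B X ω) (k : ℕ) :
    ∃ S : Set V, WConn T S ∧ (∀ v ∈ S, σ v = !c) ∧ T.tgt (d k) ∈ S ∧ T.tgt (d (k + 1)) ∈ S ∧
      S ⊆ X k := by
  obtain ⟨x, hx, y, hy, l, hl, hlm⟩ := h.up k
  obtain ⟨S1, a1, a2, a3, a4, a5⟩ := h.exists_tooth k
  obtain ⟨S2, b1, b2, b3, b4, b5⟩ := h.exists_tooth (k + 1)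
  refine ⟨(S1 ∪ {z | z = x ∨ ∃ g ∈ l, T.tgt g = z}) ∪ S2, ?_, ?_, ?_, ?_, ?_⟩
  · refine (a1.union (WConn.walk hl) (a4 hx) (Or.inl rfl)).union b1 (x := y) (Or.inr ?_) (b4 hy)
    rcases walk_tgt_last hl with h1 | h1
    · exact Or.inl h1
    · exact Or.inr h1
  · rintro v ((hv | (rfl | ⟨g, hg, rfl⟩)) | hv)
    · exact a2 v hv
    · exact h.colR' k _ hx
    · exact (hlm g hg).1
    · exact b2 v hv
  · exact Or.inl (Or.inl a3)
  · exact Or.inr b3
  · rintro v ((hv | (rfl | ⟨g, hg, rfl⟩)) | hv)
    · exact h.sub1 k (a5 hv)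
    · exact h.sub1 k (h.subR' k hx)
    · exact (hlm g hg).2
    · exact h.sub2 k (b5 hv)

theorem Comb.far (h : Comb T σ c K d R R' B X ω) (j k : ℕ) (h1 : j % K ≠ k % K)
    (h2 : j % K ≠ (k + 1) % K) : T.src (d j) ∉ X k := by
  have h4 := h.four
  have hdp : ∀ m i, d (i + m * K) = d i := by
    intro m
    induction m with
    | zero => intro i; simp
    | succ m ih => intro i; rw [show i + (m + 1) * K = (i + m * K) + K by ring, h.dper, ih]
  -- representative of `j` in `[k + 2, k + K - 1]`
  obtain ⟨j', hj1, hj2, hj3⟩ : ∃ j', k + 2 ≤ j' ∧ j' ≤ k + K - 1 ∧ d j' = d j := by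
    -- the residue
    have hK : 0 < K := by omega
    set r := (j + K * (k + 2) - (k + 2)) % K with hr
    refine ⟨k + 2 + r, by omega, ?_, ?_⟩
    · have hrK : r < K := Nat.mod_lt _ hK
      by_contra hc
      push Not at hc
      have hcase : r = K - 1 ∨ r = K - 2 := by omega
      have hmul : k + 2 ≤ K * (k + 2) := Nat.le_mul_of_pos_left _ hK
      have hmod : (k + 2 + r) % K = j % K := by
        have e1 : (k + 2 + r) % K = (k + 2 + (j + K * (k + 2) - (k + 2))) % K := by
          rw [hr, Nat.add_mod_mod]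
        rw [e1, show k + 2 + (j + K * (k + 2) - (k + 2)) = j + K * (k + 2) by omega,
          Nat.add_mul_mod_self_left]
      rcases hcase with h5 | h5
      · apply h2
        rw [← hmod, h5, show k + 2 + (K - 1) = k + 1 + K by omega, Nat.add_mod_right]
      · apply h1
        rw [← hmod, h5, show k + 2 + (K - 2) = k + K by omega, Nat.add_mod_right]
    · have hmul : k + 2 ≤ K * (k + 2) := Nat.le_mul_of_pos_left _ hK
      have hmod : (k + 2 + r) % K = j % K := by
        have e1 : (k + 2 + r) % K = (k + 2 + (j + K * (k + 2) - (k + 2))) % K := by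
          rw [hr, Nat.add_mod_mod]
        rw [e1, show k + 2 + (j + K * (k + 2) - (k + 2)) = j + K * (k + 2) by omega,
          Nat.add_mul_mod_self_left]
      have e1 : d (k + 2 + r) = d ((k + 2 + r) % K) := by
        conv_lhs => rw [← Nat.mod_add_div (k + 2 + r) K, mul_comm, hdp]
      have e2 : d j = d (j % K) := by
        conv_lhs => rw [← Nat.mod_add_div j K, mul_comm, hdp]
      rw [e1, e2, hmod]
  rw [← hj3]
  rcases (show j' ≤ k + K - 1 from hj2).lt_or_eq with h5 | h5
  · intro hc
    exact h.disjX k j' hj1 (by omega) _ hc (h.sub1 j' (h.subR j' (h.foot j')))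
  · intro hc
    have h6 : T.src (d j') ∈ X (j' - 1) := by
      have := h.sub2 (j' - 1) (by rw [Nat.sub_add_cancel (by omega)]; exact h.subR j' (h.foot j'))
      exact this
    exact h.disjX k (j' - 1) (by omega) (by omega) _ hc h6

/-- **Comb data give a closed ring of tubes.** -/
theorem Comb.cring (h : Comb T σ c K d R R' B X ω) :
    ∃ P Q, CRing T σ c K d P Q X ω := by
  choose P hP using h.exists_P
  choose Q hQ using h.exists_Q
  refine ⟨P, Q, ?_⟩
  exact {
    four := h.four
    dper := h.dper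
    pc := fun k => (hP k).1
    qc := fun k => (hQ k).1
    colP := fun k => (hP k).2.1
    colQ := fun k => (hQ k).2.1
    s1 := fun k => (hP k).2.2.1
    s2 := fun k => (hP k).2.2.2.1
    t1 := fun k => (hQ k).2.2.1
    t2 := fun k => (hQ k).2.2.2.1
    disj2 := fun j k h1 h2 x hx hx' =>
      h.disjX j k h1 h2 x ((hP j).2.2.2.2 hx) ((hP k).2.2.2.2 hx')
    subP := fun k => (hP k).2.2.2.2
    subQ := fun k => (hQ k).2.2.2.2
    out := h.out
    conn := h.conn
    far := h.far }

end comb

/-! ### The orientation dichotomy -/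

/-- The tubes from `d` to `e` in `X` are entered by the strand at `d`. -/
def Pos (T : Tri V D) (σ : V → Bool) (X : Set V) (g₀ d e : D) : Prop :=
  ∀ p q N, Tube T σ d e p q → (∀ f ∈ gam T d e p q, T.src f ∈ X) →
    T.Pot (gam T d e p q) N → N d = N g₀ + 1

section dich

variable {c : Bool} {K : ℕ} {d : ℕ → D} {P Q X : ℕ → Set V} {ω : V}

theorem CRing.exists_tube (h : CRing T σ c K d P Q X ω) (k : ℕ) :
    ∃ p q, Tube T σ (d k) (d (k + 1)) p q ∧ pv T (d k) p ⊆ P k ∧
      ∀ f ∈ gam T (d k) (d (k + 1)) p q, T.src f ∈ X k := by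
  obtain ⟨p, q, a1, a2, a3⟩ := tube_of_sets (h.pc k) (h.qc k) (h.colP k) (h.colQ k) (h.s1 k)
    (h.s2 k) (h.t1 k) (h.t2 k) (h.ne k)
  refine ⟨p, q, a1, a2, fun f hf => ?_⟩
  rcases a3 f hf with h5 | h5
  · exact h.subP k h5
  · exact h.subQ k h5

/-- Orientation passes from one tube to the next one. -/
theorem CRing.pos_step [Finite D] (h : CRing T σ c K d P Q X ω) {g₀ : D} (hg : T.src g₀ = ω)
    {k : ℕ} {p' q' : List D} {N' : D → ZMod 2} (a1 : Tube T σ (d k) (d (k + 1)) p' q')
    (a4 : ∀ f ∈ gam T (d k) (d (k + 1)) p' q', T.src f ∈ X k)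
    (b1 : T.Pot (gam T (d k) (d (k + 1)) p' q') N') (b3 : N' (d k) = N' g₀ + 1) :
    Pos T σ (X (k + 1)) g₀ (d (k + 1)) (d (k + 2)) := by
  have h4 := h.four
  intro p q N h1 h2 h3
  have b4 : N' (d (k + 2)) = N' g₀ := by
    by_contra hc
    exact h.far (k + 2) k (mod_ne (by omega) (by omega)).symm (mod_ne (by omega) (by omega)).symm
      (confine a1.closed b1 (h.out k) (h.conn k) a4 hg hc)
  have b5 : N (d k) = N g₀ := by
    by_contra hc
    exact h.far k (k + 1) (mod_ne (by omega) (by omega)) (mod_ne (by omega) (by omega))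
      (confine h1.closed h3 (h.out (k + 1)) (h.conn (k + 1)) h2 hg hc)
  have := orient a1 h1 b1 h3 (by
    rw [b4, b3]
    generalize N' g₀ = a
    revert a; decide)
  rw [this, b5]

/-- If one tube is positively oriented, all are. -/
theorem CRing.pos_all [Finite D] (hPl : T.Planar) (h : CRing T σ c K d P Q X ω)
    (hX : ∀ k, X (k + K) = X k) {g₀ : D} (hg : T.src g₀ = ω) {j : ℕ} {p' q' : List D}
    {N' : D → ZMod 2} (a1 : Tube T σ (d j) (d (j + 1)) p' q')
    (a4 : ∀ f ∈ gam T (d j) (d (j + 1)) p' q', T.src f ∈ X j)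
    (b1 : T.Pot (gam T (d j) (d (j + 1)) p' q') N') (b3 : N' (d j) = N' g₀ + 1) (k : ℕ) :
    Pos T σ (X k) g₀ (d k) (d (k + 1)) := by
  have h4 := h.four
  have key : ∀ m, Pos T σ (X (j + 1 + m)) g₀ (d (j + 1 + m)) (d (j + 1 + m + 1)) := by
    intro m
    induction m with
    | zero => exact h.pos_step hg a1 a4 b1 b3
    | succ m ih =>
      obtain ⟨p, q, t1, -, t3⟩ := h.exists_tube (j + 1 + m)
      obtain ⟨N, n1, -⟩ := T.exists_pot hPl t1.closed g₀
      exact h.pos_step hg t1 t3 n1 (ih p q N t1 t3 n1)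
  have hdp : ∀ m i, d (i + m * K) = d i ∧ X (i + m * K) = X i := by
    intro m
    induction m with
    | zero => intro i; simp
    | succ m ih =>
      intro i
      rw [show i + (m + 1) * K = (i + m * K) + K by ring, h.dper, hX]
      exact ih i
  have hmul : j + 1 ≤ (j + 1) * K := Nat.le_mul_of_pos_right _ (by omega)
  have e := key (k + (j + 1) * K - (j + 1))
  rw [show j + 1 + (k + (j + 1) * K - (j + 1)) = k + (j + 1) * K by omega,
    show k + (j + 1) * K + 1 = (k + 1) + (j + 1) * K by ring, (hdp (j + 1) k).1,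
    (hdp (j + 1) k).2, (hdp (j + 1) (k + 1)).1] at e
  exact e

/-- The reversed indices. -/
def ri (K k : ℕ) : ℕ := K - k % K

/-- The reversed ring. -/
theorem CRing.reverse (h : CRing T σ c K d P Q X ω) (hX : ∀ k, X (k + K) = X k) :
    CRing T σ c K (fun k => d (ri K k)) (fun k => P (ri K k - 1)) (fun k => Q (ri K k - 1))
      (fun k => X (ri K k - 1)) ω := by
  have h4 := h.four
  have hK : 0 < K := by omega
  have hr : ∀ k, k % K < K := fun k => Nat.mod_lt _ hK
  have hd0 : d K = d 0 := by have := h.dper 0; rwa [zero_add] at this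
  have hnext : ∀ k, d (ri K (k + 1)) = d (ri K k - 1) := by
    intro k
    unfold ri
    rcases (show k % K + 1 ≤ K from hr k).lt_or_eq with h1 | h1
    · have : (k + 1) % K = k % K + 1 := by
        rw [Nat.add_mod, Nat.mod_eq_of_lt (show 1 < K by omega), Nat.mod_eq_of_lt h1]
      rw [this]
      congr 1
    · have : (k + 1) % K = 0 := by
        rw [Nat.add_mod, Nat.mod_eq_of_lt (show 1 < K by omega), h1, Nat.mod_self]
      rw [this, show K - k % K - 1 = 0 by omega, Nat.sub_zero, hd0]
  have hs : ∀ k, ri K k - 1 + 1 = ri K k := by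
    intro k; unfold ri; have := hr k; omega
  refine {
    four := h.four
    dper := fun k => by simp only [ri, Nat.add_mod_right]
    pc := fun k => h.pc _
    qc := fun k => h.qc _
    colP := fun k => h.colP _
    colQ := fun k => h.colQ _
    s1 := fun k => ?_
    s2 := fun k => ?_
    t1 := fun k => ?_
    t2 := fun k => ?_
    disj2 := fun j k h1 h2 x hx hx' => ?_
    subP := fun k => h.subP _
    subQ := fun k => h.subQ _
    out := fun k => h.out _
    conn := fun k => h.conn _
    far := fun j k h1 h2 => ?_ }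
  · have := h.s2 (ri K k - 1)
    rwa [hs] at this
  · simp only [hnext]; exact h.s1 _
  · have := h.t2 (ri K k - 1)
    rwa [hs] at this
  · simp only [hnext]; exact h.t1 _
  · -- distance at least two modulo `K`
    have e1 := hr j
    have e2 := hr k
    simp only [ri] at hx hx'
    have hmod : j % K + 2 ≤ k % K ∧ k % K + 2 ≤ j % K + K ∨
        k % K + 2 ≤ j % K ∧ j % K + 2 ≤ k % K + K := by
      have a1 := Nat.mod_add_div j K
      have a2 := Nat.mod_add_div k K
      set u := j % K
      set v := k % K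
      set s := j / K
      set t := k / K
      have hst : s ≤ t := Nat.div_le_div_right (by omega)
      have hts : t ≤ s + 1 := by
        by_contra hc
        push Not at hc
        have : K * (s + 2) ≤ K * t := Nat.mul_le_mul_left _ hc
        have e3 : K * (s + 2) = K * s + 2 * K := by ring
        omega
      rcases hst.lt_or_eq with h5 | h5
      · have : t = s + 1 := by omega
        rw [this] at a2
        have e3 : K * (s + 1) = K * s + K := by ring
        right
        omega
      · rw [← h5] at a2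
        left
        omega
    rcases hmod with ⟨a1, a2⟩ | ⟨a1, a2⟩
    · exact h.disj2 (K - k % K - 1) (K - j % K - 1) (by omega) (by omega) x hx' hx
    · exact h.disj2 (K - j % K - 1) (K - k % K - 1) (by omega) (by omega) x hx hx'
  · -- far feet
    have e1 := hr j
    have e2 := hr k
    apply h.far
    · intro he
      apply h2
      have e3 : (k + 1) % K = j % K := by
        rcases (show k % K + 1 ≤ K from hr k).lt_or_eq with h5 | h5
        · have h6 : (k + 1) % K = k % K + 1 := by
            rw [Nat.add_mod, Nat.mod_eq_of_lt (show 1 < K by omega), Nat.mod_eq_of_lt h5]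
          rw [h6]
          simp only [ri] at he
          rw [Nat.mod_eq_of_lt (show K - k % K - 1 < K by omega)] at he
          rcases Nat.eq_zero_or_pos (j % K) with h7 | h7
          · rw [h7, Nat.sub_zero, Nat.mod_self] at he
            omega
          · rw [Nat.mod_eq_of_lt (show K - j % K < K by omega)] at he
            omega
        · have h6 : (k + 1) % K = 0 := by
            rw [Nat.add_mod, Nat.mod_eq_of_lt (show 1 < K by omega), h5, Nat.mod_self]
          rw [h6]
          simp only [ri] at he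
          rw [show K - k % K - 1 = 0 by omega, Nat.zero_mod] at he
          rcases Nat.eq_zero_or_pos (j % K) with h7 | h7
          · exact h7.symm
          · rw [Nat.mod_eq_of_lt (show K - j % K < K by omega)] at he
            omega
      exact e3.symm
    · intro he
      apply h1
      rw [hs] at he
      simp only [ri] at he
      rcases Nat.eq_zero_or_pos (j % K) with h7 | h7
      · rcases Nat.eq_zero_or_pos (k % K) with h8 | h8
        · rw [h7, h8]
        · rw [h7, Nat.sub_zero, Nat.mod_self, Nat.mod_eq_of_lt (show K - k % K < K by omega)] at he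
          omega
      · rcases Nat.eq_zero_or_pos (k % K) with h8 | h8
        · rw [h8, Nat.sub_zero, Nat.mod_self, Nat.mod_eq_of_lt (show K - j % K < K by omega)] at he
          omega
        · rw [Nat.mod_eq_of_lt (show K - k % K < K by omega),
            Nat.mod_eq_of_lt (show K - j % K < K by omega)] at he
          omega

theorem ri_per (K k : ℕ) : ri K (k + K) = ri K k := by simp only [ri, Nat.add_mod_right]

/-- The multiplicity of an edge is invariant under reversal. -/
theorem mu_reverse (l : List D) (f : D) : T.mu (l.map T.rev).reverse f = T.mu l f := by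
  classical
  have h1 : ∀ x : D, ((l.map T.rev).reverse.count x : ZMod 2) = (l.count (T.rev x) : ZMod 2) := by
    intro x
    rw [List.count_reverse]
    congr 1
    have hinj : Injective T.rev := fun a b hab => by
      have := congrArg T.rev hab
      rwa [T.rev_rev, T.rev_rev] at this
    have := List.count_map_of_injective l T.rev hinj (T.rev x)
    rwa [T.rev_rev] at this
  unfold Tri.mu
  rw [h1, h1, T.rev_rev, add_comm]

/-- The reversed tube. -/
theorem Tube.reverse {a b : D} {p q : List D} (h : Tube T σ a b p q) :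
    Tube T σ b a (p.map T.rev).reverse (q.map T.rev).reverse := by
  refine ⟨h.bie, h.csrc.symm, h.ctgt.symm, h.ne.symm, h.wp.reverse, h.wq.reverse, ?_, ?_⟩
  · intro g hg
    rw [List.mem_reverse, List.mem_map] at hg
    obtain ⟨g', hg', rfl⟩ := hg
    rw [T.src_rev, T.tgt_rev, h.csrc]
    exact ⟨(h.cp g' hg').2, (h.cp g' hg').1⟩
  · intro g hg
    rw [List.mem_reverse, List.mem_map] at hg
    obtain ⟨g', hg', rfl⟩ := hg
    rw [T.src_rev, T.tgt_rev, h.ctgt]
    exact ⟨(h.cq g' hg').2, (h.cq g' hg').1⟩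

theorem gam_reverse_mem {a b : D} {p q : List D} {f : D}
    (hf : f ∈ gam T b a (p.map T.rev).reverse (q.map T.rev).reverse) : T.rev f ∈ gam T a b p q := by
  unfold gam at hf ⊢
  simp only [List.mem_append, List.mem_cons, List.mem_singleton, List.mem_reverse,
    List.mem_map, List.not_mem_nil, or_false] at hf ⊢
  rcases hf with ⟨g, hg, rfl⟩ | rfl | ⟨g, hg, rfl⟩ | rfl
  · left; rw [T.rev_rev]; exact hg
  · right; right; right; rfl
  · right; right; left; rw [T.rev_rev]; exact hg
  · right; left; rw [T.rev_rev]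

theorem mu_gam_reverse (a b : D) (p q : List D) (f : D) :
    T.mu (gam T b a (p.map T.rev).reverse (q.map T.rev).reverse) f = T.mu (gam T a b p q) f := by
  classical
  unfold gam
  simp only [T.mu_append, T.mu_cons, T.mu_nil, mu_reverse]
  have e1 : ∀ x y : D, (T.rev x = T.rev y) ↔ (x = y) := by
    intro x y
    constructor
    · intro h1
      have := congrArg T.rev h1
      rwa [T.rev_rev, T.rev_rev] at this
    · rintro rfl; rfl
  have e2 : ∀ x y : D, (T.rev x = y) ↔ (x = T.rev y) := by
    intro x y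
    constructor
    · rintro rfl; rw [T.rev_rev]
    · rintro rfl; rw [T.rev_rev]
  simp only [e1, e2]
  ring

/-- **Orientation dichotomy**: the ring or the reversed ring is positively oriented. -/
theorem CRing.dichotomy [Finite D] (hPl : T.Planar) (h : CRing T σ c K d P Q X ω)
    (hX : ∀ k, X (k + K) = X k) {g₀ : D} (hg : T.src g₀ = ω) :
    (∀ k, Pos T σ (X k) g₀ (d k) (d (k + 1))) ∨
    (∀ k, Pos T σ (X (ri K k - 1)) g₀ (d (ri K k)) (d (ri K (k + 1)))) := by
  classical
  have h4 := h.four
  obtain ⟨p, q, t1, -, t3⟩ := h.exists_tube 0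
  obtain ⟨N, n1, n2⟩ := T.exists_pot hPl t1.closed g₀
  by_cases h0 : N (d 0) = N g₀ + 1
  · left
    exact h.pos_all hPl hX hg t1 t3 n1 h0
  · right
    have h0' : N (d 0) = N g₀ := by
      revert h0
      generalize N (d 0) = a
      generalize N g₀ = b
      revert a b; decide
    obtain ⟨n, -, hn2, hn3, -, hn5⟩ := t1.two_feet n1
    have h1 : N (d 1) = N g₀ + 1 := by
      have := hn5 n le_rfl hn2
      rwa [hn3, h0'] at this
    have hR := h.reverse hX
    have hXr : ∀ k, X (ri K (k + K) - 1) = X (ri K k - 1) := fun k => by rw [ri_per]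
    have e0 : ri K (K - 1) = 1 := by
      unfold ri; rw [Nat.mod_eq_of_lt (by omega)]; omega
    have e1 : ri K (K - 1 + 1) = K := by
      unfold ri; rw [Nat.sub_add_cancel (by omega), Nat.mod_self, Nat.sub_zero]
    have hdK : d K = d 0 := by have := h.dper 0; rwa [zero_add] at this
    have hT := t1.reverse
    have hG : ∀ f ∈ gam T (d 1) (d 0) (p.map T.rev).reverse (q.map T.rev).reverse,
        T.src f ∈ X 0 := by
      intro f hf
      have hm := gam_reverse_mem hf
      obtain ⟨g, hg', hh⟩ := t1.closed.tgt_mem_closed _ hm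
      rw [T.tgt_rev] at hh
      rw [← hh]
      exact t3 g hg'
    have hN : T.Pot (gam T (d 1) (d 0) (p.map T.rev).reverse (q.map T.rev).reverse) N := by
      refine ⟨n1.1, fun f hf => ?_⟩
      rw [mu_gam_reverse]
      apply n1.2 f
      rcases hf with hf | hf
      · left; exact hf
      · right
        intro g hg' hh
        -- sources of the two closed walks agree
        have hm : ∃ g' ∈ gam T (d 1) (d 0) (p.map T.rev).reverse (q.map T.rev).reverse,
            T.src g' = T.src g := by
          have hrev : T.rev g ∈ gam T (d 1) (d 0) (p.map T.rev).reverse (q.map T.rev).reverse := by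
            have hg'' := hg'
            unfold gam at hg'' ⊢
            simp only [List.mem_append, List.mem_cons, List.mem_singleton,
              List.mem_reverse, List.mem_map, List.not_mem_nil, or_false] at hg'' ⊢
            rcases hg'' with h5 | rfl | h5 | rfl
            · left; exact ⟨g, h5, rfl⟩
            · right; right; right; rfl
            · right; right; left; exact ⟨g, h5, rfl⟩
            · right; left; rw [T.rev_rev]
          obtain ⟨g', hg3, hh3⟩ := hT.closed.tgt_mem_closed _ hrev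
          rw [T.tgt_rev] at hh3
          exact ⟨g', hg3, hh3⟩
        obtain ⟨g', hg3, hh3⟩ := hm
        exact hf g' hg3 (hh3.trans hh)
    have hT' : Tube T σ ((fun k => d (ri K k)) (K - 1)) ((fun k => d (ri K k)) (K - 1 + 1))
        (p.map T.rev).reverse (q.map T.rev).reverse := by
      simp only [e0, e1, hdK]; exact hT
    have hG' : ∀ f ∈ gam T ((fun k => d (ri K k)) (K - 1)) ((fun k => d (ri K k)) (K - 1 + 1))
        (p.map T.rev).reverse (q.map T.rev).reverse,
        T.src f ∈ (fun k => X (ri K k - 1)) (K - 1) := by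
      simp only [e0, e1, hdK]; exact hG
    have hN' : T.Pot (gam T ((fun k => d (ri K k)) (K - 1)) ((fun k => d (ri K k)) (K - 1 + 1))
        (p.map T.rev).reverse (q.map T.rev).reverse) N := by
      simp only [e0, e1, hdK]; exact hN
    have h1' : N ((fun k => d (ri K k)) (K - 1)) = N g₀ + 1 := by
      simp only [e0]; exact h1
    exact fun k => hR.pos_all hPl hXr hg hT' hG' hN' h1' k

end dich

end Vale.Agent.P148.R2.H565
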