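import Vale.Agent.P148.R2.H565.Loc12
import Vale.Agent.P148.R2.H565.Vk
import Vale.Agent.P148.R2.H565.Mc2
import Vale.Agent.P148.R2.H678.Sep
import Vale.Agent.P148.R2.H959.Reg
import Vale.Agent.P148.R2.H938.CombP

/-!
# The comb events, the composite colouring and the feet
-/

open Set Relation Metric Function

namespace Vale.Agent.P148.R2.H565

open Vale.Agent.P148.R2.H258 Vale.Agent.P148.R2.H871
open Vale.Agent.P148.R2.N (ms nc gateC gbox cell csq ms_pos)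
open Vale.Agent.P148.R2.H592 (HullTri nbr nbr_symm ConnIn Fc idmap fib_id tail head vc)
open Vale.Agent.P148.R2.H959 (Jn reg)
open Vale.Agent.P148.R2.H678 (core hub pin pout sd CBox CCr InGood OutGood Tooth Rails inHub outHub
  inRim outRim hbox mix Ex HubsGood mem_Ex mem_mix_of_mem mem_mix_of_not_mem hub_congr Link)
open Vale.Agent.P148.R2.H938 (HubEv CorEv)

variable {M : ℕ}

/-- The regions of helper959. -/
theorem regs_reg (hM : 0 < M) : Regs M (reg M) where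
  per k := H959.reg_add_nc M k
  conv k := H959.convex_reg M k
  opn k := H959.isOpen_reg M k
  g1 k := H959.gbox_subset_reg M k
  g2 k := H959.gbox_succ_subset_reg hM k
  lo k := by
    have h0 := ms_pos hM
    refine H959.cbox_subset_reg hM (H959.pin_eq M k) (H959.pin_eq M (k + 1)) ?_ ?_ ?_
    · rw [norm_neg, H959.norm_off hM]
    · rw [norm_neg, H959.norm_off hM]
    · have := (H995.norm_railin hM k).1
      have h1 : sd M = ms M / 256 := rfl
      linarith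
  up k := by
    have h0 := ms_pos hM
    refine H959.cbox_subset_reg hM (H959.pout_eq M k) (H959.pout_eq M (k + 1)) ?_ ?_ ?_
    · rw [H959.norm_off hM]
    · rw [H959.norm_off hM]
    · have := (H995.norm_railout hM k).1
      have h1 : sd M = ms M / 256 := rfl
      linarith
  disj j k h1 h2 := H959.disjoint_reg hM h1 h2

/-- The black sites of the composite colouring: `B₁` on the hubs, `B₂` elsewhere. -/
def cmpB (M : ℕ) (X B₁ B₂ : Set ℂ) : Set ℂ := mix (Ex M X B₁ (X \ B₁)) B₁ B₂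

/-- The comb events. -/
structure CombEv (M : ℕ) (X B₁ B₂ : Set ℂ) : Prop where
  s1 : B₁ ⊆ X
  s2 : B₂ ⊆ X
  hub : HubsGood M X B₁ (X \ B₁)
  tooth : ∀ k < nc M, Tooth M X (X \ B₂) k
  rails : ∀ k < nc M, Rails M X B₂ (X \ B₂) k

theorem combEv_of {X B₁ B₂ : Set ℂ} (s1 : B₁ ⊆ X) (s2 : B₂ ⊆ X)
    (h1 : ∀ k < nc M, HubEv M X B₁ (X \ B₁) k) (h2 : ∀ k < nc M, CorEv M X B₂ (X \ B₂) k) :
    CombEv M X B₁ B₂ :=
  ⟨s1, s2, h1, fun k hk => (h2 k hk).1.1, fun k hk => (h2 k hk).2⟩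

section comp

variable {X B₁ B₂ : Set ℂ}

theorem cmpB_sub (h : CombEv M X B₁ B₂) : cmpB M X B₁ B₂ ⊆ X := by
  rintro z (⟨h1, -⟩ | ⟨h1, -⟩)
  · exact h.s1 h1
  · exact h.s2 h1

theorem in_sub_Ex (k : ℕ) : inHub M X (X \ B₁) k ⊆ Ex M X B₁ (X \ B₁) := fun _ hz =>
  mem_iUnion.2 ⟨k, Or.inl hz⟩

theorem out_sub_Ex (k : ℕ) : outHub M X B₁ k ⊆ Ex M X B₁ (X \ B₁) := fun _ hz =>
  mem_iUnion.2 ⟨k, Or.inr hz⟩

theorem mem_cmpB_Ex {z : ℂ} (hz : z ∈ Ex M X B₁ (X \ B₁)) : z ∈ cmpB M X B₁ B₂ ↔ z ∈ B₁ :=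
  mem_mix_of_mem hz

theorem mem_cmpB_off {z : ℂ} (hz : z ∉ Ex M X B₁ (X \ B₁)) : z ∈ cmpB M X B₁ B₂ ↔ z ∈ B₂ :=
  mem_mix_of_not_mem hz

/-- The hubs of the composite colouring. -/
theorem core_in_cmp (k : ℕ) : core (nbr X) (X ∩ ball (pin M k) (sd M)) (X \ cmpB M X B₁ B₂) =
    core (nbr X) (X ∩ ball (pin M k) (sd M)) (X \ B₁) := by
  refine H678.core_congr fun v hv => ?_
  have h1 := mem_cmpB_Ex (B₂ := B₂) (in_sub_Ex (B₁ := B₁) k hv)
  simp only [mem_sdiff, h1]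

theorem core_out_cmp (k : ℕ) : core (nbr X) (X ∩ ball (pout M k) (sd M)) (cmpB M X B₁ B₂) =
    core (nbr X) (X ∩ ball (pout M k) (sd M)) B₁ := by
  refine H678.core_congr fun v hv => ?_
  exact mem_cmpB_Ex (B₂ := B₂) (out_sub_Ex (B₁ := B₁) k hv)

theorem inHub_cmp (k : ℕ) : inHub M X (X \ cmpB M X B₁ B₂) k = inHub M X (X \ B₁) k := by
  unfold inHub hub
  rw [core_in_cmp]

theorem outHub_cmp (k : ℕ) : outHub M X (cmpB M X B₁ B₂) k = outHub M X B₁ k := by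
  unfold outHub hub
  rw [core_out_cmp]

theorem inRim_cmp (k : ℕ) : inRim M X (X \ cmpB M X B₁ B₂) k = inRim M X (X \ B₁) k := by
  unfold inRim H678.rim hub
  rw [core_in_cmp]

theorem outRim_cmp (k : ℕ) : outRim M X (cmpB M X B₁ B₂) k = outRim M X B₁ k := by
  unfold outRim H678.rim hub
  rw [core_out_cmp]

theorem bc_eq_true {B : Set ℂ} {z : ℂ} : bc B z = true ↔ z ∈ B := by
  unfold bc; simp

theorem bc_eq_false {B : Set ℂ} {z : ℂ} : bc B z = false ↔ z ∉ B := by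
  unfold bc; simp

theorem not_mem_Ex {z : ℂ}
    (h : ∀ k < nc M, z ∉ inHub M X (X \ B₁) k ∧ z ∉ outHub M X B₁ k) :
    z ∉ Ex M X B₁ (X \ B₁) := by
  rw [mem_Ex]
  rintro ⟨k, hk, h1 | h1⟩
  · exact (h k hk).1 h1
  · exact (h k hk).2 h1

theorem CombEv.ok (h : CombEv M X B₁ B₂) :
    CombOK M X B₁ (X \ B₁) B₂ (X \ B₂) (bc (cmpB M X B₁ B₂)) where
  b2 := h.s2
  w2 := sdiff_subset
  inG k hk := (h.hub k hk).1
  outG k hk := (h.hub k hk).2
  tooth := h.tooth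
  rails := h.rails
  hin k _ z hz hz' := by
    have h1 := in_sub_Ex (B₁ := B₁) k hz
    rw [bc_eq_true, mem_cmpB_Ex h1]
    by_contra hc
    exact hz' ⟨H678.Ex_sub h1, hc⟩
  hout k _ z hz hz' := by
    have h1 := out_sub_Ex (B₁ := B₁) k hz
    rw [bc_eq_false, mem_cmpB_Ex h1]
    exact hz'
  off2 z hz h2 := by
    rw [bc_eq_true, mem_cmpB_off (not_mem_Ex h2)]
    exact hz
  off2' z hz h2 := by
    rw [bc_eq_false, mem_cmpB_off (not_mem_Ex h2)]
    exact hz.2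

/-- Every gate has a foot. -/
theorem CombEv.exists_Foot (hM : 0 < M) (h : CombEv M X B₁ B₂) (k : ℕ) :
    ∃ a, Foot M X (cmpB M X B₁ B₂) k a := by
  have ht : Tooth M X (X \ B₂) (k % nc M) := h.tooth _ (Nat.mod_lt _ (nc_pos M))
  have ht' : Tooth M X (X \ B₂) k := by
    unfold Tooth at ht ⊢
    rwa [H995.pin_mod, H995.pout_mod] at ht
  obtain ⟨n, v, h0, h1, h2, h3, h4, h5⟩ := h.hub.tooth_link hM sdiff_subset ht'
  refine ⟨(v 0, v 1), n, v, h0, h1, rfl, rfl, ?_, ?_, ?_, fun i hi => H995.tooth_sub hM k (h5 i hi)⟩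
  · rw [inRim_cmp]; exact h2
  · rw [outRim_cmp]; exact h3
  · intro i hi hin
    obtain ⟨g1, g2⟩ := h4 i hi hin
    rw [inHub_cmp, outHub_cmp, mem_cmpB_off g2]
    exact ⟨g1.2, fun hc => g2 (in_sub_Ex k hc), fun hc => g2 (out_sub_Ex k hc)⟩

end comp

theorem Foot_add_nc (Y B : Set ℂ) (k : ℕ) (a : ℂ × ℂ) :
    Foot M Y B (k + nc M) a ↔ Foot M Y B k a := by
  unfold Foot inRim outRim inHub outHub
  rw [pin_add_nc, pout_add_nc, N.gbox_add_nc]

/-! ### feet on the triangulation -/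

section tri

variable {X : Set ℂ} {b : ZMod 3 → ℂ} (h : HullTri X b) (x₀ : X)

/-- The walk of a path given as a sequence, with sources and targets. -/
theorem HT_walk_seq' {n : ℕ} {v : ℕ → ℂ} (hv : ∀ i < n, nbr X (v i) (v (i + 1)))
    (hX : ∀ i ≤ n, v i ∈ X) : ∃ l, (HT h x₀).Walk ⟨v 0, hX 0 (Nat.zero_le n)⟩ ⟨v n, hX n le_rfl⟩ l ∧
      ∀ g ∈ l, ∃ i < n, (((HT h x₀).src g : X) : ℂ) = v i ∧ (((HT h x₀).tgt g : X) : ℂ) = v (i + 1) := by
  induction n with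
  | zero => exact ⟨[], Tri.Walk.nil _, fun g hg => by simp at hg⟩
  | succ n ih =>
    obtain ⟨l, h1, h2⟩ := ih (fun i hi => hv i (by omega)) (fun i hi => hX i (by omega))
    obtain ⟨q, hq1, hq2⟩ := HT_dart h x₀ (x := ⟨v n, hX n (by omega)⟩)
      (y := ⟨v (n + 1), hX (n + 1) le_rfl⟩) (hv n (by omega))
    have h3 := Tri.Walk.single (T := HT h x₀) q
    rw [hq1, hq2] at h3
    refine ⟨l ++ [q], h1.append h3, fun g hg => ?_⟩
    rw [List.mem_append, List.mem_singleton] at hg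
    rcases hg with hg | rfl
    · obtain ⟨i, hi, h4⟩ := h2 g hg
      exact ⟨i, by omega, h4⟩
    · exact ⟨n, by omega, by rw [hq1], by rw [hq2]⟩

variable {B₁ B₂ : Set ℂ}

/-- The inner and outer cores as sets of vertices. -/
def cin (M : ℕ) (X B : Set ℂ) (k : ℕ) : Set X :=
  vs (core (nbr X) (X ∩ ball (pin M k) (sd M)) (X \ B))

def cout (M : ℕ) (X B : Set ℂ) (k : ℕ) : Set X :=
  vs (core (nbr X) (X ∩ ball (pout M k) (sd M)) B)

theorem mem_cin {B : Set ℂ} {k : ℕ} {v : X} : v ∈ cin M X B k ↔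
    v.1 ∈ core (nbr X) (X ∩ ball (pin M k) (sd M)) (X \ B) := Iff.rfl

theorem mem_cout {B : Set ℂ} {k : ℕ} {v : X} : v ∈ cout M X B k ↔
    v.1 ∈ core (nbr X) (X ∩ ball (pout M k) (sd M)) B := Iff.rfl

/-- The hub data of the comb events, for the composite colouring. -/
theorem CombEv.hubs (hM : 0 < M) (hbR : ∀ k j, b j ∉ reg M k) (hc : CombEv M X B₁ B₂) :
    Hubs (HT h x₀) (fun v => bc (cmpB M X B₁ B₂) v.1) true (nc M) (cin M X B₁) (cout M X B₁)
      (fun k => vs (csq (pin M k) (ms M / 16))) (fun k => vs (csq (pout M k) (ms M / 16)))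
      (fun k => vs (gbox M k)) (fun k => vs (reg M k)) ⟨b 0, h.mem 0⟩ :=
  hc.ok.hubs hM h x₀ (regs_reg hM) hbR

/-- **A foot of a gate is an admissible foot on the triangulation.** -/
theorem footOK_of_Foot (hM : 0 < M) (hbR : ∀ k j, b j ∉ reg M k) (hc : CombEv M X B₁ B₂)
    {k : ℕ} {a : ℂ × ℂ} (ha : Foot M X (cmpB M X B₁ B₂) k a) :
    ∃ g : Fc X b × ZMod 3, tail g = a.1 ∧ head g = a.2 ∧
      FootOK (HT h x₀) (fun v => bc (cmpB M X B₁ B₂) v.1) true (cin M X B₁ k) (cout M X B₁ k)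
        (vs (gbox M k)) ⟨b 0, h.mem 0⟩ g := by
  obtain ⟨n, v, h0, h1, h2, h3, h4, h5, h6, h7⟩ := ha
  rw [inRim_cmp] at h4
  rw [outRim_cmp] at h5
  have hH := hc.hubs h x₀ hM hbR
  have hX : ∀ i ≤ n, v i ∈ X := by
    intro i hi
    rcases Nat.eq_zero_or_pos i with rfl | h8
    · exact (h1 0 h0).1
    · have := (h1 (i - 1) (by omega)).2.1
      rwa [show i - 1 + 1 = i by omega] at this
  -- positions of the two ends
  have p0 : v 0 ∈ inHub M X (X \ B₁) k := h4.1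
  have pn : v n ∈ outHub M X B₁ k := h5.1
  have q0 : v 0 ∈ csq (pin M k) (ms M / 16) := hbox_sub_csq hM _ (hc.ok.inG' k p0)
  have qn : v n ∈ csq (pout M k) (ms M / 16) := hbox_sub_csq hM _ (hc.ok.outG' k pn)
  have o0 : ∀ i, 0 < i → i ≤ n → v i ∉ core (nbr X) (X ∩ ball (pin M k) (sd M)) (X \ B₁) := by
    intro i hi hin hcon
    rcases hin.lt_or_eq with h8 | h8
    · have := (h6 i hi h8).2.1
      rw [inHub_cmp] at this
      exact this (H678.core_sub_hub hcon)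
    · subst h8
      exact csq_disj hM k (hbox_sub_csq hM _ (hc.ok.inG' k (H678.core_sub_hub hcon))) qn
  have o1 : ∀ i, i ≤ n → v i ∉ core (nbr X) (X ∩ ball (pout M k) (sd M)) B₁ := by
    intro i hin hcon
    rcases Nat.eq_zero_or_pos i with h8 | hi
    · subst h8
      exact csq_disj hM k q0 (hbox_sub_csq hM _ (hc.ok.outG' k (H678.core_sub_hub hcon)))
    rcases hin.lt_or_eq with h8 | h8
    · have := (h6 i hi h8).2.2
      rw [outHub_cmp] at this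
      exact this (H678.core_sub_hub hcon)
    · subst h8
      exact h5.2 hcon
  -- the walk from `v 1` to `v n`
  obtain ⟨l, l1, l2⟩ := HT_walk_seq' h x₀ (n := n - 1) (v := fun i => v (i + 1))
    (fun i hi => h1 (i + 1) (by omega)) (fun i hi => hX (i + 1) (by omega))
  simp only [Nat.zero_add] at l1
  have hn : (⟨v (n - 1 + 1), hX (n - 1 + 1) (by omega)⟩ : X) = ⟨v n, hX n le_rfl⟩ := by
    apply Subtype.ext
    show v (n - 1 + 1) = v n
    rw [show n - 1 + 1 = n by omega]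
  rw [hn] at l1
  -- the full walk, backwards
  obtain ⟨m, m1, m2⟩ := HT_walk_seq' h x₀ h1 hX
  have fn : Far (HT h x₀) (cin M X B₁ k) ⟨b 0, h.mem 0⟩ ⟨v n, hX n le_rfl⟩ := by
    refine far_of_box (hH.outH k) (fun z hz => hH.sub k (Or.inl hz)) (hH.connH k) ?_
    exact fun hcon => csq_disj hM k hcon qn
  have f1 : Far (HT h x₀) (cin M X B₁ k) ⟨b 0, h.mem 0⟩ ⟨v 1, hX 1 h0⟩ := by
    refine fn.walk l1 fun g hg => ?_
    obtain ⟨i, hi, g1, g2⟩ := l2 g hg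
    constructor
    · rw [mem_cin, g1]; exact o0 (i + 1) (by omega) (by omega)
    · rw [mem_cin, g2]; exact o0 (i + 1 + 1) (by omega) (by omega)
  obtain ⟨g, g1, g2⟩ := HT_dart h x₀ (x := ⟨v 0, hX 0 h0.le⟩) (y := ⟨v 1, hX 1 h0⟩) (h1 0 h0)
  have hsg : (((HT h x₀).src g : X) : ℂ) = v 0 := by rw [g1]
  have htg : (((HT h x₀).tgt g : X) : ℂ) = v 1 := by rw [g2]
  have f0 : Far (HT h x₀) (cin M X B₁ k) ⟨b 0, h.mem 0⟩ ((HT h x₀).src g) := by
    refine Far.walk (v := (HT h x₀).tgt g) (by rw [g2]; exact f1) (Tri.Walk.single g) ?_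
    intro g' hg'
    rw [List.mem_singleton] at hg'
    subst hg'
    refine ⟨?_, ?_⟩
    · rw [mem_cin, hsg]; exact h4.2
    · rw [mem_cin, htg]; exact o0 1 one_pos h0
  -- the far outer rim
  have F0 : Far (HT h x₀) (cout M X B₁ k) ⟨b 0, h.mem 0⟩ ⟨v 0, hX 0 h0.le⟩ := by
    refine far_of_box (hH.outH' k) (fun z hz => hH.sub' k (Or.inl hz)) (hH.connH' k) ?_
    exact fun hcon => csq_disj hM k q0 hcon
  have Fn : Far (HT h x₀) (cout M X B₁ k) ⟨b 0, h.mem 0⟩ ⟨v n, hX n le_rfl⟩ := by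
    refine F0.walk m1.reverse (rev_walk_off fun g hg => ?_)
    obtain ⟨i, hi, g1, g2⟩ := m2 g hg
    constructor
    · rw [mem_cout, g1]; exact o1 i (by omega)
    · rw [mem_cout, g2]; exact o1 (i + 1) (by omega)
  have white : ∀ i, 0 < i → i ≤ n → bc (cmpB M X B₁ B₂) (v i) = !true := by
    intro i hi hin
    rw [Bool.not_true, bc_eq_false]
    rcases hin.lt_or_eq with h8 | h8
    · exact (h6 i hi h8).1
    · rw [h8, mem_cmpB_Ex (out_sub_Ex k pn)]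
      exact H678.rim_not h5
  refine ⟨g, ?_, ?_, ⟨f0, ?_⟩, ?_, ?_, ⟨v n, hX n le_rfl⟩, ⟨Fn, ?_⟩, l, ?_, ?_⟩
  · rw [← HT_src h x₀ g, hsg, h2]
  · rw [← HT_tgt h x₀ g, htg, h3]
  · obtain ⟨u, hu, huv⟩ := H678.rim_nbr h4
    obtain ⟨d, d1, d2⟩ := HT_dart h x₀ (x := ⟨v 0, hX 0 h0.le⟩) (y := ⟨u, huv.1⟩) (nbr_symm huv)
    refine ⟨d, by rw [d1, g1], ?_⟩
    rw [d2]; exact hu
  · show bc _ (((HT h x₀).tgt g : X) : ℂ) = _
    rw [htg]; exact white 1 one_pos h0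
  · rw [mem_vs, htg]; exact h7 1 h0
  · obtain ⟨u, hu, huv⟩ := H678.rim_nbr h5
    obtain ⟨d, d1, d2⟩ := HT_dart h x₀ (x := ⟨v n, hX n le_rfl⟩) (y := ⟨u, huv.1⟩) (nbr_symm huv)
    refine ⟨d, d1, ?_⟩
    rw [d2]; exact hu
  · rw [g2]; exact l1
  · intro g' hg'
    obtain ⟨i, hi, e1, e2⟩ := l2 g' hg'
    constructor
    · show bc _ (((HT h x₀).tgt g' : X) : ℂ) = _
      rw [e2]; exact white (i + 1 + 1) (by omega) (by omega)
    · rw [mem_vs, e2]; exact h7 (i + 1 + 1) (by omega)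

end tri

end Vale.Agent.P148.R2.H565
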