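import Vale.Agent.P148.R2.H565.Loc11
import Vale.Agent.P148.R2.H565.Mc2

/-!
# All choices of the feet: common main class, value of a cell, orientation
-/

namespace Vale.Agent.P148.R2.H565

open Function Vale.Agent.P148.R2.H258 Vale.Agent.P148.R2.H871

variable {V D : Type*} {T : Tri V D} {σ : V → Bool}
variable {c : Bool} {K : ℕ} {d d' : ℕ → D} {P Q X : ℕ → Set V} {ω : V}

/-- All choices of admissible feet (`A k` for the gate `k`) give closed rings with regions `X k`. -/
structure CF (T : Tri V D) (σ : V → Bool) (c : Bool) (K : ℕ) (A : ℕ → D → Prop)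
    (X : ℕ → Set V) (ω : V) : Prop where
  big : 12 ≤ K
  aper : ∀ k g, A (k + K) g ↔ A k g
  xper : ∀ k, X (k + K) = X k
  ex : ∀ k, ∃ g, A k g
  ring : ∀ d : ℕ → D, (∀ k, d (k + K) = d k) → (∀ k, A k (d k)) →
    ∃ P Q, CRing T σ c K d P Q X ω

/-- A family of admissible feet. -/
def Fam (K : ℕ) (A : ℕ → D → Prop) (d : ℕ → D) : Prop := (∀ k, d (k + K) = d k) ∧ ∀ k, A k (d k)

variable {A : ℕ → D → Prop}

theorem CF.a_mod (h : CF T σ c K A X ω) (k : ℕ) (g : D) : A (k % K) g ↔ A k g := by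
  have := per_of_add (f := fun k => A k g) (K := K) (fun k => propext (h.aper k g)) k
  exact this ▸ Iff.rfl

theorem CF.a_congr (h : CF T σ c K A X ω) {j k : ℕ} (hjk : j % K = k % K) (g : D) :
    A j g ↔ A k g := by
  rw [← h.a_mod j, hjk, h.a_mod k]

theorem CF.exists_fam (h : CF T σ c K A X ω) : ∃ d, Fam K A d := by
  choose g hg using h.ex
  refine ⟨fun k => g (k % K), fun k => by simp only [Nat.add_mod_right], fun k => ?_⟩
  exact (h.a_mod k _).1 (hg _)

theorem Fam.congr (hd : Fam K A d) {j k : ℕ} (hjk : j % K = k % K) : d j = d k := by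
  rw [← per_of_add hd.1 j, hjk, per_of_add hd.1 k]

open Classical in
theorem Fam.mix (hd : Fam K A d) (hd' : Fam K A d') (S : Set ℕ) :
    Fam K A (fun k => if k % K ∈ S then d k else d' k) := by
  refine ⟨fun k => ?_, fun k => ?_⟩
  · simp only [Nat.add_mod_right, hd.1, hd'.1]
  · show A k (if k % K ∈ S then d k else d' k)
    split_ifs
    · exact hd.2 k
    · exact hd'.2 k

open Classical in
/-- Change of one foot. -/
theorem CF.update (h : CF T σ c K A X ω) (hd : Fam K A d) {m : ℕ} {a : D} (ha : A m a) :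
    Fam K A (fun k => if k % K = m % K then a else d k) := by
  refine ⟨fun k => ?_, fun k => ?_⟩
  · simp only [Nat.add_mod_right, hd.1]
  · show A k (if k % K = m % K then a else d k)
    split_ifs with h1
    · exact (h.a_congr h1 a).2 ha
    · exact hd.2 k

theorem ri_ri (hK : 0 < K) (k : ℕ) : ri K (ri K k) % K = k % K := by
  unfold ri
  have h1 := Nat.mod_lt k hK
  rcases Nat.eq_zero_or_pos (k % K) with h2 | h2
  · rw [h2, Nat.sub_zero, Nat.mod_self, Nat.sub_zero, Nat.mod_self]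
  · rw [Nat.mod_eq_of_lt (show K - k % K < K by omega),
      show K - (K - k % K) = k % K by omega, Nat.mod_mod]

/-- The reversed indexing. -/
theorem CF.reverse (h : CF T σ c K A X ω) :
    CF T σ c K (fun k => A (ri K k)) (fun k => X (ri K k - 1)) ω where
  big := h.big
  aper k g := by simp only [ri_per]
  xper k := by simp only [ri_per]
  ex k := h.ex _
  ring d hd1 hd2 := by
    have hK : 0 < K := by have := h.big; omega
    have e : ∀ k, d (ri K (ri K k)) = d k := fun k => by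
      rw [← per_of_add hd1 (ri K (ri K k)), ri_ri hK, per_of_add hd1]
    obtain ⟨P, Q, hR⟩ := h.ring (fun k => d (ri K k)) (fun k => by simp only [ri_per])
      (fun k => (h.a_congr (ri_ri hK k) _).1 (hd2 (ri K k)))
    have := hR.reverse h.xper
    simp only [e] at this
    exact ⟨_, _, this⟩

theorem Hubs.cf [Finite D] (hPl : T.Planar) {E E' H H' B : ℕ → Set V}
    (h : Hubs T σ c K E E' H H' B X ω) (hK : 12 ≤ K) :
    CF T σ c K (fun k => FootOK T σ c (E k) (E' k) (B k) ω) X ω where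
  big := hK
  aper k g := by simp only [h.eper, h.eper', h.bper]
  xper := h.xper
  ex := h.exists_foot
  ring d hd1 hd2 := (h.comb hPl hd1 hd2).cring

/-! ### orientation -/

/-- If one tube is positively oriented, all are. -/
theorem CRing.pos_from [Finite D] (hPl : T.Planar) (h : CRing T σ c K d P Q X ω)
    (hX : ∀ k, X (k + K) = X k) {g₀ : D} (hg : T.src g₀ = ω) {j : ℕ}
    (hp : Pos T σ (X j) g₀ (d j) (d (j + 1))) (k : ℕ) : Pos T σ (X k) g₀ (d k) (d (k + 1)) := by
  obtain ⟨p, q, t1, -, t3⟩ := h.exists_tube j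
  obtain ⟨N, n1, -⟩ := T.exists_pot hPl t1.closed g₀
  exact h.pos_all hPl hX hg t1 t3 n1 (hp _ _ _ t1 t3 n1) k

/-- The orientation is the same for all choices of the feet. -/
theorem CF.pos_switch [Finite D] (hPl : T.Planar) (h : CF T σ c K A X ω) {g₀ : D}
    (hg : T.src g₀ = ω) (hd : Fam K A d) (hd' : Fam K A d')
    (hp : Pos T σ (X 0) g₀ (d 0) (d 1)) (k : ℕ) : Pos T σ (X k) g₀ (d' k) (d' (k + 1)) := by
  classical
  have h4 := h.big
  have hm := hd.mix hd' ({0, 1} : Set ℕ)
  obtain ⟨P, Q, hR⟩ := h.ring _ hm.1 hm.2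
  have h1 := hR.pos_from hPl h.xper hg (j := 0) (by
    simp only [Nat.zero_mod, Set.mem_insert_iff, Set.mem_singleton_iff, true_or, if_true,
      Nat.zero_add, Nat.mod_eq_of_lt (show 1 < K by omega), or_true]
    exact hp) 2
  simp only [Nat.mod_eq_of_lt (show 2 < K by omega), Nat.mod_eq_of_lt (show 2 + 1 < K by omega),
    Set.mem_insert_iff, Set.mem_singleton_iff] at h1
  norm_num at h1
  obtain ⟨P', Q', hR'⟩ := h.ring _ hd'.1 hd'.2
  exact hR'.pos_from hPl h.xper hg (j := 2) h1 k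

/-- Positively oriented rings for all choices of the feet. -/
structure PF (T : Tri V D) (σ : V → Bool) (c : Bool) (K : ℕ) (A : ℕ → D → Prop)
    (X : ℕ → Set V) (g₀ : D) : Prop where
  cf : CF T σ c K A X (T.src g₀)
  pos : ∀ d, Fam K A d → ∀ k, Pos T σ (X k) g₀ (d k) (d (k + 1))

/-- **Orientation dichotomy.** -/
theorem CF.dichotomy [Finite D] (hPl : T.Planar) {g₀ : D} (h : CF T σ c K A X (T.src g₀)) :
    PF T σ c K A X g₀ ∨ PF T σ c K (fun k => A (ri K k)) (fun k => X (ri K k - 1)) g₀ := by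
  obtain ⟨d, hd⟩ := h.exists_fam
  obtain ⟨P, Q, hR⟩ := h.ring _ hd.1 hd.2
  rcases hR.dichotomy hPl h.xper (g₀ := g₀) rfl with h1 | h1
  · exact Or.inl ⟨h, fun d' hd' => h.pos_switch hPl rfl hd hd' (h1 0)⟩
  · right
    have hd2 : Fam K (fun k => A (ri K k)) (fun k => d (ri K k)) :=
      ⟨fun k => by simp only [ri_per], fun k => hd.2 _⟩
    exact ⟨h.reverse, fun d' hd' => h.reverse.pos_switch hPl rfl hd2 hd' (h1 0)⟩

/-! ### the loop -/

section pf

variable {g₀ : D} {t t' : ℕ → ℕ}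

/-- A loop with its times, feet and regions. -/
structure LT (T : Tri V D) (σ : V → Bool) (K : ℕ) (d : ℕ → D) (X : ℕ → Set V) (t : ℕ → ℕ) :
    Prop where
  loop : LoopT T σ K (d 0) t
  hit : ∀ k, (T.st σ)^[t k] (d 0) = d k
  seen : ∀ k n, t k ≤ n → n < t (k + 1) → T.src ((T.st σ)^[n] (d 0)) ∈ X k ∧
    T.tgt ((T.st σ)^[n] (d 0)) ∈ X k ∧ T.apex ((T.st σ)^[n] (d 0)) ∈ X k

theorem PF.exists_lt [Finite D] (hPl : T.Planar) (h : PF T σ c K A X g₀) (hd : Fam K A d) :
    ∃ t, LT T σ K d X t := by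
  obtain ⟨P, Q, hR⟩ := h.cf.ring d hd.1 hd.2
  obtain ⟨t, h1, h2, h3⟩ := hR.exists_loopT hPl h.cf.xper rfl (h.pos d hd 0)
  exact ⟨t, h1, h2, h3⟩

/-- Members of the main class. -/
def MemD (T : Tri V D) (σ : V → Bool) (o : D) (t : ℕ → ℕ) (g : D) : Prop :=
  ∃ n, t 1 ≤ n ∧ (T.st σ)^[n] o = g ∧ T.Mi σ g ∧ LD T σ o t n

/-- All members have the same class. -/
theorem LoopT.cls_mem [Fintype D] {o : D} (h : LoopT T σ K o t) {g g' : D}
    (hg : MemD T σ o t g) (hg' : MemD T σ o t g') (Θ : D → ℂ) :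
    T.cls σ g Θ = T.cls σ g' Θ := by
  obtain ⟨n, h1, rfl, h2, h3⟩ := hg
  obtain ⟨n', h1', rfl, h2', h3'⟩ := hg'
  rw [h.cls_eq h1 h2 h3 le_rfl, h.cls_eq h1' h2' h3' le_rfl]

theorem LoopT.ld_mul {o : D} (h : LoopT T σ K o t) {n : ℕ} (hn : t 1 ≤ n) (m : ℕ) :
    LD T σ o t (n + m * H871.per T σ o) ↔ LD T σ o t n := by
  induction m with
  | zero => simp
  | succ m ih => rw [Nat.succ_mul, ← Nat.add_assoc, h.ld_per (by omega), ih]

/-- The members are in the same class. -/
theorem LoopT.rel_mem [Finite D] {o : D} (h : LoopT T σ K o t) (hK : 0 < K) {g g' : D}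
    (hg : MemD T σ o t g) (hg' : MemD T σ o t g') : T.Rel σ g g' := by
  obtain ⟨m, h1, rfl, h2, h3⟩ := hg
  obtain ⟨n, h1', rfl, h2', h3'⟩ := hg'
  have hp := h.per_pos hK
  set L := H871.per T σ o with hL
  -- a representative of `n` in `[m, m + L)`
  have e1 : m ≤ n + m * L := by nlinarith
  set n' := m + (n + m * L - m) % L with hn'
  have e2 : n + m * L = n' + (n + m * L - m) / L * L := by
    have := Nat.mod_add_div (n + m * L - m) L
    rw [hn', Nat.mul_comm ((n + m * L - m) / L) L]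
    omega
  have e3 : n' < m + L := by
    have := Nat.mod_lt (n + m * L - m) hp
    omega
  have e4 : (T.st σ)^[n] o = (T.st σ)^[n'] o := by
    rw [← iter_mul_per o n m, ← hL, e2, hL, iter_mul_per]
  have e5 : LD T σ o t n' := by
    rw [← h.ld_mul (n := n') (by omega) ((n + m * L - m) / L), ← hL, ← e2, hL, h.ld_mul h1']
    exact h3'
  rw [e4] at h2' ⊢
  exact (h.rel_iff h1 h2 h3 (show m ≤ n' by omega) e3).2 ⟨h2', e5⟩

theorem LT.step (h : LT T σ K d X t) {j k : ℕ} (hjk : j ≤ k) :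
    (T.st σ)^[t k - t j] (d j) = d k := by
  have h1 := h.loop.mono hjk
  rw [← h.hit j, ← iterate_add_apply, Nat.sub_add_cancel h1, h.hit]

theorem LT.per_eq [Finite D] (h : LT T σ K d X t) (k : ℕ) :
    H871.per T σ (d k) = H871.per T σ (d 0) := by
  rw [← h.hit k]; exact per_iter T σ _ _

/-- Two loops with common feet `j`, `k` have the same time between these feet. -/
theorem LT.time_eq [Finite D] (h : LT T σ K d X t) (h' : LT T σ K d' X t') {j k : ℕ}
    (hjk : j ≤ k) (hk : k < j + K) (e1 : d j = d' j) (e2 : d k = d' k) :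
    t k - t j = t' k - t' j := by
  have a1 := h.step hjk
  have a2 := h'.step hjk
  rw [← e1, ← e2] at a2
  have b1 := h.loop.lt_iff.2 hk
  have b2 := h'.loop.lt_iff.2 hk
  rw [h.loop.per] at b1
  rw [h'.loop.per] at b2
  have c1 := h.per_eq j
  have c2 := h'.per_eq j
  rw [← e1] at c2
  have f1 := h.loop.mono hjk
  have f2 := h'.loop.mono hjk
  exact iter_unique (by omega) (by omega) a1 a2

/-- **Common member** of two families which agree at five consecutive gates. -/
theorem LT.common [Finite D] (hPl : T.Planar) (hK : 5 ≤ K) (h : LT T σ K d X t)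
    (h' : LT T σ K d' X t') {r : ℕ} (hr : 1 ≤ r) (he : ∀ i ≤ 4, d (r + i) = d' (r + i)) :
    ∃ g, MemD T σ (d 0) t g ∧ MemD T σ (d' 0) t' g := by
  obtain ⟨n, n1, n2, n3, n4⟩ := h.loop.exists_member hPl hK (u := r + 1) (by omega)
  have ht : ∀ i ≤ 4, t (r + i) - t r = t' (r + i) - t' r := fun i hi =>
    h.time_eq h' (by omega) (by omega) (by simpa using he 0 (by omega)) (he i hi)
  have m1 := h.loop.mono (show r ≤ r + 1 by omega)
  have mm : ∀ i, t r ≤ t (r + i) ∧ t' r ≤ t' (r + i) := fun i =>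
    ⟨h.loop.mono (by omega), h'.loop.mono (by omega)⟩
  have hi1 := ht 1 (by omega)
  have hi3 := ht 3 (by omega)
  have q1 := mm 1
  have q3 := mm 3
  rw [show r + 1 + 2 = r + 3 by omega] at n2
  have key : ∀ i, t r ≤ i → (T.st σ)^[i - t r + t' r] (d' 0) = (T.st σ)^[i] (d 0) := by
    intro i hi
    rw [iterate_add_apply, h'.hit, ← show d r = d' r by simpa using he 0 (by omega), ← h.hit r,
      ← iterate_add_apply, Nat.sub_add_cancel hi]
  have hn : (T.st σ)^[n - t r + t' r] (d' 0) = (T.st σ)^[n] (d 0) := key n (by omega)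
  refine ⟨_, ⟨n, ?_, rfl, n3, n4⟩, n - t r + t' r, ?_, hn, n3, ?_⟩
  · have := h.loop.mono (show 1 ≤ r + 1 by omega); omega
  · have := h'.loop.mono (show 1 ≤ r by omega); omega
  · intro u i j a1 a2 a3 a4
    have u1 : u < r + 3 := h'.loop.lt_iff.1 (by omega)
    have u2 : r + 1 < u + 2 := h'.loop.lt_iff.1 (by omega)
    obtain ⟨w, rfl⟩ := Nat.exists_eq_add_of_le (show r ≤ u by omega)
    have hw := ht w (by omega)
    have hw2 := ht (w + 2) (by omega)
    have qw := mm w
    have qw2 := mm (w + 2)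
    rw [← Nat.add_assoc] at hw2 qw2
    have s1 : ∀ x, t' r ≤ x → sa T σ (d' 0) x = sa T σ (d 0) (x - t' r + t r) := by
      intro x hx
      unfold sa
      rw [← key (x - t' r + t r) (by omega), show x - t' r + t r - t r + t' r = x by omega]
    rw [s1 i (by omega), s1 j (by omega)]
    exact n4 (r + w) _ _ (by omega) (by omega) (by omega) (by omega)

/-- The class of the members does not depend on the choice of the feet. -/
theorem PF.rel_of [Finite D] (hPl : T.Planar) (h : PF T σ c K A X g₀) (hd : Fam K A d)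
    (hd' : Fam K A d') (ht : LT T σ K d X t) (ht' : LT T σ K d' X t') {g g' : D}
    (hg : MemD T σ (d 0) t g) (hg' : MemD T σ (d' 0) t' g') : T.Rel σ g g' := by
  classical
  have hb := h.cf.big
  have hm := hd.mix hd' (Set.Iic 5 : Set ℕ)
  obtain ⟨t'', ht''⟩ := h.exists_lt hPl hm
  obtain ⟨g1, a1, a2⟩ := ht.common hPl (by omega) ht'' (r := 1) le_rfl (by
    intro i hi
    have : (1 + i) % K = 1 + i := Nat.mod_eq_of_lt (by omega)
    simp only [this, Set.mem_Iic, show 1 + i ≤ 5 by omega, if_true])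
  obtain ⟨g2, b1, b2⟩ := ht''.common hPl (by omega) ht' (r := 6) (by omega) (by
    intro i hi
    have : (6 + i) % K = 6 + i := Nat.mod_eq_of_lt (by omega)
    simp only [this, Set.mem_Iic, show ¬ (6 + i ≤ 5) by omega, if_false])
  have hK : 0 < K := by omega
  exact T.rel_trans (T.rel_trans (ht.loop.rel_mem hK hg a1) (ht''.loop.rel_mem hK a2 b1))
    (ht'.loop.rel_mem hK b2 hg')

theorem cls_of_rel [Fintype D] {g g' : D} (h : T.Rel σ g g') (Θ : D → ℂ) :
    T.cls σ g Θ = T.cls σ g' Θ := by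
  classical
  unfold Tri.cls
  refine Finset.sum_congr rfl fun e _ => ?_
  have : T.Rel σ e g ↔ T.Rel σ e g' := ⟨fun h1 => T.rel_trans h1 h,
    fun h1 => T.rel_trans h1 (T.rel_symm h)⟩
  simp only [this]

/-- **The value of a cell from any two feet.** -/
theorem PF.cell [Fintype D] (hPl : T.Planar) (h : PF T σ c K A X g₀) (hd : Fam K A d)
    (ht : LT T σ K d X t) {g : D} (hg : MemD T σ (d 0) t g) {k : ℕ} (hk : 4 ≤ k) {Θ : D → ℂ}
    (hΘ : ∀ j g', T.src g' ∈ X j → T.tgt g' ∈ X j → T.apex g' ∈ X j → Θ g' ≠ 0 →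
      j % K = (k - 1) % K ∨ j % K = k % K ∨ j % K = (k + 1) % K)
    {a b : D} (ha : A (k - 2) a) (hb : A (k + 3) b) :
    T.Bi σ a ∧ ∃ N, 0 < N ∧ N < H871.per T σ a ∧ (T.st σ)^[N] a = b ∧
      (∀ i < N, ∃ j, k - 2 ≤ j ∧ j ≤ k + 2 ∧ T.src ((T.st σ)^[i] a) ∈ X j ∧
        T.tgt ((T.st σ)^[i] a) ∈ X j ∧ T.apex ((T.st σ)^[i] a) ∈ X j) ∧
      T.cls σ g Θ = seg T σ a N Θ := by
  classical
  have hbig := h.cf.big
  -- the family with the two feet
  have hd1 := h.cf.update hd ha
  have hd2 := h.cf.update hd1 hb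
  set e : ℕ → D := fun i => if i % K = (k + 3) % K then b else
    (fun i => if i % K = (k - 2) % K then a else d i) i with he
  have ea : e (k - 2) = a := by
    have : (k - 2) % K ≠ (k + 3) % K := mod_ne (by omega) (by omega)
    simp only [he, if_neg this, if_true]
  have eb : e (k + 3) = b := by simp only [he, if_true]
  obtain ⟨s, hs⟩ := h.exists_lt hPl hd2
  obtain ⟨n, n1, n2, n3, n4⟩ := hs.loop.exists_member hPl (by omega) (u := 1) le_rfl
  have hmem : MemD T σ (e 0) s ((T.st σ)^[n] (e 0)) := ⟨n, n1, rfl, n3, n4⟩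
  have hrel := h.rel_of hPl hd hd2 ht hs hg hmem
  have m1 : s (k - 2) < s (k + 3) := hs.loop.lt_iff.2 (by omega)
  have hiter : ∀ i, (T.st σ)^[i] a = (T.st σ)^[s (k - 2) + i] (e 0) := by
    intro i
    rw [← ea, ← hs.hit (k - 2), ← iterate_add_apply, Nat.add_comm]
  have hper : H871.per T σ a = H871.per T σ (e 0) := by rw [← ea]; exact hs.per_eq _
  refine ⟨?_, s (k + 3) - s (k - 2), by omega, ?_, ?_, ?_, ?_⟩
  · have := hs.loop.bi
    rw [← T.bi_iter (s (k - 2)), hs.hit, ea] at this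
    exact this
  · have := hs.loop.lt_iff.2 (show k + 3 < k - 2 + K by omega)
    rw [hs.loop.per] at this
    rw [hper]
    omega
  · rw [hiter, show s (k - 2) + (s (k + 3) - s (k - 2)) = s (k + 3) by omega, hs.hit, eb]
  · intro i hi
    obtain ⟨j, j1, j2⟩ := hs.loop.loc (s (k - 2) + i)
    have u1 : k - 2 < j + 1 := hs.loop.lt_iff.1 (by omega)
    have u2 : j < k + 3 := hs.loop.lt_iff.1 (by omega)
    rw [hiter]
    exact ⟨j, by omega, by omega, hs.seen j _ j1 j2⟩
  · rw [cls_of_rel hrel]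
    have := hs.loop.cls_eq_seg (by omega) n1 n3 n4 hk (Θ := Θ) (fun j m a1 a2 a3 => by
      obtain ⟨b1, b2, b3⟩ := hs.seen j m a1 a2
      exact hΘ j _ b1 b2 b3 a3) (α := s (k - 2)) (β := s (k + 3)) (hs.loop.mono (by omega))
      le_rfl le_rfl (hs.loop.mono (by omega))
    rw [this, hs.hit, ea]

/-- The strand from a foot of the gate `k + 3` back to a foot of the gate `k - 2` passes feet of all
the other gates. -/
theorem PF.other_way [Finite D] (hPl : T.Planar) (h : PF T σ c K A X g₀) {k : ℕ} (hk : 2 ≤ k)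
    {a b : D} (ha : A (k - 2) a) (hb : A (k + 3) b) {j : ℕ} (hj1 : k + 3 < j)
    (hj2 : j < k - 2 + K) {N : ℕ} (hN : 0 < N) (hNb : (T.st σ)^[N] b = a) :
    ∃ i < N, A j ((T.st σ)^[i] b) := by
  classical
  have hbig := h.cf.big
  obtain ⟨d, hd⟩ := h.cf.exists_fam
  have hd1 := h.cf.update hd ha
  have hd2 := h.cf.update hd1 hb
  set e : ℕ → D := fun i => if i % K = (k + 3) % K then b else
    (fun i => if i % K = (k - 2) % K then a else d i) i with he
  have ea : e (k - 2) = a := by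
    have : (k - 2) % K ≠ (k + 3) % K := mod_ne (by omega) (by omega)
    simp only [he, if_neg this, if_true]
  have ea' : e (k - 2 + K) = a := by rw [hd2.1]; exact ea
  have eb : e (k + 3) = b := by simp only [he, if_true]
  obtain ⟨s, hs⟩ := h.exists_lt hPl hd2
  have s1 := hs.step (show k + 3 ≤ j by omega)
  have s2 := hs.step (show k + 3 ≤ k - 2 + K by omega)
  have l1 := hs.loop.lt_iff.2 hj1
  have l2 := hs.loop.lt_iff.2 hj2
  rw [eb] at s1 s2
  rw [ea'] at s2
  refine ⟨s j - s (k + 3), ?_, ?_⟩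
  · by_contra hc
    push Not at hc
    have hp : H871.per T σ b = H871.per T σ (e 0) := by rw [← eb]; exact hs.per_eq _
    have l3 := hs.loop.lt_iff.2 (show k - 2 + K < k + 3 + K by omega)
    rw [hs.loop.per (k + 3)] at l3
    have := iter_unique (T := T) (σ := σ) (a := b) (b := a) (m := N)
      (n := s (k - 2 + K) - s (k + 3)) (by omega) (by omega) hNb s2
    omega
  · rw [s1]; exact hd2.2 j

end pf

end Vale.Agent.P148.R2.H565
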