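import Vale.Agent.P148.R2.H565.Loc13
import Vale.Agent.P148.R2.H565.Loc14
import Vale.Agent.P148.R2.H488.N4f
import Vale.Agent.P148.R2.H504.Bridge

/-!
# The class of the main cycle with a weight in one cell is the local value of the cell
-/

set_option linter.unusedSectionVars false

open Set Relation Metric Function

namespace Vale.Agent.P148.R2.H565

open Vale.Agent.P148.R2.H258 Vale.Agent.P148.R2.H871
open Vale.Agent.P148.R2.H184 (Dt cc LF dt Faith pc rt)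
open Vale.Agent.P148.R2.H592 (HullTri nbr nbr_symm ConnIn Fc Fib idmap fib_id tail head vc)
open Vale.Agent.P148.R2.N (ms nc gateC cellC gbox cell csq ms_pos)
open Vale.Agent.P148.R2.H959 (reg)
open Vale.Agent.P148.R2.H488 (cw hc cw_ne hc_cover hc_unique' Wd iter_of_PP pc_id bc_of_mem
  bc_of_not_mem far_reg near_reg)

/-- A constant mean. -/
theorem mean_const {α : Type*} {S : Set α} (hS : S.Finite) (hne : S.Nonempty) {F : α → ℂ} {v : ℂ}
    (h : ∀ p ∈ S, F p = v) : (∑ᶠ p ∈ S, F p) / (S.ncard : ℂ) = v := by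
  have h0 : 0 < S.ncard := (Set.ncard_pos hS).2 hne
  rw [finsum_mem_eq_finite_toFinset_sum _ hS]
  have h1 : ∑ p ∈ hS.toFinset, F p = ∑ _p ∈ hS.toFinset, v :=
    Finset.sum_congr rfl fun p hp => h p (hS.mem_toFinset.1 hp)
  rw [h1, Finset.sum_const, nsmul_eq_mul, ← Set.ncard_eq_toFinset_card S hS]
  have h2 : (S.ncard : ℂ) ≠ 0 := by exact_mod_cast h0.ne'
  field_simp

theorem Foot.mem {M : ℕ} {Y B : Set ℂ} {k : ℕ} {a : ℂ × ℂ} (h : Foot M Y B k a) :
    a.1 ∈ Y ∧ a.2 ∈ Y := by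
  obtain ⟨n, v, h0, h1, h2, h3, -⟩ := h
  rw [← h2, ← h3]
  exact ⟨(h1 0 h0).1, (h1 0 h0).2.1⟩

theorem FP_finite {M : ℕ} {Y B : Set ℂ} {m : ℕ} (hY : Y.Finite) : (FP M Y B m).Finite := by
  refine Set.Finite.subset ((hY.prod hY).prod (hY.prod hY)) ?_
  rintro ⟨a, a'⟩ ⟨h1, -⟩
  rcases h1 with ⟨h1, h2⟩ | ⟨h1, h2⟩
  · exact ⟨⟨h1.mem.1, h1.mem.2⟩, ⟨h2.mem.1, h2.mem.2⟩⟩
  · exact ⟨⟨h1.mem.1, h1.mem.2⟩, ⟨h2.mem.1, h2.mem.2⟩⟩

section value

variable {X : Set ℂ} {b : ZMod 3 → ℂ} {h : HullTri X b} {x₀ : X} {M κ : ℕ} {s : ℂ → Bool}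
  {B : Set ℂ} {A : ℕ → Fc X b × ZMod 3 → Prop} {g₀ : Fc X b × ZMod 3} {r : ℝ} {Θ : Dt → ℂ}

/-- Small faces at the regions. -/
def SmallR (M : ℕ) (X : Set ℂ) (b : ZMod 3 → ℂ) (r : ℝ) : Prop :=
  ∀ (j : ℕ) (q : Fc X b × ZMod 3), tail q ∈ reg M j → LF X (closedBall (tail q) r) (dt q)

theorem SmallR.cc_mem (hF : SmallR M X b r) (hr : 0 ≤ r) (hr' : r < ms M / 16) {j : ℕ}
    {q : Fc X b × ZMod 3} (hq : tail q ∈ reg M j) : cc (dt q) ∈ csq (tail q) (ms M / 16) := by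
  have h1 := hF j q hq
  have h2 : dist (cc (dt q)) (tail q) ≤ r := by
    rcases (dist_nonneg (x := cc (dt q)) (y := (dt q).1)).eq_or_lt with h3 | h3
    · have h4 : dist (cc (dt q)) (tail q) = 0 := h3.symm
      rw [h4]; exact hr
    · have h4 : cc (dt q) ∈ closedBall (tail q) r := h1.2.2.1 (mem_closedBall_self dist_nonneg)
      exact mem_closedBall.1 h4
  have b4 : ‖cc (dt q) - tail q‖ < ms M / 16 := by
    rw [← dist_eq_norm]
    exact lt_of_le_of_lt h2 hr'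
  rw [N.mem_csq, ← Complex.sub_re, ← Complex.sub_im]
  exact ⟨lt_of_le_of_lt (Complex.abs_re_le_norm _) b4,
    lt_of_le_of_lt (Complex.abs_im_le_norm _) b4⟩

/-- The weight of the cell `κ` is only seen in the regions `κ - 1`, `κ`, `κ + 1`. -/
theorem SmallR.cells (hM : 0 < M) (hF : SmallR M X b r) (hr : 0 ≤ r) (hr' : r < ms M / 16)
    (hκ : 1 ≤ κ) {j : ℕ} {q : Fc X b × ZMod 3} (hq : tail q ∈ reg M j)
    (hne : cw (hc M κ) Θ (dt q) ≠ 0) :
    j % nc M = (κ - 1) % nc M ∨ j % nc M = κ % nc M ∨ j % nc M = (κ + 1) % nc M := by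
  have hn : 0 < nc M := nc_pos M
  obtain ⟨-, h1, -⟩ := cw_ne hne
  rcases hc_cover hM hq (hF.cc_mem hr hr' hq) with h3 | h3 | h3
  · right; right
    have h5 : κ ≡ j + (nc M - 1) [MOD nc M] := hc_unique' hM h1 h3
    have h6 : κ + 1 ≡ j + (nc M - 1) + 1 [MOD nc M] := h5.add_right 1
    rw [show j + (nc M - 1) + 1 = j + nc M by omega] at h6
    have h7 : κ + 1 ≡ j [MOD nc M] := h6.trans (by simp [Nat.ModEq])
    exact h7.symm
  · right; left
    exact (hc_unique' hM h1 h3).symm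
  · left
    have h5 : κ ≡ j + 1 [MOD nc M] := hc_unique' hM h1 h3
    have h6 : (κ - 1) + 1 ≡ j + 1 [MOD nc M] := by
      rw [show κ - 1 + 1 = κ by omega]; exact h5
    exact (Nat.ModEq.add_right_cancel' 1 h6).symm

/-- The faces seen in the middle regions are local in the window. -/
theorem SmallR.lf (hM : 0 < M) (hF : SmallR M X b r) (hr' : r < ms M / 16) {j : ℕ}
    (h1 : κ + nc M ≤ j + 2) (h2 : j ≤ κ + nc M + 2) {q : Fc X b × ZMod 3}
    (hq : tail q ∈ reg M j) : LF X (Wd M κ) (dt q) := by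
  refine (hF j q hq).mono ?_
  intro w hw
  have h0 := ms_pos hM
  have h3 := H959.reg_subset_window hM (k := κ + nc M) (n := 2) (j := j) h1 h2 hq
  rw [N.cellC_add_nc] at h3
  obtain ⟨a1, a2⟩ := h3
  push_cast at a1 a2
  rw [Metric.mem_closedBall, dist_eq_norm] at hw
  have h4 := (Complex.abs_re_le_norm (w - tail q)).trans hw
  have h5 := (Complex.abs_im_le_norm (w - tail q)).trans hw
  rw [Complex.sub_re] at h4
  rw [Complex.sub_im] at h5
  rw [abs_lt] at a1 a2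
  rw [abs_le] at h4 h5
  rw [N.mem_csq, abs_lt, abs_lt]
  refine ⟨⟨?_, ?_⟩, ?_, ?_⟩ <;> linarith [a1.1, a1.2, a2.1, a2.2, h4.1, h4.2, h5.1, h5.2]

/-- **The class of the members of the main cycle, with a weight in the cell `κ`, is the local value
of the cell.** -/
theorem PF.value [Fintype (Fc X b × ZMod 3)] (hM : 2 ≤ M) (hκ : 1 ≤ κ)
    (hPF : PF (HT h x₀) (fun v : X => s v.1) true (nc M) A (fun k => vs (reg M k)) g₀)
    (hft : ∀ j a, Foot M X B j a → ∃ q : Fc X b × ZMod 3, ed (dt q) = a ∧ A j q)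
    (hex : ∀ j, ∃ a, Foot M X B j a)
    (hB : ∀ z ∈ X, z ∈ Wd M κ → (z ∈ B ↔ s z = true))
    (hloc : ∀ j, j = gb M κ ∨ j = gb M κ + 5 → ∀ a,
      Foot M (X ∩ Wd M κ) (B ∩ Wd M κ) j a ↔ Foot M X B j a)
    (hF : SmallR M X b r) (hr : 0 ≤ r) (hr' : r < ms M / 16)
    {d : ℕ → Fc X b × ZMod 3} {t : ℕ → ℕ} (hd : Fam (nc M) A d)
    (ht : LT (HT h x₀) (fun v : X => s v.1) (nc M) d (fun k => vs (reg M k)) t)
    {g : Fc X b × ZMod 3} (hg : MemD (HT h x₀) (fun v : X => s v.1) (d 0) t g) :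
    (HT h x₀).cls (fun v : X => s v.1) g (fun q => cw (hc M κ) Θ (dt q)) =
      cellV M X B (cw (hc M κ) Θ) κ := by
  have hM0 : 0 < M := by omega
  have hnc : nc M = 8 * M + 4 := by unfold nc; ring
  have hgb : gb M κ = κ + (nc M - 2) := rfl
  have hPl := HT_planar h x₀
  set V := (HT h x₀).cls (fun v : X => s v.1) g (fun q => cw (hc M κ) Θ (dt q)) with hV
  -- forward pieces
  have key : ∀ q q', A (gb M κ) q → A (gb M κ + 5) q' →
      (∃ N, PP X (Wd M κ) (pc (idmap X x₀) (fun v : X => s v.1)) (ed (dt q)) (ed (dt q')) N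
        (fun i => dt (((HT h x₀).st (fun v : X => s v.1))^[i] q))) ∧
      PV X (Wd M κ) (pc (idmap X x₀) (fun v : X => s v.1)) (ed (dt q)) (ed (dt q'))
        (cw (hc M κ) Θ) = V := by
    intro q q' hq hq'
    obtain ⟨hbi, N, hN0, hNper, hNq, hseen, hcls⟩ := hPF.cell hPl hd ht hg (k := gb M κ + 2)
      (by omega) (Θ := fun q => cw (hc M κ) Θ (dt q)) (fun j q1 h1 h2 h3 h4 => by
        have h5 : tail q1 ∈ reg M j := by rw [← HT_src h x₀ q1]; exact h1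
        have h6 := hF.cells hM0 hr hr' hκ h5 h4
        have e1 : (gb M κ + 2 - 1) % nc M = (κ - 1) % nc M := by
          rw [show gb M κ + 2 - 1 = (κ - 1) + nc M by omega, Nat.add_mod_right]
        have e2 : (gb M κ + 2) % nc M = κ % nc M := by
          rw [show gb M κ + 2 = κ + nc M by omega, Nat.add_mod_right]
        have e3 : (gb M κ + 2 + 1) % nc M = (κ + 1) % nc M := by
          rw [show gb M κ + 2 + 1 = (κ + 1) + nc M by omega, Nat.add_mod_right]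
        rw [e1, e2, e3]
        exact h6) (a := q) (b := q') hq hq'
    have hmin : ∀ i, 0 < i → i < N →
        ((HT h x₀).st (fun v : X => s v.1))^[i] q ≠ q' := by
      intro i hi1 hi2 hi3
      have := iter_unique (hi2.trans hNper) hNper hi3 hNq
      omega
    have hLF : ∀ i < N, LF X (Wd M κ) (dt (((HT h x₀).st (fun v : X => s v.1))^[i] q)) := by
      intro i hi
      obtain ⟨j, j1, j2, j3, -, -⟩ := hseen i hi
      refine hF.lf hM0 hr' (j := j) (by omega) (by omega) ?_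
      rw [← HT_src h x₀]
      exact j3
    refine ⟨⟨N, PP_of_iter h (idmap X x₀) (fib_id X x₀) hbi hN0 hNq hmin hLF⟩, ?_⟩
    rw [hV, hcls]
    exact (seg_eq_PV h (idmap X x₀) (fib_id X x₀) (faith_id x₀ (Wd M κ)) hbi hN0 hNq hmin hLF
      (cw (hc M κ) Θ)).symm
  -- no piece the other way
  have wrong : ∀ q q', A (gb M κ) q → A (gb M κ + 5) q' → ∀ n f,
      ¬ PP X (Wd M κ) (pc (idmap X x₀) (fun v : X => s v.1)) (ed (dt q')) (ed (dt q)) n f := by
    intro q q' hq hq' n f hPP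
    obtain ⟨-, h2, h3, -⟩ := iter_of_PP h (idmap X x₀) (fib_id X x₀) hPP
    obtain ⟨i, hi, hAi⟩ := hPF.other_way hPl (k := gb M κ + 2) (by omega) (a := q) (b := q')
      hq hq' (j := κ + nc M + (4 * M + 2)) (by omega) (by omega) hPP.pos h3
    obtain ⟨P, Q, hR⟩ := hPF.cf.ring _ (hPF.cf.update hd hAi).1 (hPF.cf.update hd hAi).2
    have h4 := hR.subP _ (hR.s1 (κ + nc M + (4 * M + 2)))
    simp only [if_true] at h4
    have h5 := (hPP.sg.lf i hi).mem.1
    rw [h2 i hi] at h5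
    have h6 : tail (((HT h x₀).st (fun v : X => s v.1))^[i] q') ∈
        reg M (κ + nc M + (4 * M + 2)) := by
      rw [← HT_src h x₀]
      exact h4
    have h7 := far_reg hM0 (k := κ + nc M) (j := κ + nc M + (4 * M + 2)) (by omega) (by omega)
    rw [N.cellC_add_nc] at h7
    exact Set.disjoint_left.1 h7 h5 h6
  -- the window
  have hQ : Qw M (gb M κ) = Wd M κ := Qw_gb M κ
  have hXX : (X ∩ Wd M κ) ∩ Wd M κ = X ∩ Wd M κ := by rw [inter_assoc, inter_self]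
  have hcol : ∀ z ∈ (X ∩ Wd M κ) ∩ Wd M κ,
      pc (idmap X x₀) (fun v : X => s v.1) z = bc (B ∩ Wd M κ) z := by
    rintro z ⟨⟨hz, hzQ⟩, -⟩
    rw [pc_id hz]
    have h1 := hB z hz hzQ
    by_cases h2 : s z = true
    · have h3 : z ∈ B ∩ Wd M κ := ⟨h1.2 h2, hzQ⟩
      rw [h2, bc_of_mem h3]
    · rw [bc_of_not_mem fun h3 => h2 (h1.1 h3.1)]
      simpa using h2
  unfold cellV Fv
  rw [hQ]
  symm
  apply mean_const (FP_finite (h.fin.subset inter_subset_left))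
  · obtain ⟨a, ha⟩ := hex (gb M κ)
    obtain ⟨a', ha'⟩ := hex (gb M κ + 5)
    obtain ⟨q, hq, hAq⟩ := hft _ _ ha
    obtain ⟨q', hq', hAq'⟩ := hft _ _ ha'
    obtain ⟨⟨N, hPP⟩, -⟩ := key q q' hAq hAq'
    rw [hq, hq'] at hPP
    refine ⟨(a, a'), Or.inl ⟨(hloc _ (Or.inl rfl) a).2 ha, (hloc _ (Or.inr rfl) a').2 ha'⟩, N,
      fun i => dt (((HT h x₀).st (fun v : X => s v.1))^[i] q), ?_⟩
    rw [hQ]
    exact (PP_iff (X' := X) (by rw [hXX]) hcol).1 hPP
  · rintro ⟨a, a'⟩ ⟨hfeet, n, f, hPP⟩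
    simp only at hfeet hPP ⊢
    rw [hQ] at hPP
    have hPP' := hPP.congr (X' := X) (by rw [hXX]) hcol
    rw [← PV_congr (X' := X) (by rw [hXX]) hcol]
    rcases hfeet with ⟨h1, h2⟩ | ⟨h1, h2⟩
    · obtain ⟨q, hq, hAq⟩ := hft _ _ ((hloc _ (Or.inl rfl) a).1 h1)
      obtain ⟨q', hq', hAq'⟩ := hft _ _ ((hloc _ (Or.inr rfl) a').1 h2)
      have := (key q q' hAq hAq').2
      rw [hq, hq'] at this
      exact this
    · obtain ⟨q', hq', hAq'⟩ := hft _ _ ((hloc _ (Or.inr rfl) a).1 h1)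
      obtain ⟨q, hq, hAq⟩ := hft _ _ ((hloc _ (Or.inl rfl) a').1 h2)
      rw [← hq, ← hq'] at hPP'
      exact (wrong q q' hAq hAq' n f hPP').elim

end value

end Vale.Agent.P148.R2.H565
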