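import Vale.Agent.P148.R2.H565.Loc16
import Vale.Agent.P148.R2.H291.Site
import Vale.Agent.P148.R2.H172.Sc3

/-!
# The value of a cell on the sites of a configuration and on a frame
-/

set_option linter.unusedSectionVars false

open Set Relation Metric Function

namespace Vale.Agent.P148.R2.H565

open Vale.Agent.P148.R2.H258 Vale.Agent.P148.R2.H871
open _root_.P148
open Vale.Agent.P148.R2.H184 (Dt cc LF dt Faith pc rt)
open Vale.Agent.P148.R2.H592 (HullTri nbr nbr_symm ConnIn Fc Fib idmap fib_id tail head vc)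
open Vale.Agent.P148.R2.N (ms nc gateC cellC gbox cell csq ms_pos)
open Vale.Agent.P148.R2.H959 (reg)
open Vale.Agent.P148.R2.H488 (cw hc Wd)
open Vale.Agent.P148.R2.H504 (NAgree nAgree_window)
open Vale.Agent.P148.R2.H291 (Stab SiteOK bR)
open Vale.Agent.P148.R2.H419 (Col oco)
open Vale.Agent.P148.R2.H995 (nsup)
open Vale.Agent.P148.R2.H566 (W0)
open Vale.Agent.P148.R2.H609 (TP piX)
open Vale.Agent.P148.R2.H172 (Frame blk)

/-! ### periodicity -/

theorem Qw_add_nc (M m : ℕ) : Qw M (m + nc M) = Qw M m := by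
  unfold Qw
  rw [add_right_comm, N.cellC_add_nc]

theorem FP_add_nc (M m : ℕ) (Y B : Set ℂ) : FP M Y B (m + nc M) = FP M Y B m := by
  unfold FP
  rw [Qw_add_nc]
  simp only [add_right_comm m (nc M) 5, Foot_add_nc]

theorem cellV_add_nc (M k : ℕ) (X B : Set ℂ) (Θ : Dt → ℂ) :
    cellV M X B Θ (k + nc M) = cellV M X B Θ k := by
  have e : gb M (k + nc M) = gb M k + nc M := by unfold gb; omega
  unfold cellV Fv
  rw [e, FP_add_nc, Qw_add_nc]

/-- The value of the cell `k` with its weight only depends on `k` modulo `nc M`. -/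
theorem cellV_mod (M k : ℕ) (X B : Set ℂ) (Θ : Dt → ℂ) :
    cellV M X B (cw (hc M (k % nc M)) Θ) (k % nc M) = cellV M X B (cw (hc M k) Θ) k := by
  have key : ∀ n r, cellV M X B (cw (hc M (r + nc M * n)) Θ) (r + nc M * n) =
      cellV M X B (cw (hc M r) Θ) r := by
    intro n
    induction n with
    | zero => intro r; simp
    | succ n ih =>
      intro r
      rw [show r + nc M * (n + 1) = (r + nc M * n) + nc M by ring, H488.hc_add_nc, cellV_add_nc, ih]
  conv_rhs => rw [← Nat.mod_add_div k (nc M)]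
  exact (key _ _).symm

/-! ### sites -/

section site

variable {M : ℕ} {X : Set ℂ} {b : ZMod 3 → ℂ} {s : ℝ}

/-- The window of a cell sees the gate boxes. -/
theorem nwin_of_stab (hM : 0 < M) (h0 : 0 < s) (hs : 16 * s ≤ ms M)
    (hst : ∀ j, ∀ u ∈ gbox M j, Stab X u s) (κ : ℕ) : NWin M κ X := by
  have key : ∀ j, (j = gb M κ ∨ j = gb M κ + 5) → NAgree X (X ∩ Wd M κ) (gbox M j) := by
    intro j hj
    refine nAgree_window h0 (hst j) fun u hu w hw => ?_
    obtain ⟨a1, a2⟩ := gbox_Wd hM hj u hu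
    rw [Metric.mem_closedBall, dist_eq_norm] at hw
    have h4 := (Complex.abs_re_le_norm (w - u)).trans hw
    have h5 := (Complex.abs_im_le_norm (w - u)).trans hw
    rw [Complex.sub_re] at h4
    rw [Complex.sub_im] at h5
    rw [abs_lt] at a1 a2
    rw [abs_le] at h4 h5
    rw [N.mem_csq, abs_lt, abs_lt]
    refine ⟨⟨?_, ?_⟩, ?_, ?_⟩ <;> linarith [a1.1, a1.2, a2.1, a2.2, h4.1, h4.2, h5.1, h5.2]
  exact ⟨key _ (Or.inl rfl), key _ (Or.inr rfl)⟩

theorem reg_norm (hM : 0 < M) {j : ℕ} {z : ℂ} (hz : z ∈ reg M j) : ‖z‖ ≤ 4 := by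
  have h1 := (H959.reg_nsup hM hz).2
  have h2 : ms M ≤ 1 := N.ms_le_one
  have h3 := H291.norm_le_nsup z
  linarith

variable {T : Set Pt} {R : ℝ}

theorem nwin_site (hM : 0 < M) (h : SiteOK T R s) (hR : 5 ≤ R) (hs : 16 * s ≤ ms M) (κ : ℕ) :
    NWin M κ (H291.site T R) := by
  refine nwin_of_stab hM h.hs hs (fun j u hu => h.stabX ?_) κ
  rw [mem_closedBall_zero_iff]
  have := reg_norm hM (H959.gbox_subset_reg M j hu)
  linarith

theorem smallR_site (hM : 0 < M) (h : SiteOK T R s) (hR : 5 ≤ R) :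
    SmallR M (H291.site T R) (bR R) (s / 4) := by
  intro j q hq
  refine h.lf ?_
  rw [mem_closedBall_zero_iff]
  have := reg_norm hM hq
  linarith

end site

/-! ### frames -/

theorem wt_id {X : Set ℂ} {b : ZMod 3 → ℂ} (h : HullTri X b) (x₀ : X) (Θ : Dt → ℂ)
    (q : Fc X b × ZMod 3) : H203.wt h (idmap X x₀) (fib_id X x₀) Θ q = Θ (dt q) := by
  have key : ∀ q, (HT h x₀).src q ≠ (HT h x₀).tgt q := by
    intro q h1
    have h2 := HT_nbr h x₀ q
    rw [h1] at h2
    exact h2.2.2.1 rfl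
  have hg : (h.tri258 (idmap X x₀) (fib_id X x₀)).Good q := by
    refine ⟨key q, ?_, ?_⟩
    · have := key ((HT h x₀).nxt q)
      rwa [Tri.src_nxt', Tri.tgt_nxt] at this
    · have := key ((HT h x₀).nxt ((HT h x₀).nxt q))
      rwa [Tri.src_nxt2, Tri.tgt_nxt2] at this
  unfold H203.wt
  rw [if_pos hg]

section frame

variable {M : ℕ} {w : W0} {x₀ : w.X} {col : w.X → Bool} {Bl₁ Wh₁ Bl₂ Wh₂ : Set ℂ} {s : ℂ → Bool}

/-- **The value of a cell on a frame.** -/
theorem frame_cell (F : Frame M w x₀ col) (hC : Col M w.X w.b Bl₁ Wh₁ Bl₂ Wh₂ s)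
    (hs : ∀ v : w.X, s v.1 = col v) {i₀ : ℂ} (hi₀ : i₀ ∈ w.X) (hin : nsup i₀ ≤ 1 - ms M / 8)
    (hM : 2 ≤ M) (hN : ∀ κ, NWin M κ w.X) {r : ℝ} (hF : SmallR M w.X w.b r) (hr : 0 ≤ r)
    (hr' : r < ms M / 16) (Θ : Dt → ℂ) (k : ℕ) :
    sideSum (TP w x₀) col F.o (F.t k) (F.t (k + 5)) (fun q => cw (hc M (k + 2)) Θ (dt q)) =
      cellV M w.X (blk col) (cw (hc M (k + 2)) Θ) (k + 2) := by
  have hnc : nc M = 8 * M + 4 := by unfold nc; ring
  obtain rfl : (fun v : w.X => s v.1) = col := funext hs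
  have hB : ∀ z ∈ w.X, (z ∈ blk (fun v : w.X => s v.1) ↔ s z = true) := by
    intro z hz
    constructor
    · rintro ⟨_, h2⟩; exact h2
    · intro h2; exact ⟨hz, h2⟩
  have hft : ∀ j, H419.Foot hC.hull x₀ M Bl₁ Wh₁ s j
      (((TP w x₀).st (fun v : w.X => s v.1))^[F.t j] F.o) := by
    intro j
    obtain ⟨g, hg, hgf⟩ := col_footOK hC hB x₀ (F.foot j)
    have e : g = ((TP w x₀).st (fun v : w.X => s v.1))^[F.t j] F.o := by
      apply hC.hull.th_inj
      · have := congrArg (fun p : ℂ × ℂ => p.1) hg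
        rw [src0] at this
        exact this
      · have := congrArg (fun p : ℂ × ℂ => p.2) hg
        rw [H609.tgt_TP] at this
        exact this
    rwa [e] at hgf
  have hper : ∀ j q, H419.Foot hC.hull x₀ M Bl₁ Wh₁ s j q →
      H419.Foot hC.hull x₀ M Bl₁ Wh₁ s (j + nc M) q := by
    intro j q hq
    rw [← H419.Foot_mod (M := M) hC.hull x₀ (j + nc M), Nat.add_mod_right,
      H419.Foot_mod (M := M) hC.hull x₀ j]
    exact hq
  have hle : F.t k ≤ F.t (k + 5) := F.lt.mono (by omega)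
  have hlt : F.t (k + 5) < F.t (k + nc M) := F.lt.lt_iff.2 (by omega)
  rw [F.lt.per k] at hlt
  have hgb : gb M (k + 2) = k + nc M := by unfold gb; omega
  rw [sideSum_eq_seg hle rfl]
  have hq := hper k _ (hft k)
  have hq' := hper (k + 5) _ (hft (k + 5))
  rw [← hgb] at hq
  rw [show k + 5 + nc M = gb M (k + 2) + 5 by omega] at hq'
  refine col_seg hC hB hi₀ hin hM x₀ (κ := k + 2) (by omega) (hN _) hF hr hr' hq hq' ?_ ?_
  · have : H871.per (HT hC.hull x₀) (fun v => s v.1)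
        (((TP w x₀).st (fun v : w.X => s v.1))^[F.t k] F.o) = per (TP w x₀)
          (fun v : w.X => s v.1) F.o := by
      have := w.hull.finite_Fc
      exact per_iter (TP w x₀) _ _ _
    rw [this]
    omega
  · have : ((TP w x₀).st (fun v : w.X => s v.1))^[F.t (k + 5) - F.t k]
        (((TP w x₀).st (fun v : w.X => s v.1))^[F.t k] F.o) =
        ((TP w x₀).st (fun v : w.X => s v.1))^[F.t (k + 5)] F.o := by
      rw [← iterate_add_apply, Nat.sub_add_cancel hle]
    exact this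

/-- **The value of a cell on a frame, from any base foot**, with the weight `wt`. -/
theorem frame_cell_base (F : Frame M w x₀ col) (hC : Col M w.X w.b Bl₁ Wh₁ Bl₂ Wh₂ s)
    (hs : ∀ v : w.X, s v.1 = col v) {i₀ : ℂ} (hi₀ : i₀ ∈ w.X) (hin : nsup i₀ ≤ 1 - ms M / 8)
    (hM : 2 ≤ M) (hN : ∀ κ, NWin M κ w.X) {r : ℝ} (hF : SmallR M w.X w.b r) (hr : 0 ≤ r)
    (hr' : r < ms M / 16) (Θ : Dt → ℂ) (j : ℕ) {k : ℕ} (hk : 2 ≤ k) :
    sideSum (TP w x₀) col (F.ob j) (F.tb j (k - 2)) (F.tb j (k + 3))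
      (H203.wt w.hull (idmap w.X x₀) (fib_id w.X x₀) (cw (hc M (j + k)) Θ)) =
      cellV M w.X (blk col) (cw (hc M ((j + k) % nc M)) Θ) ((j + k) % nc M) := by
  have e : H203.wt w.hull (idmap w.X x₀) (fib_id w.X x₀) (cw (hc M (j + k)) Θ) =
      fun q => cw (hc M (j + k)) Θ (dt q) := funext fun q => wt_id w.hull x₀ _ q
  have h1 : F.t j ≤ F.t (j + (k - 2)) := F.lt.mono (by omega)
  have h2 : F.t j ≤ F.t (j + (k + 3)) := F.lt.mono (by omega)
  rw [e, cellV_mod]
  unfold Frame.ob Frame.tb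
  rw [sideSum_shift, show F.t j + (F.t (j + (k - 2)) - F.t j) = F.t (j + (k - 2)) by omega,
    show F.t j + (F.t (j + (k + 3)) - F.t j) = F.t (j + (k + 3)) by omega]
  have h3 := frame_cell F hC hs hi₀ hin hM hN hF hr hr' Θ (j + (k - 2))
  rw [show j + (k - 2) + 2 = j + k by omega, show j + (k - 2) + 5 = j + (k + 3) by omega] at h3
  exact h3

end frame

end Vale.Agent.P148.R2.H565
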