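import Vale.Agent.P148.R2.H565.Loc2

/-!
# Chains of tubes: additivity, exteriority, confinement, orientation
-/

namespace Vale.Agent.P148.R2.H565

open Function Vale.Agent.P148.R2.H258 Vale.Agent.P148.R2.H871

variable {V D : Type*} {T : Tri V D} {σ : V → Bool}

/-- **Additivity.** The strand of the first foot of a chain of tubes passes the feet in order and
the times are cut times. -/
theorem Chain.main [Finite D] {K : ℕ} {d : ℕ → D} {p q : ℕ → List D} {N : ℕ → D → ZMod 2}
    (h : Chain T σ K d p q N) :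
    ∃ t : ℕ → ℕ, Times T σ K d N t ∧ ∀ m ≤ K, Cut T σ (d 0) 0 (t m) (t K) := by
  obtain ⟨t, ht⟩ := h.toChain0.exists_times
  exact ⟨t, ht, fun m hm => h.cut ht hm⟩

theorem mono_of_lt {K : ℕ} {t : ℕ → ℕ} (hinc : ∀ k < K, t k < t (k + 1)) {j k : ℕ} (hjk : j ≤ k)
    (hk : k ≤ K) : t j ≤ t k := by
  induction k with
  | zero => rw [Nat.le_zero.1 hjk]
  | succ k ih =>
    rcases Nat.lt_succ_iff_lt_or_eq.1 (Nat.lt_succ_of_le hjk) with h1 | h1
    · exact (ih (by omega) (by omega)).trans (hinc k (by omega)).le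
    · rw [h1]

/-- Sums between the `j`-th and the `k`-th foot. -/
theorem sum_feet {o : D} {K : ℕ} {d : ℕ → D} {t : ℕ → ℕ}
    (hit : ∀ k ≤ K, (T.st σ)^[t k] o = d k) (hinc : ∀ k < K, t k < t (k + 1))
    (hcut : ∀ m ≤ K, Cut T σ o (t 0) (t m) (t K)) {M : Type*} [AddCommMonoid M] (Θ : D → M)
    {j k : ℕ} (hjk : j ≤ k) (hk : k ≤ K) :
    sideSum T σ o (t j) (t k) Θ =
      ∑ i ∈ Finset.Ico j k, seg T σ (d i) (t (i + 1) - t i) Θ := by
  rw [sideSum_cuts t hjk (fun i h1 h2 => (hinc i (by omega)).le)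
    (fun i h1 h2 => (hcut i (by omega)).mono (mono_of_lt hinc (Nat.zero_le _) (by omega))
      (mono_of_lt hinc hk le_rfl))]
  apply Finset.sum_congr rfl
  intro i hi
  rw [Finset.mem_Ico] at hi
  exact sideSum_eq_seg (hinc i (by omega)).le (hit i (by omega)) Θ

/-- Sums from a time in piece `j` to a time in piece `k`: two partial pieces and full pieces. -/
theorem sum_between {o : D} {K : ℕ} {d : ℕ → D} {t : ℕ → ℕ}
    (hit : ∀ k ≤ K, (T.st σ)^[t k] o = d k) (hinc : ∀ k < K, t k < t (k + 1))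
    (hcut : ∀ m ≤ K, Cut T σ o (t 0) (t m) (t K)) {M : Type*} [AddCommMonoid M] (Θ : D → M)
    {j k : ℕ} (hjk : j ≤ k) (hk : k ≤ K) {a b : ℕ} (ha0 : t 0 ≤ a) (ha : a ≤ t j) (hb : t k ≤ b)
    (hbK : b ≤ t K) :
    sideSum T σ o a b Θ = sideSum T σ o a (t j) Θ +
      (∑ i ∈ Finset.Ico j k, seg T σ (d i) (t (i + 1) - t i) Θ) + sideSum T σ o (t k) b Θ := by
  have h1 : t j ≤ t k := mono_of_lt hinc hjk hk
  rw [sideSum_cut (((hcut j (by omega)).mono ha0 hbK)) ha (h1.trans hb),
    sideSum_cut (((hcut k hk).mono (ha0.trans ha) hbK)) h1 hb,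
    sum_feet hit hinc hcut Θ hjk hk, add_assoc]

/-! ### Potentials off the closed walk -/

/-- A face potential of a closed walk is constant along walks avoiding it. -/
theorem const_walk {u : V} {Γ : List D} (hw : T.Walk u u Γ) {N : D → ZMod 2} (hN : T.Pot Γ N)
    {x y : V} {l : List D} (hl : T.Walk x y l) (hoff : ∀ g ∈ l, ∀ f ∈ Γ, T.src f ≠ T.src g)
    (hy : ∀ f ∈ Γ, T.src f ≠ y) {f g : D} (hf : T.src f = x) (hg : T.src g = y) : N f = N g := by
  induction hl generalizing f with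
  | nil v =>
    exact T.const_at hw hN.1 hN.2 (by rw [hf, hg]) (fun e he => by rw [hf]; exact hy e he)
  | cons a w l hl ih =>
    have h1 : N f = N a :=
      T.const_at hw hN.1 hN.2 hf (fun e he => by rw [hf]; exact hoff a (by simp) e he)
    have hsa : ∀ e ∈ Γ, T.src e ≠ T.src a := hoff a (by simp)
    have hta : ∀ e ∈ Γ, T.src e ≠ T.tgt a := by
      intro e he
      rcases hl.casesOn' with ⟨_, h2⟩ | ⟨a', l', h2, h3, _⟩
      · rw [h2]; exact hy e he
      · rw [← h3]; exact hoff a' (by simp [h2]) e he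
    have h2 := hN.2 a (Or.inr hsa)
    rw [T.mu_zero (fun hm => hsa a hm rfl) (fun hm => hta _ hm rfl)] at h2
    have h3 : N (T.rev a) = N a := Tri.zmod2_add_eq_zero h2
    rw [h1, ← h3]
    exact ih (fun g hg => hoff g (by simp [hg])) hy (T.src_rev a) hg

/-- Confinement: a closed walk inside `X` has its interior inside `X`, if all vertices off `X` are
joined to `ω` off `X`. -/
theorem confine {u : V} {Γ : List D} (hw : T.Walk u u Γ) {N : D → ZMod 2} (hN : T.Pot Γ N)
    {X : Set V} {ω : V} (hω : ω ∉ X)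
    (hX : ∀ x ∉ X, ∃ l, T.Walk x ω l ∧ ∀ g ∈ l, T.src g ∉ X) (hΓ : ∀ f ∈ Γ, T.src f ∈ X)
    {g₀ : D} (hg : T.src g₀ = ω) {f : D} (hf : N f ≠ N g₀) : T.src f ∈ X := by
  by_contra hc
  obtain ⟨l, hl, hlX⟩ := hX _ hc
  apply hf
  exact const_walk hw hN hl (fun g hg e he hh => hlX g hg (hh ▸ hΓ e he))
    (fun e he hh => hω (hh ▸ hΓ e he)) rfl hg

theorem confine_face {u : V} {Γ : List D} (hw : T.Walk u u Γ) {N : D → ZMod 2} (hN : T.Pot Γ N)
    {X : Set V} {ω : V} (hω : ω ∉ X)
    (hX : ∀ x ∉ X, ∃ l, T.Walk x ω l ∧ ∀ g ∈ l, T.src g ∉ X) (hΓ : ∀ f ∈ Γ, T.src f ∈ X)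
    {g₀ : D} (hg : T.src g₀ = ω) {f : D} (hf : N f ≠ N g₀) :
    T.src f ∈ X ∧ T.tgt f ∈ X ∧ T.apex f ∈ X := by
  refine ⟨confine hw hN hω hX hΓ hg hf, ?_, ?_⟩
  · rw [← T.src_nxt']
    exact confine hw hN hω hX hΓ hg (by rw [hN.1]; exact hf)
  · rw [← T.src_nxt2]
    exact confine hw hN hω hX hΓ hg (by rw [hN.1, hN.1]; exact hf)

/-! ### Orientation -/

/-- Two consecutive tubes whose far feet are exterior have the same orientation. -/
theorem orient [Finite D] {δ d e : D} {A B p q : List D} (h0 : Tube T σ δ d A B)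
    (h1 : Tube T σ d e p q) {N0 N1 : D → ZMod 2} (hN0 : T.Pot (gam T δ d A B) N0)
    (hN1 : T.Pot (gam T d e p q) N1) (hx : N0 e = N0 δ + 1) : N1 d = N1 δ + 1 := by
  by_contra hc
  have hc' : N1 d = N1 δ := by
    revert hc
    generalize N1 d = a
    generalize N1 δ = b
    revert a b; decide
  obtain ⟨n, hn0, hnL, hnd, hA, hB⟩ := h0.two_feet hN0
  obtain ⟨m, hm0, hmL, hme, hA1, hB1⟩ := h1.two_feet hN1
  have hper : per T σ d = per T σ δ := by rw [← hnd, per_iter]
  have hflip : ∀ a : ZMod 2, a ≠ a + 1 := by decide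
  have hδ : (T.st σ)^[per T σ δ - n] d = δ := by
    rw [← hnd, ← iterate_add_apply, Nat.sub_add_cancel hnL.le]
    exact iterate_minimalPeriod
  have h2 : per T σ δ - n < m := by
    by_contra h3
    push Not at h3
    have := hB1 (per T σ δ - n) h3 (by omega)
    rw [hδ, hc'] at this
    exact hflip _ this
  have h4 := hA (m + n - per T σ δ) (by omega)
  have h5 : (T.st σ)^[m + n - per T σ δ] δ = e := by
    rw [← hme, ← hnd, ← iterate_add_apply]
    conv_rhs => rw [show m + n = (m + n - per T σ δ) + per T σ δ by omega, iterate_add_apply]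
    congr 1
    exact (iterate_minimalPeriod).symm
  rw [h5, hx] at h4
  exact hflip _ h4.symm

/-- The potential of a tube jumps at its first foot. -/
theorem Tube.pot_rev {d e : D} {p q : List D} (h : Tube T σ d e p q) {N : D → ZMod 2} (hN : T.Pot (gam T d e p q) N) :
    N (T.rev d) = N d + 1 := by
  classical
  have h1 := hN.2 d (Or.inl (fun hh => h.bi (by rw [hh])))
  rw [h.mu_eq h.bi rfl, if_neg h.ne, if_pos rfl] at h1
  revert h1
  generalize N d = a
  generalize N (T.rev d) = b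
  revert a b; decide

/-- Orientation from the outer face: `δ` is a dart of the outer boundary (the outer face is that of
`rev δ`), the first tube joins `δ` to `d`, the third outer vertex is joined to a vertex of the far
foot `e` off the first tube and the outer vertices are not on the second tube. Then the strand from
`d` enters the interior of the second tube. -/
theorem orient_outer [Finite D] {δ d e : D} {A B p q : List D} (h0 : Tube T σ δ d A B)
    (h1 : Tube T σ d e p q) {N0 N1 : D → ZMod 2} (hN0 : T.Pot (gam T δ d A B) N0)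
    (hN1 : T.Pot (gam T d e p q) N1)
    (hx : N0 e = N0 (T.rev δ)) (hb : ∀ f ∈ gam T d e p q, T.src f ≠ T.src δ) :
    N1 d = N1 (T.rev δ) + 1 := by
  have hx' : N0 e = N0 δ + 1 := by rw [hx, h0.pot_rev hN0]
  rw [orient h0 h1 hN0 hN1 hx']
  congr 1
  have h2 := hN1.2 δ (Or.inr hb)
  rw [T.mu_zero (fun hm => hb _ hm rfl) (fun hm => ?_)] at h2
  · exact (Tri.zmod2_add_eq_zero h2).symm
  · obtain ⟨g, hg, hh⟩ := h1.closed.tgt_mem_closed _ hm
    rw [T.tgt_rev] at hh
    exact hb g hg hh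

/-- The third outer vertex is joined to the vertex of the far foot. -/
theorem far_foot {δ d e : D} {A B : List D} (h0 : Tube T σ δ d A B) {N0 : D → ZMod 2}
    (hN0 : T.Pot (gam T δ d A B) N0) {x : V} {f : D} (hf : T.src f = x) {l : List D}
    (hl : T.Walk x (T.apex (T.rev δ)) l) (hoff : ∀ g ∈ l, ∀ f ∈ gam T δ d A B, T.src f ≠ T.src g)
    (hy : ∀ f ∈ gam T δ d A B, T.src f ≠ T.apex (T.rev δ)) : N0 f = N0 (T.rev δ) := by
  have := const_walk h0.closed hN0 hl hoff hy hf (T.src_nxt2 (T.rev δ))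
  rw [this, hN0.1, hN0.1]

end Vale.Agent.P148.R2.H565
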