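import Vale.Agent.P148.R2.H565.Loc3

/-!
# Relaxed chains: adjacent black walks may meet, membership depends on three pieces
-/

namespace Vale.Agent.P148.R2.H565

open Function Vale.Agent.P148.R2.H258 Vale.Agent.P148.R2.H871

variable {V D : Type*} {T : Tri V D} {σ : V → Bool}

/-- A chain of tubes in which only the black walks of non adjacent tubes are disjoint. -/
structure RChain (T : Tri V D) (σ : V → Bool) (K : ℕ) (d : ℕ → D) (p q : ℕ → List D)
    (N : ℕ → D → ZMod 2) : Prop extends Chain0 T σ K d p q N where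
  disj2 : ∀ j k, j + 2 ≤ k → k < K → ∀ x, x ∈ pv T (d j) (p j) → x ∉ pv T (d k) (p k)

open Classical in
/-- Members at times in `[u, v)` with respect to the window `[a, b]`. -/
noncomputable def mid {M : Type*} [AddCommMonoid M] (T : Tri V D) (σ : V → Bool) (o : D)
    (a b u v : ℕ) (Θ : D → M) : M :=
  ∑ n ∈ Finset.Ico u v,
    if T.Mi σ ((T.st σ)^[n] o) ∧ DisjOn T σ o a b n then Θ ((T.st σ)^[n] o) else 0

theorem sideSum_eq_mid {M : Type*} [AddCommMonoid M] {o : D} (a b : ℕ) (Θ : D → M) :
    sideSum T σ o a b Θ = mid T σ o a b a b Θ := rfl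

theorem mid_add {M : Type*} [AddCommMonoid M] {o : D} {a b u v w : ℕ} (h1 : u ≤ v) (h2 : v ≤ w)
    (Θ : D → M) :
    mid T σ o a b u w Θ = mid T σ o a b u v Θ + mid T σ o a b v w Θ := by
  unfold mid
  exact (Finset.sum_Ico_consecutive _ h1 h2).symm

theorem mid_congr {M : Type*} [AddCommMonoid M] {o : D} {a b a' b' u v : ℕ} (Θ : D → M)
    (h : ∀ n, u ≤ n → n < v → (DisjOn T σ o a b n ↔ DisjOn T σ o a' b' n)) :
    mid T σ o a b u v Θ = mid T σ o a' b' u v Θ := by
  unfold mid
  apply Finset.sum_congr rfl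
  intro n hn
  rw [Finset.mem_Ico] at hn
  rw [h n hn.1 hn.2]

theorem mid_shift {M : Type*} [AddCommMonoid M] {o : D} (c a b u v : ℕ) (Θ : D → M) :
    mid T σ ((T.st σ)^[c] o) a b u v Θ = mid T σ o (c + a) (c + b) (c + u) (c + v) Θ := by
  unfold mid
  rw [add_comm c u, add_comm c v, ← Finset.sum_Ico_add']
  apply Finset.sum_congr rfl
  intro n _
  have e1 : (T.st σ)^[n] ((T.st σ)^[c] o) = (T.st σ)^[n + c] o :=
    (iterate_add_apply _ n c o).symm
  have e2 : DisjOn T σ ((T.st σ)^[c] o) a b n ↔ DisjOn T σ o (c + a) (c + b) (n + c) := by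
    constructor
    · intro hD i j h1 h2 h3 h4
      have := hD (i - c) (j - c) (by omega) (by omega) (by omega) (by omega)
      rw [sa_add, sa_add, show c + (i - c) = i by omega, show c + (j - c) = j by omega] at this
      exact this
    · intro hD i j h1 h2 h3 h4
      rw [sa_add, sa_add, add_comm c i, add_comm c j]
      exact hD (i + c) (j + c) (by omega) (by omega) (by omega) (by omega)
  rw [e1, e2]

theorem mid_per {M : Type*} [AddCommMonoid M] {o : D} (a b u v : ℕ) (Θ : D → M) :
    mid T σ o (per T σ o + a) (per T σ o + b) (per T σ o + u) (per T σ o + v) Θ =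
      mid T σ o a b u v Θ := by
  rw [← mid_shift (T := T) (σ := σ) (o := o) (per T σ o) a b u v Θ]
  have : (T.st σ)^[per T σ o] o = o := iterate_minimalPeriod
  rw [this]

/-- The members in a window only depend on the colours seen in the window. -/
theorem mid_col {M : Type*} [AddCommMonoid M] {σ' : V → Bool} {d : D} {n : ℕ}
    (h : ∀ i < n, σ' (T.src ((T.st σ)^[i] d)) = σ (T.src ((T.st σ)^[i] d)) ∧
      σ' (T.tgt ((T.st σ)^[i] d)) = σ (T.tgt ((T.st σ)^[i] d)) ∧
      σ' (T.apex ((T.st σ)^[i] d)) = σ (T.apex ((T.st σ)^[i] d))) {a u v : ℕ} (hv : v ≤ n)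
    (Θ : D → M) : mid T σ' d a n u v Θ = mid T σ d a n u v Θ := by
  unfold mid
  apply Finset.sum_congr rfl
  intro i hi
  rw [Finset.mem_Ico] at hi
  have hiter : ∀ j ≤ n, (T.st σ')^[j] d = (T.st σ)^[j] d := fun j hj => seg_iter_congr h hj
  have e1 : T.Mi σ' ((T.st σ')^[i] d) ↔ T.Mi σ ((T.st σ)^[i] d) := by
    rw [hiter i (by omega)]
    unfold Tri.Mi
    obtain ⟨h1, h2, h3⟩ := h i (by omega)
    rw [h1, h2, h3]
  have hs : ∀ j ≤ n, sa T σ' d j = sa T σ d j := by
    intro j hj; unfold sa; rw [hiter j hj]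
  have e2 : DisjOn T σ' d a n i ↔ DisjOn T σ d a n i := by
    constructor
    · intro hD x y h1 h2 h3 h4
      rw [← hs x (by omega), ← hs y (by omega)]
      exact hD x y h1 h2 h3 h4
    · intro hD x y h1 h2 h3 h4
      rw [hs x (by omega), hs y (by omega)]
      exact hD x y h1 h2 h3 h4
  rw [e1, e2, hiter i (by omega)]

section chain

variable {K : ℕ} {d : ℕ → D} {p q : ℕ → List D} {N : ℕ → D → ZMod 2} {t : ℕ → ℕ}

/-- **Local membership**: whether a time of piece `k` is a member is decided by the pieces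
`k - 1`, `k`, `k + 1`. -/
theorem RChain.local (h : RChain T σ K d p q N) (ht : Times T σ K d N t) {k : ℕ} (hk : k < K)
    {a b n : ℕ} (hn1 : t k ≤ n) (hn2 : n < t (k + 1)) (hb : b ≤ t K) :
    DisjOn T σ (d 0) a b n ↔
      DisjOn T σ (d 0) (max a (t (k - 1))) (min b (t (min K (k + 2)))) n := by
  constructor
  · intro hD i j h1 h2 h3 h4
    exact hD i j (le_trans (le_max_left _ _) h1) h2 h3 (h4.trans (min_le_left _ _))
  · intro hD i j h1 h2 h3 h4 h5
    have hi : t (k - 1) ≤ i := by
      by_contra hc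
      push Not at hc
      obtain ⟨j0, hj0, hj1, hj2⟩ := ht.loc (i := i) (m := k - 1) hc
      obtain ⟨k0, hk0, hk1, hk2, hk3⟩ := ht.loc' (i := j) (m := k) hk.le (by omega) (by omega)
      obtain ⟨hx1, hx2⟩ := h.toChain0.mem_pv ht (show j0 < k0 by omega) hk0 hj1 hj2.le hk1.le hk2 h5
      exact h.disj2 j0 k0 (by omega) hk0 _ hx1 hx2
    have hj : j ≤ t (min K (k + 2)) := by
      by_contra hc
      push Not at hc
      have hK : k + 2 < K := by
        by_contra h6
        rw [min_eq_left (by omega)] at hc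
        omega
      rw [min_eq_right hK.le] at hc
      obtain ⟨k0, hk0, hk1, hk2, hk3⟩ := ht.loc' (i := j) (m := k + 2) hK.le hc (by omega)
      obtain ⟨j0, hj0, hj1, hj2⟩ := ht.loc (i := i) (m := k + 1) (by omega)
      obtain ⟨hx1, hx2⟩ := h.toChain0.mem_pv ht (show j0 < k0 by omega) hk0 hj1 hj2.le hk1.le hk2 h5
      exact h.disj2 j0 k0 (by omega) hk0 _ hx1 hx2
    exact hD i j (max_le h1 hi) h2 h3 (le_min h4 hj) h5

/-- The value of the `k`-th piece of a relaxed chain. -/
noncomputable def vk {M : Type*} [AddCommMonoid M] (T : Tri V D) (σ : V → Bool) (o : D)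
    (t : ℕ → ℕ) (k : ℕ) (Θ : D → M) : M :=
  mid T σ o (t (k - 1)) (t (k + 2)) (t k) (t (k + 1)) Θ

/-- **Additivity for relaxed chains**: two end terms (at most two pieces each) and the values of
the pieces in between. -/
theorem RChain.sum {M : Type*} [AddCommMonoid M] (h : RChain T σ K d p q N)
    (ht : Times T σ K d N t) (Θ : D → M) {j k : ℕ} (hjk : j ≤ k) (hk : k < K) {a b : ℕ}
    (ha : a ≤ t (j - 1)) (hb : t (k + 1) ≤ b) (hbK : b ≤ t K) :
    sideSum T σ (d 0) a b Θ = mid T σ (d 0) a b a (t j) Θ +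
      (∑ i ∈ Finset.Ico j k, vk T σ (d 0) t i Θ) + mid T σ (d 0) a b (t k) b Θ := by
  have hj1 : t (j - 1) ≤ t j := ht.mono (by omega) (by omega)
  have hjk' : t j ≤ t k := ht.mono hjk hk.le
  have hk1 : t k ≤ t (k + 1) := (ht.inc k hk).le
  rw [sideSum_eq_mid, mid_add (v := t j) (by omega) (by omega),
    mid_add (u := t j) (v := t k) (by omega) (by omega), ← add_assoc]
  congr 2
  have key : ∀ m, j + m ≤ k → mid T σ (d 0) a b (t j) (t (j + m)) Θ =
      ∑ i ∈ Finset.Ico j (j + m), vk T σ (d 0) t i Θ := by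
    intro m
    induction m with
    | zero => intro _; simp [mid]
    | succ m ih =>
      intro hm
      rw [show j + (m + 1) = j + m + 1 by ring, Finset.sum_Ico_succ_top (by omega), ← ih (by omega),
        mid_add (v := t (j + m)) (ht.mono (by omega) (by omega)) (ht.inc _ (by omega)).le]
      congr 1
      unfold vk
      apply mid_congr
      intro n hn1 hn2
      rw [h.local ht (k := j + m) (by omega) hn1 hn2 hbK]
      have e1 : max a (t (j + m - 1)) = t (j + m - 1) := by
        apply max_eq_right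
        exact ha.trans (ht.mono (by omega) (by omega))
      have e2 : min b (t (min K (j + m + 2))) = t (j + m + 2) := by
        rw [min_eq_right (show j + m + 2 ≤ K by omega)]
        apply min_eq_right
        exact (ht.mono (j := j + m + 2) (k := k + 1) (by omega) (by omega)).trans hb
      rw [e1, e2]
  have := key (k - j) (by omega)
  rwa [show j + (k - j) = k by omega] at this

/-- The value of piece `k` in terms of the strand of the foot `d (k - 1)`. -/
theorem vk_eq {M : Type*} [AddCommMonoid M] (ht : Times T σ K d N t) (Θ : D → M) {k : ℕ}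
    (hk : k + 2 ≤ K) : vk T σ (d 0) t k Θ =
      mid T σ (d (k - 1)) 0 (t (k + 2) - t (k - 1)) (t k - t (k - 1)) (t (k + 1) - t (k - 1)) Θ := by
  have h1 : t (k - 1) ≤ t k := ht.mono (by omega) (by omega)
  have h2 : t k ≤ t (k + 1) := ht.mono (by omega) (by omega)
  have h3 : t (k + 1) ≤ t (k + 2) := ht.mono (by omega) (by omega)
  unfold vk
  rw [← ht.hit (k - 1) (by omega), mid_shift, add_zero,
    show t (k - 1) + (t (k + 2) - t (k - 1)) = t (k + 2) by omega,
    show t (k - 1) + (t k - t (k - 1)) = t k by omega,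
    show t (k - 1) + (t (k + 1) - t (k - 1)) = t (k + 1) by omega]

end chain

end Vale.Agent.P148.R2.H565
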