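import Vale.Agent.P148.R2.H565.Loc6

/-!
# From connected coloured sets in boxes to relaxed chains
-/

namespace Vale.Agent.P148.R2.H565

open Function Vale.Agent.P148.R2.H258 Vale.Agent.P148.R2.H871

variable {V D : Type*} {T : Tri V D} {σ : V → Bool}

/-- Orientation, backwards. -/
theorem orient_back [Finite D] {δ d e : D} {A B p q : List D} (h0 : Tube T σ δ d A B)
    (h1 : Tube T σ d e p q) {N0 N1 : D → ZMod 2} (hN0 : T.Pot (gam T δ d A B) N0)
    (hN1 : T.Pot (gam T d e p q) N1) (hne : e ≠ δ) (hx : N1 d = N1 δ + 1) : N0 e = N0 δ + 1 := by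
  obtain ⟨n, hn0, hnL, hnd, hA, hB⟩ := h0.two_feet hN0
  obtain ⟨m, hm0, hmL, hme, hA1, hB1⟩ := h1.two_feet hN1
  have hper : per T σ d = per T σ δ := by rw [← hnd, per_iter]
  have hflip : ∀ a : ZMod 2, a ≠ a + 1 := by decide
  have hδ : (T.st σ)^[per T σ δ - n] d = δ := by
    rw [← hnd, ← iterate_add_apply, Nat.sub_add_cancel hnL.le]
    exact iterate_minimalPeriod
  have h2 : m ≤ per T σ δ - n := by
    by_contra h3
    push Not at h3
    have := hA1 (per T σ δ - n) h3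
    rw [hδ, hx] at this
    exact hflip _ this
  have h5 : (T.st σ)^[m + n] δ = e := by
    rw [← hme, ← hnd, ← iterate_add_apply]
  rcases (show m + n ≤ per T σ δ by omega).lt_or_eq with h6 | h6
  · have := hB (m + n) (by omega) h6
    rwa [h5] at this
  · exfalso
    apply hne
    rw [← h5, h6]
    exact iterate_minimalPeriod

/-- `S` is connected by walks inside `S`. -/
def WConn (T : Tri V D) (S : Set V) : Prop :=
  ∀ x ∈ S, ∀ y ∈ S, ∃ l, T.Walk x y l ∧ ∀ g ∈ l, T.src g ∈ S ∧ T.tgt g ∈ S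

theorem WConn.union {S S' : Set V} (h : WConn T S) (h' : WConn T S') {x : V} (hx : x ∈ S)
    (hx' : x ∈ S') : WConn T (S ∪ S') := by
  intro u hu v hv
  have key : ∀ w ∈ S ∪ S', (∃ l, T.Walk w x l ∧ ∀ g ∈ l, T.src g ∈ S ∪ S' ∧ T.tgt g ∈ S ∪ S') ∧
      ∃ l, T.Walk x w l ∧ ∀ g ∈ l, T.src g ∈ S ∪ S' ∧ T.tgt g ∈ S ∪ S' := by
    rintro w (hw | hw)
    · obtain ⟨l, h1, h2⟩ := h w hw x hx
      obtain ⟨l', h3, h4⟩ := h x hx w hw
      exact ⟨⟨l, h1, fun g hg => ⟨Or.inl (h2 g hg).1, Or.inl (h2 g hg).2⟩⟩,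
        ⟨l', h3, fun g hg => ⟨Or.inl (h4 g hg).1, Or.inl (h4 g hg).2⟩⟩⟩
    · obtain ⟨l, h1, h2⟩ := h' w hw x hx'
      obtain ⟨l', h3, h4⟩ := h' x hx' w hw
      exact ⟨⟨l, h1, fun g hg => ⟨Or.inr (h2 g hg).1, Or.inr (h2 g hg).2⟩⟩,
        ⟨l', h3, fun g hg => ⟨Or.inr (h4 g hg).1, Or.inr (h4 g hg).2⟩⟩⟩
  obtain ⟨⟨l, h1, h2⟩, -⟩ := key u hu
  obtain ⟨-, l', h3, h4⟩ := key v hv
  refine ⟨l ++ l', h1.append h3, fun g hg => ?_⟩
  rcases List.mem_append.1 hg with hg | hg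
  · exact h2 g hg
  · exact h4 g hg

/-- Two connected sets joined by an edge. -/
theorem WConn.edge {S S' : Set V} (h : WConn T S) (h' : WConn T S') {g : D} (hx : T.src g ∈ S)
    (hx' : T.tgt g ∈ S') : WConn T (S ∪ S') := by
  have h2 : WConn T ({T.src g, T.tgt g} : Set V) := by
    have w1 := Tri.Walk.single (T := T) g
    have w2 := Tri.Walk.single (T := T) (T.rev g)
    rw [T.src_rev, T.tgt_rev] at w2
    rintro u (rfl | rfl) v (rfl | rfl)
    · exact ⟨[], Tri.Walk.nil _, by simp⟩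
    · exact ⟨[g], w1, by simp⟩
    · refine ⟨[T.rev g], w2, ?_⟩
      intro a ha
      rw [List.mem_singleton] at ha
      subst ha
      rw [T.src_rev, T.tgt_rev]
      exact ⟨by simp, by simp⟩
    · exact ⟨[], Tri.Walk.nil _, by simp⟩
  have h3 : WConn T (S ∪ {T.src g, T.tgt g}) := h.union h2 hx (by simp)
  have h4 : WConn T ((S ∪ {T.src g, T.tgt g}) ∪ S') := h3.union h' (x := T.tgt g)
    (Or.inr (by simp)) hx'
  have e : (S ∪ {T.src g, T.tgt g}) ∪ S' = S ∪ S' := by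
    ext z
    simp only [Set.mem_union, Set.mem_insert_iff, Set.mem_singleton_iff]
    constructor
    · rintro ((h5 | (rfl | rfl)) | h5)
      · exact Or.inl h5
      · exact Or.inl hx
      · exact Or.inr hx'
      · exact Or.inr h5
    · rintro (h5 | h5)
      · exact Or.inl (Or.inl h5)
      · exact Or.inr h5
  rw [← e]; exact h4

/-- The vertices of a walk are connected. -/
theorem WConn.walk {u v : V} {l : List D} (h : T.Walk u v l) :
    WConn T {x | x = u ∨ ∃ g ∈ l, T.tgt g = x} := by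
  induction h with
  | nil v =>
    rintro x (rfl | ⟨g, hg, -⟩) y (rfl | ⟨g', hg', -⟩)
    · exact ⟨[], Tri.Walk.nil _, by simp⟩
    · simp at hg'
    · simp at hg
    · simp at hg
  | cons a w l hl ih =>
    have h1 : WConn T ({T.src a} : Set V) := by
      rintro x rfl y rfl
      exact ⟨[], Tri.Walk.nil _, by simp⟩
    have h2 := h1.edge ih (g := a) rfl (Or.inl rfl)
    have e : ({T.src a} : Set V) ∪ {x | x = T.tgt a ∨ ∃ g ∈ l, T.tgt g = x} =
        {x | x = T.src a ∨ ∃ g ∈ a :: l, T.tgt g = x} := by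
      ext z
      simp only [Set.mem_union, Set.mem_singleton_iff, Set.mem_setOf_eq, List.mem_cons]
      constructor
      · rintro (h5 | (rfl | ⟨g, hg, h5⟩))
        · exact Or.inl h5
        · exact Or.inr ⟨a, Or.inl rfl, rfl⟩
        · exact Or.inr ⟨g, Or.inr hg, h5⟩
      · rintro (h5 | ⟨g, (rfl | hg), h5⟩)
        · exact Or.inl h5
        · exact Or.inr (Or.inl h5.symm)
        · exact Or.inr (Or.inr ⟨g, hg, h5⟩)
    rw [← e]; exact h2

/-- A tube from two connected monochromatic sets. -/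
theorem tube_of_sets {d e : D} {P Q : Set V} {c : Bool} (hP : WConn T P) (hQ : WConn T Q)
    (cP : ∀ v ∈ P, σ v = c) (cQ : ∀ v ∈ Q, σ v = !c) (hd : T.src d ∈ P) (he : T.src e ∈ P)
    (hd' : T.tgt d ∈ Q) (he' : T.tgt e ∈ Q) (hne : e ≠ d) :
    ∃ p q, Tube T σ d e p q ∧ pv T d p ⊆ P ∧
      ∀ f ∈ gam T d e p q, T.src f ∈ P ∪ Q := by
  obtain ⟨p, h1, h2⟩ := hP _ hd _ he
  obtain ⟨q, h3, h4⟩ := hQ _ he' _ hd'
  refine ⟨p, q, ⟨?_, ?_, ?_, hne, h1, h3, ?_, ?_⟩, ?_, ?_⟩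
  · unfold Tri.Bi
    rw [cP _ hd, cQ _ hd']
    cases c <;> decide
  · rw [cP _ he, cP _ hd]
  · rw [cQ _ he', cQ _ hd']
  · intro g hg
    rw [cP _ (h2 g hg).1, cP _ (h2 g hg).2, cP _ hd]
    exact ⟨rfl, rfl⟩
  · intro g hg
    rw [cQ _ (h4 g hg).1, cQ _ (h4 g hg).2, cQ _ hd']
    exact ⟨rfl, rfl⟩
  · rintro x (rfl | ⟨g, hg, rfl⟩)
    · exact hd
    · exact (h2 g hg).2
  · intro f hf
    unfold gam at hf
    rw [List.mem_append, List.mem_cons, List.mem_append, List.mem_singleton] at hf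
    rcases hf with hf | hf | hf | hf
    · exact Or.inl (h2 f hf).1
    · rw [hf]; exact Or.inl he
    · exact Or.inr (h4 f hf).1
    · rw [hf, T.src_rev]; exact Or.inr hd'

/-- Coloured connected sets in boxes: `P k` (colour `c`) joins the sources of the feet `d k` and
`d (k + 1)`, `Q k` (colour `!c`) joins their targets. -/
structure Ring (T : Tri V D) (σ : V → Bool) (c : Bool) (K : ℕ) (d : ℕ → D)
    (P Q X : ℕ → Set V) (ω : V) : Prop where
  pc : ∀ k < K, WConn T (P k)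
  qc : ∀ k < K, WConn T (Q k)
  colP : ∀ k < K, ∀ v ∈ P k, σ v = c
  colQ : ∀ k < K, ∀ v ∈ Q k, σ v = !c
  s1 : ∀ k < K, T.src (d k) ∈ P k
  s2 : ∀ k < K, T.src (d (k + 1)) ∈ P k
  t1 : ∀ k < K, T.tgt (d k) ∈ Q k
  t2 : ∀ k < K, T.tgt (d (k + 1)) ∈ Q k
  ne : ∀ k < K, d (k + 1) ≠ d k
  disj2 : ∀ j k, j + 2 ≤ k → k < K → ∀ x, x ∈ P j → x ∉ P k
  subP : ∀ k < K, P k ⊆ X k
  subQ : ∀ k < K, Q k ⊆ X k
  out : ∀ k < K, ω ∉ X k
  conn : ∀ k < K, ∀ x ∉ X k, ∃ l, T.Walk x ω l ∧ ∀ g ∈ l, T.src g ∉ X k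
  far : ∀ j k, j ≤ K → k < K → j ≠ k → j ≠ k + 1 → T.src (d j) ∉ X k

section ring

variable {c : Bool} {K : ℕ} {d : ℕ → D} {P Q X : ℕ → Set V} {ω : V}

/-- **Existence of the relaxed chain.** The orientation hypothesis concerns the first tube only. -/
theorem Ring.exists_rchain [Finite D] (hPl : T.Planar) (h : Ring T σ c K d P Q X ω) {g₀ : D}
    (hg : T.src g₀ = ω)
    (hor : ∀ p q N, Tube T σ (d 0) (d 1) p q → (∀ f ∈ gam T (d 0) (d 1) p q, T.src f ∈ X 0) →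
      T.Pot (gam T (d 0) (d 1) p q) N → N (d 0) = N g₀ + 1) :
    ∃ p q N, RChain T σ K d p q N ∧ (∀ k < K, N k g₀ = 0) ∧ (∀ k < K, N k (d k) = 1) ∧
      (∀ k < K, pv T (d k) (p k) ⊆ P k) ∧
      (∀ k < K, ∀ f ∈ gam T (d k) (d (k + 1)) (p k) (q k), T.src f ∈ X k) := by
  classical
  have hex : ∀ k, ∃ p q, k < K → (Tube T σ (d k) (d (k + 1)) p q ∧ pv T (d k) p ⊆ P k ∧
      ∀ f ∈ gam T (d k) (d (k + 1)) p q, T.src f ∈ P k ∪ Q k) := by
    intro k
    by_cases hk : k < K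
    · obtain ⟨p, q, h1⟩ := tube_of_sets (h.pc k hk) (h.qc k hk) (h.colP k hk) (h.colQ k hk)
        (h.s1 k hk) (h.s2 k hk) (h.t1 k hk) (h.t2 k hk) (h.ne k hk)
      exact ⟨p, q, fun _ => h1⟩
    · exact ⟨[], [], fun hk' => absurd hk' hk⟩
  choose p q hpq using hex
  have hex2 : ∀ k, ∃ N : D → ZMod 2, k < K →
      (T.Pot (gam T (d k) (d (k + 1)) (p k) (q k)) N ∧ N g₀ = 0) := by
    intro k
    by_cases hk : k < K
    · obtain ⟨N, h1, h2⟩ := T.exists_pot hPl (hpq k hk).1.closed g₀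
      exact ⟨N, fun _ => ⟨h1, h2⟩⟩
    · exact ⟨0, fun hk' => absurd hk' hk⟩
  choose N hN using hex2
  have hsub : ∀ k < K, ∀ f ∈ gam T (d k) (d (k + 1)) (p k) (q k), T.src f ∈ X k := by
    intro k hk f hf
    rcases (hpq k hk).2.2 f hf with h1 | h1
    · exact h.subP k hk h1
    · exact h.subQ k hk h1
  have hfar : ∀ j k, j ≤ K → k < K → j ≠ k → j ≠ k + 1 → N k (d j) = 0 := by
    intro j k hj hk h1 h2
    by_contra hc
    exact h.far j k hj hk h1 h2 (confine (hpq k hk).1.closed (hN k hk).1 (h.out k hk) (h.conn k hk)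
      (hsub k hk) hg (by rw [(hN k hk).2]; exact hc))
  have hpos : ∀ k, k < K → N k (d k) = 1 := by
    intro k
    induction k with
    | zero =>
      intro hk
      have := hor _ _ _ (hpq 0 hk).1 (hsub 0 hk) (hN 0 hk).1
      rw [(hN 0 hk).2, zero_add] at this
      exact this
    | succ k ih =>
      intro hk
      have h1 := ih (by omega)
      have h2 := hfar (k + 2) k (by omega) (by omega) (by omega) (by omega)
      have h3 := hfar k (k + 1) (by omega) hk (by omega) (by omega)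
      have := orient (hpq k (by omega)).1 (hpq (k + 1) hk).1 (hN k (by omega)).1 (hN (k + 1) hk).1
        (by rw [show k + 1 + 1 = k + 2 by ring, h2, h1]; decide)
      rw [h3, zero_add] at this
      exact this
  refine ⟨p, q, N, ⟨⟨fun k hk => (hpq k hk).1, fun k hk => (hN k hk).1, fun k hk hk0 => ?_⟩, ?_⟩,
    fun k hk => (hN k hk).2, hpos, fun k hk => (hpq k hk).2.1, hsub⟩
  · rw [hpos k hk, hfar 0 k (by omega) hk (by omega) (by omega)]
    decide
  · intro j k hjk hk x hx hx'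
    exact h.disj2 j k hjk hk x ((hpq j (by omega)).2.1 hx) ((hpq k hk).2.1 hx')

end ring

end Vale.Agent.P148.R2.H565
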