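import Vale.Agent.P148.R2.H565.Loc7

/-!
# Closed rings of tubes; three-piece values
-/

namespace Vale.Agent.P148.R2.H565

open Function Vale.Agent.P148.R2.H258 Vale.Agent.P148.R2.H871

variable {V D : Type*} {T : Tri V D} {σ : V → Bool}

/-! ### Passing times -/

/-- Number of strand steps from `a` to `b`. -/
noncomputable def len (T : Tri V D) (σ : V → Bool) (a b : D) : ℕ :=
  sInf {n | 0 < n ∧ (T.st σ)^[n] a = b}

theorem len_eq {a b : D} {n : ℕ} (hn : 0 < n) (hn2 : n < per T σ a) (h : (T.st σ)^[n] a = b) :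
    len T σ a b = n := by
  have hmem : n ∈ {n | 0 < n ∧ (T.st σ)^[n] a = b} := ⟨hn, h⟩
  have h1 : len T σ a b ≤ n := Nat.sInf_le hmem
  obtain ⟨h2, h3⟩ : len T σ a b ∈ {n | 0 < n ∧ (T.st σ)^[n] a = b} := Nat.sInf_mem ⟨n, hmem⟩
  exact (iterate_eq_iterate_iff_of_lt_minimalPeriod (lt_of_le_of_lt h1 hn2) hn2).1 (h3.trans h.symm)

theorem Times.len [Finite D] {K : ℕ} {d : ℕ → D} {N : ℕ → D → ZMod 2} {t : ℕ → ℕ}
    (ht : Times T σ K d N t) {k : ℕ} (hk : k < K) (hne : d (k + 1) ≠ d k) :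
    H565.len T σ (d k) (d (k + 1)) = t (k + 1) - t k := by
  have h1 := ht.inc k hk
  have hper : per T σ (d k) = per T σ (d 0) := by rw [← ht.hit k hk.le, per_iter]
  have h2 : (T.st σ)^[t (k + 1) - t k] (d k) = d (k + 1) := by
    rw [← ht.hit k hk.le, ← iterate_add_apply, Nat.sub_add_cancel h1.le, ht.hit _ (by omega)]
  have h3 := ht.le (k + 1) (by omega)
  apply len_eq (by omega) _ h2
  rw [hper]
  rcases (show t (k + 1) - t k ≤ per T σ (d 0) by omega).lt_or_eq with h4 | h4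
  · exact h4
  · exfalso
    apply hne
    rw [← h2, h4, ← hper]
    exact iterate_minimalPeriod

/-- The value of the middle one of three consecutive pieces with feet `a, b, c, e`. -/
noncomputable def v3 {M : Type*} [AddCommMonoid M] (T : Tri V D) (σ : V → Bool) (a b c e : D)
    (Θ : D → M) : M :=
  mid T σ a 0 (len T σ a b + len T σ b c + len T σ c e) (len T σ a b)
    (len T σ a b + len T σ b c) Θ

theorem vk_eq_v3 [Finite D] {M : Type*} [AddCommMonoid M] {K : ℕ} {d : ℕ → D}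
    {N : ℕ → D → ZMod 2} {t : ℕ → ℕ} (ht : Times T σ K d N t) (hne : ∀ k < K, d (k + 1) ≠ d k)
    (Θ : D → M) {k : ℕ} (hk1 : 1 ≤ k) (hk : k + 2 ≤ K) :
    vk T σ (d 0) t k Θ = v3 T σ (d (k - 1)) (d k) (d (k + 1)) (d (k + 2)) Θ := by
  rw [vk_eq ht Θ hk]
  have e0 : H565.len T σ (d (k - 1)) (d k) = t k - t (k - 1) := by
    have := ht.len (k := k - 1) (by omega) (hne _ (by omega))
    rwa [Nat.sub_add_cancel hk1] at this
  have e1 := ht.len (k := k) (by omega) (hne _ (by omega))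
  have e2 := ht.len (k := k + 1) (by omega) (hne _ (by omega))
  rw [show k + 1 + 1 = k + 2 by ring] at e2
  have h1 : t (k - 1) ≤ t k := ht.mono (by omega) (by omega)
  have h2 : t k ≤ t (k + 1) := ht.mono (by omega) (by omega)
  have h3 : t (k + 1) ≤ t (k + 2) := ht.mono (by omega) (by omega)
  unfold v3
  rw [e0, e1, e2, show t k - t (k - 1) + (t (k + 1) - t k) = t (k + 1) - t (k - 1) by omega,
    show t (k + 1) - t (k - 1) + (t (k + 2) - t (k + 1)) = t (k + 2) - t (k - 1) by omega]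

/-! ### Closed rings -/

/-- A closed ring of `K` tubes: everything is `K`-periodic. -/
structure CRing (T : Tri V D) (σ : V → Bool) (c : Bool) (K : ℕ) (d : ℕ → D)
    (P Q X : ℕ → Set V) (ω : V) : Prop where
  four : 4 ≤ K
  dper : ∀ k, d (k + K) = d k
  pc : ∀ k, WConn T (P k)
  qc : ∀ k, WConn T (Q k)
  colP : ∀ k, ∀ v ∈ P k, σ v = c
  colQ : ∀ k, ∀ v ∈ Q k, σ v = !c
  s1 : ∀ k, T.src (d k) ∈ P k
  s2 : ∀ k, T.src (d (k + 1)) ∈ P k
  t1 : ∀ k, T.tgt (d k) ∈ Q k
  t2 : ∀ k, T.tgt (d (k + 1)) ∈ Q k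
  disj2 : ∀ j k, j + 2 ≤ k → k + 2 ≤ j + K → ∀ x, x ∈ P j → x ∉ P k
  subP : ∀ k, P k ⊆ X k
  subQ : ∀ k, Q k ⊆ X k
  out : ∀ k, ω ∉ X k
  conn : ∀ k, ∀ x ∉ X k, ∃ l, T.Walk x ω l ∧ ∀ g ∈ l, T.src g ∉ X k
  far : ∀ j k, j % K ≠ k % K → j % K ≠ (k + 1) % K → T.src (d j) ∉ X k

section cring

variable {c : Bool} {K : ℕ} {d : ℕ → D} {P Q X : ℕ → Set V} {ω : V}

theorem mod_ne {K a b : ℕ} (h : a < b) (h2 : b < a + K) : a % K ≠ b % K := by
  intro he
  have h3 : (b - a) % K = 0 := (Nat.modEq_iff_dvd' h.le).1 he |> Nat.mod_eq_zero_of_dvd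
  have h4 : (b - a) % K = b - a := Nat.mod_eq_of_lt (by omega)
  omega

theorem CRing.ne (h : CRing T σ c K d P Q X ω) (k : ℕ) : d (k + 1) ≠ d k := by
  intro he
  have h4 := h.four
  have h1 : T.src (d k) ∉ X (k + 1) := h.far k (k + 1) (mod_ne (by omega) (by omega))
    (mod_ne (by omega) (by omega))
  apply h1
  rw [← he]
  exact h.subP _ (h.s1 _)

/-- Part of a ring, from any foot. -/
theorem CRing.ring (h : CRing T σ c K d P Q X ω) (j : ℕ) {K' : ℕ} (hK' : K' + 1 ≤ K) :
    Ring T σ c K' (fun i => d (j + i)) (fun i => P (j + i)) (fun i => Q (j + i))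
      (fun i => X (j + i)) ω where
  pc k _ := h.pc _
  qc k _ := h.qc _
  colP k _ := h.colP _
  colQ k _ := h.colQ _
  s1 k _ := h.s1 _
  s2 k _ := h.s2 (j + k)
  t1 k _ := h.t1 _
  t2 k _ := h.t2 (j + k)
  ne k _ := h.ne (j + k)
  disj2 a b h1 h2 x hx := h.disj2 (j + a) (j + b) (by omega) (by omega) x hx
  subP k _ := h.subP _
  subQ k _ := h.subQ _
  out k _ := h.out _
  conn k _ := h.conn _
  far a b h1 h2 h3 h4 := by
    apply h.far
    · rcases Nat.lt_or_gt_of_ne h3 with h5 | h5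
      · exact mod_ne (by omega) (by omega)
      · exact (mod_ne (by omega) (by omega)).symm
    · rcases Nat.lt_or_gt_of_ne h4 with h5 | h5
      · exact mod_ne (by omega) (by omega)
      · exact (mod_ne (by omega) (by omega)).symm

/-- **The closed ring.** With one orientation hypothesis the strand of the first foot passes all
feet in order, closes up exactly after the last tube, and during piece `k` it is inside the `k`-th
tube. -/
theorem CRing.loop [Finite D] (hPl : T.Planar) (h : CRing T σ c K d P Q X ω) {g₀ : D}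
    (hg : T.src g₀ = ω)
    (hor : ∀ p q N, Tube T σ (d 0) (d 1) p q → (∀ f ∈ gam T (d 0) (d 1) p q, T.src f ∈ X 0) →
      T.Pot (gam T (d 0) (d 1) p q) N → N (d 0) = N g₀ + 1) :
    ∃ p q N t, Chain0 T σ K d p q N ∧ Times T σ K d N t ∧ t K = per T σ (d 0) ∧
      (∀ k < K, N k g₀ = 0) ∧ (∀ k < K, N k (d k) = 1) ∧
      (∀ k < K, pv T (d k) (p k) ⊆ P k) ∧
      (∀ k < K, ∀ f ∈ gam T (d k) (d (k + 1)) (p k) (q k), T.src f ∈ X k) := by
  classical
  have h4 := h.four
  have hex : ∀ k, ∃ p q, Tube T σ (d k) (d (k + 1)) p q ∧ pv T (d k) p ⊆ P k ∧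
      ∀ f ∈ gam T (d k) (d (k + 1)) p q, T.src f ∈ P k ∪ Q k := fun k =>
    tube_of_sets (h.pc k) (h.qc k) (h.colP k) (h.colQ k) (h.s1 k) (h.s2 k) (h.t1 k) (h.t2 k) (h.ne k)
  choose p q hpq using hex
  have hex2 : ∀ k, ∃ N : D → ZMod 2, T.Pot (gam T (d k) (d (k + 1)) (p k) (q k)) N ∧ N g₀ = 0 :=
    fun k => T.exists_pot hPl (hpq k).1.closed g₀
  choose N hN using hex2
  have hsub : ∀ k, ∀ f ∈ gam T (d k) (d (k + 1)) (p k) (q k), T.src f ∈ X k := by
    intro k f hf
    rcases (hpq k).2.2 f hf with h1 | h1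
    · exact h.subP k h1
    · exact h.subQ k h1
  have hfar : ∀ j k, j % K ≠ k % K → j % K ≠ (k + 1) % K → N k (d j) = 0 := by
    intro j k h1 h2
    by_contra hc
    exact h.far j k h1 h2 (confine (hpq k).1.closed (hN k).1 (h.out k) (h.conn k)
      (hsub k) hg (by rw [(hN k).2]; exact hc))
  have hpos : ∀ k, N k (d k) = 1 := by
    intro k
    induction k with
    | zero =>
      have := hor _ _ _ (hpq 0).1 (hsub 0) (hN 0).1
      rw [(hN 0).2, zero_add] at this
      exact this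
    | succ k ih =>
      have h2 := hfar (k + 2) k (mod_ne (by omega) (by omega)).symm
        (mod_ne (by omega) (by omega)).symm
      have h3 := hfar k (k + 1) (mod_ne (by omega) (by omega)) (mod_ne (by omega) (by omega))
      have := orient (hpq k).1 (hpq (k + 1)).1 (hN k).1 (hN (k + 1)).1
        (by rw [show k + 1 + 1 = k + 2 by ring, h2, ih]; decide)
      rw [h3, zero_add] at this
      exact this
  have hC : Chain0 T σ K d p q N := by
    refine ⟨fun k _ => (hpq k).1, fun k _ => (hN k).1, fun k hk hk0 => ?_⟩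
    by_cases hk1 : k + 1 = K
    · obtain ⟨n, h1, h2, h3, -, h5⟩ := (hpq k).1.two_feet (hN k).1
      have h6 := h5 n le_rfl h2
      rw [h3] at h6
      have h7 : d (k + 1) = d 0 := by
        have := h.dper 0
        rw [zero_add] at this
        rw [hk1, this]
      rwa [h7] at h6
    · rw [hpos k, hfar 0 k (mod_ne (by omega) (by omega)) (mod_ne (by omega) (by omega))]
      decide
  obtain ⟨t, ht⟩ := hC.exists_times
  have hK : t K = per T σ (d 0) := by
    have h1 := ht.le K le_rfl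
    have h2 : 0 < t K := by
      have a1 := ht.inc 0 (by omega)
      have a2 := ht.mono (j := 0 + 1) (k := K) (by omega) le_rfl
      omega
    have h3 := ht.hit K le_rfl
    have h7 : d K = d 0 := by
      have := h.dper 0
      rwa [zero_add] at this
    rw [h7] at h3
    rcases h1.lt_or_eq with h5 | h5
    · exact absurd h3 (not_isPeriodicPt_of_pos_of_lt_minimalPeriod h2.ne' h5)
    · exact h5
  exact ⟨p, q, N, t, hC, ht, hK, fun k _ => (hN k).2, fun k _ => hpos k, fun k _ => (hpq k).2.1,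
    fun k _ => hsub k⟩

/-- Everything the closed strand sees during piece `k` is in the `k`-th box. -/
theorem Chain0.seen {K : ℕ} {d : ℕ → D} {p q : ℕ → List D} {N : ℕ → D → ZMod 2} {t : ℕ → ℕ}
    (h : Chain0 T σ K d p q N) (ht : Times T σ K d N t) {k : ℕ} (hk : k < K) {X : Set V} {ω : V}
    (hω : ω ∉ X) (hX : ∀ x ∉ X, ∃ l, T.Walk x ω l ∧ ∀ g ∈ l, T.src g ∉ X)
    (hΓ : ∀ f ∈ gam T (d k) (d (k + 1)) (p k) (q k), T.src f ∈ X) {g₀ : D} (hg : T.src g₀ = ω)
    (h0 : N k g₀ = 0) (h1 : N k (d k) = 1) {i : ℕ} (hi1 : t k ≤ i) (hi2 : i < t (k + 1)) :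
    T.src ((T.st σ)^[i] (d 0)) ∈ X ∧ T.tgt ((T.st σ)^[i] (d 0)) ∈ X ∧
      T.apex ((T.st σ)^[i] (d 0)) ∈ X := by
  apply confine_face (h.tube k hk).closed (h.pot k hk) hω hX hΓ hg
  rw [ht.hin k hk i hi1 hi2, h0, h1]
  decide

/-- **Orientation of the parts.** The relaxed chain of the part of the ring from foot `j`. -/
theorem CRing.rchain [Finite D] (hPl : T.Planar) (h : CRing T σ c K d P Q X ω) {g₀ : D}
    (hg : T.src g₀ = ω)
    (hor : ∀ p q N, Tube T σ (d 0) (d 1) p q → (∀ f ∈ gam T (d 0) (d 1) p q, T.src f ∈ X 0) →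
      T.Pot (gam T (d 0) (d 1) p q) N → N (d 0) = N g₀ + 1) (j : ℕ) {K' : ℕ}
    (hK' : K' + 1 ≤ K) :
    ∃ p q N t, RChain T σ K' (fun i => d (j + i)) p q N ∧
      Times T σ K' (fun i => d (j + i)) N t := by
  classical
  -- all tubes between the two feet are positively oriented
  have hall : ∀ k, ∀ p q N, Tube T σ (d k) (d (k + 1)) p q →
      (∀ f ∈ gam T (d k) (d (k + 1)) p q, T.src f ∈ X k) →
      T.Pot (gam T (d k) (d (k + 1)) p q) N → N (d k) = N g₀ + 1 := by
    have h4 := h.four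
    intro k
    induction k with
    | zero => exact hor
    | succ k ih =>
      intro p q N h1 h2 h3
      obtain ⟨p', q', a1, a2, a3⟩ := tube_of_sets (h.pc k) (h.qc k) (h.colP k) (h.colQ k) (h.s1 k)
        (h.s2 k) (h.t1 k) (h.t2 k) (h.ne k)
      have a4 : ∀ f ∈ gam T (d k) (d (k + 1)) p' q', T.src f ∈ X k := by
        intro f hf
        rcases a3 f hf with h5 | h5
        · exact h.subP k h5
        · exact h.subQ k h5
      obtain ⟨N', b1, b2⟩ := T.exists_pot hPl a1.closed g₀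
      have b3 := ih p' q' N' a1 a4 b1
      have b4 : N' (d (k + 2)) = N' g₀ := by
        by_contra hc
        exact h.far (k + 2) k (mod_ne (by omega) (by omega)).symm
          (mod_ne (by omega) (by omega)).symm
          (confine a1.closed b1 (h.out k) (h.conn k) a4 hg hc)
      have b5 : N (d k) = N g₀ := by
        by_contra hc
        exact h.far k (k + 1) (mod_ne (by omega) (by omega)) (mod_ne (by omega) (by omega))
          (confine h1.closed h3 (h.out (k + 1)) (h.conn (k + 1)) h2 hg hc)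
      have := orient a1 h1 b1 h3 (by
        rw [show k + 1 + 1 = k + 2 by ring, b4, b3]
        generalize N' g₀ = a
        revert a; decide)
      rw [this, b5]
  obtain ⟨p, q, N, h1, -⟩ := (h.ring j hK').exists_rchain hPl hg (hall j)
  obtain ⟨t, ht⟩ := h1.toChain0.exists_times
  exact ⟨p, q, N, t, h1, ht⟩

end cring

end Vale.Agent.P148.R2.H565
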