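import Vale.Agent.P148.R2.H565.Loc5
import Vale.Agent.P148.R2.H565.Loc8

/-!
# Intrinsic three-piece values
-/

open Set Metric Function

namespace Vale.Agent.P148.R2.H565

open H592 H184

/-- Three consecutive pieces of a strand, with feet `a, b, e, g`. -/
structure P3 (X Q : Set ℂ) (c : ℂ → Bool) (a b e g : ℂ × ℂ) (m1 m2 m3 : ℕ) (f : ℕ → Dt) :
    Prop where
  h1 : PP X Q c a b m1 f
  h2 : PP X Q c b e m2 (fun i => f (m1 + i))
  h3 : PP X Q c e g m3 (fun i => f (m1 + m2 + i))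

open Classical in
/-- Members in the middle piece. -/
noncomputable def midQ (c : ℂ → Bool) (m1 m2 m3 : ℕ) (f : ℕ → Dt) (Θ : Dt → ℂ) : ℂ :=
  ∑ i ∈ Finset.Ico m1 (m1 + m2), if Mn c (f i) ∧ DisQ (m1 + m2 + m3) f i then Θ (f i) else 0

open Classical in
/-- The value of the middle piece, as a function of the coloured points in `Q`. -/
noncomputable def PV3 (X Q : Set ℂ) (c : ℂ → Bool) (a b e g : ℂ × ℂ) (Θ : Dt → ℂ) : ℂ :=
  if h : ∃ x : (ℕ × ℕ × ℕ) × (ℕ → Dt), P3 X Q c a b e g x.1.1 x.1.2.1 x.1.2.2 x.2 then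
    midQ c h.choose.1.1 h.choose.1.2.1 h.choose.1.2.2 h.choose.2 Θ else 0

variable {X X' Q Q' : Set ℂ} {c c' : ℂ → Bool} {a b e g : ℂ × ℂ} {m1 m2 m3 n1 n2 n3 : ℕ}
  {f f' : ℕ → Dt}

theorem P3.lf (h : P3 X Q c a b e g m1 m2 m3 f) {i : ℕ} (hi : i < m1 + m2 + m3) :
    LF X Q (f i) := by
  by_cases h1 : i < m1
  · exact h.h1.sg.lf i h1
  by_cases h2 : i < m1 + m2
  · have := h.h2.sg.lf (i - m1) (by omega)
    rwa [show m1 + (i - m1) = i by omega] at this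
  · have := h.h3.sg.lf (i - (m1 + m2)) (by omega)
    rwa [show m1 + m2 + (i - (m1 + m2)) = i by omega] at this

theorem P3.mono (h : P3 X Q c a b e g m1 m2 m3 f) (hQ : Q ⊆ Q') :
    P3 X Q' c a b e g m1 m2 m3 f := ⟨h.h1.mono hQ, h.h2.mono hQ, h.h3.mono hQ⟩

theorem P3_iff (hX : X ∩ Q = X' ∩ Q) (hc : ∀ z ∈ X ∩ Q, c' z = c z) :
    P3 X' Q c' a b e g m1 m2 m3 f ↔ P3 X Q c a b e g m1 m2 m3 f :=
  ⟨fun h => ⟨(PP_iff hX hc).1 h.h1, (PP_iff hX hc).1 h.h2, (PP_iff hX hc).1 h.h3⟩,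
    fun h => ⟨(PP_iff hX hc).2 h.h1, (PP_iff hX hc).2 h.h2, (PP_iff hX hc).2 h.h3⟩⟩

theorem P3.det (h3 : Three X) (h : P3 X Q c a b e g m1 m2 m3 f)
    (h' : P3 X Q' c a b e g n1 n2 n3 f') :
    m1 = n1 ∧ m2 = n2 ∧ m3 = n3 ∧ (∀ i < m1 + m2 + m3, f i = f' i) ∧
      (f (m1 + m2 + m3)).1 = (f' (m1 + m2 + m3)).1 := by
  obtain ⟨e1, a1, -⟩ := h.h1.det h3 h'.h1
  subst e1
  obtain ⟨e2, a2, -⟩ := h.h2.det h3 h'.h2
  subst e2
  obtain ⟨e3, a3, b3⟩ := h.h3.det h3 h'.h3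
  subst e3
  refine ⟨rfl, rfl, rfl, ?_, b3⟩
  intro i hi
  by_cases h1 : i < m1
  · exact a1 i h1
  by_cases h2 : i < m1 + m2
  · have := a2 (i - m1) (by omega)
    rwa [show m1 + (i - m1) = i by omega] at this
  · have := a3 (i - (m1 + m2)) (by omega)
    rwa [show m1 + m2 + (i - (m1 + m2)) = i by omega] at this

theorem midQ_eq_of {Θ : Dt → ℂ} (hf : ∀ i < m1 + m2 + m3, f i = f' i)
    (hn : (f (m1 + m2 + m3)).1 = (f' (m1 + m2 + m3)).1) :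
    midQ c m1 m2 m3 f Θ = midQ c m1 m2 m3 f' Θ := by
  have e : ∀ j ≤ m1 + m2 + m3, (f j).1 = (f' j).1 := by
    intro j hj
    rcases hj.lt_or_eq with h1 | h1
    · rw [hf j h1]
    · rw [h1, hn]
  unfold midQ
  apply Finset.sum_congr rfl
  intro i hi
  rw [Finset.mem_Ico] at hi
  by_cases hm3 : i < m1 + m2 + m3
  · have e2 : DisQ (m1 + m2 + m3) f i ↔ DisQ (m1 + m2 + m3) f' i := by
      unfold DisQ
      constructor
      · intro hD x y h1 h2 h3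
        rw [← e x (by omega), ← e y h3]; exact hD x y h1 h2 h3
      · intro hD x y h1 h2 h3
        rw [e x (by omega), e y h3]; exact hD x y h1 h2 h3
    rw [hf i hm3, e2]
  · omega

theorem midQ_congr {Θ : Dt → ℂ}
    (hc : ∀ i < m1 + m2, c' (f i).1 = c (f i).1 ∧ c' (f i).2.1 = c (f i).2.1 ∧
      c' (f i).2.2 = c (f i).2.2) : midQ c' m1 m2 m3 f Θ = midQ c m1 m2 m3 f Θ := by
  unfold midQ
  apply Finset.sum_congr rfl
  intro i hi
  rw [Finset.mem_Ico] at hi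
  obtain ⟨h1, h2, h3⟩ := hc i (by omega)
  rw [Mn_congr h1 h2 h3]

/-- **Locality of the three-piece value.** -/
theorem PV3_congr (hX : X ∩ Q = X' ∩ Q) (hc : ∀ z ∈ X ∩ Q, c' z = c z) (Θ : Dt → ℂ) :
    PV3 X' Q c' a b e g Θ = PV3 X Q c a b e g Θ := by
  have hP : (fun x : (ℕ × ℕ × ℕ) × (ℕ → Dt) =>
        P3 X' Q c' a b e g x.1.1 x.1.2.1 x.1.2.2 x.2) =
      (fun x : (ℕ × ℕ × ℕ) × (ℕ → Dt) => P3 X Q c a b e g x.1.1 x.1.2.1 x.1.2.2 x.2) := by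
    funext x; exact propext (P3_iff hX hc)
  unfold PV3
  by_cases h : ∃ x : (ℕ × ℕ × ℕ) × (ℕ → Dt), P3 X Q c a b e g x.1.1 x.1.2.1 x.1.2.2 x.2
  · have h' : ∃ x : (ℕ × ℕ × ℕ) × (ℕ → Dt),
        P3 X' Q c' a b e g x.1.1 x.1.2.1 x.1.2.2 x.2 := by
      obtain ⟨x, hh⟩ := h
      exact ⟨x, (P3_iff hX hc).2 hh⟩
    rw [dif_pos h, dif_pos h']
    have e : h'.choose = h.choose := by
      have : ∀ (P P' : (ℕ × ℕ × ℕ) × (ℕ → Dt) → Prop) (_ : P' = P) (g' : ∃ x, P' x)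
          (g : ∃ x, P x), g'.choose = g.choose := by
        intro P P' hPP g' g
        subst hPP
        rfl
      exact this _ _ hP h' h
    rw [e]
    exact midQ_congr (fun i hi => LF.col hc (h.choose_spec.lf (by omega)))
  · have h' : ¬ ∃ x : (ℕ × ℕ × ℕ) × (ℕ → Dt),
        P3 X' Q c' a b e g x.1.1 x.1.2.1 x.1.2.2 x.2 := by
      rintro ⟨x, hh⟩
      exact h ⟨x, (P3_iff hX hc).1 hh⟩
    rw [dif_neg h, dif_neg h']

theorem PV3_eq (h3 : Three X) (h : P3 X Q c a b e g m1 m2 m3 f) (Θ : Dt → ℂ) :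
    PV3 X Q c a b e g Θ = midQ c m1 m2 m3 f Θ := by
  have hex : ∃ x : (ℕ × ℕ × ℕ) × (ℕ → Dt), P3 X Q c a b e g x.1.1 x.1.2.1 x.1.2.2 x.2 :=
    ⟨((m1, m2, m3), f), h⟩
  unfold PV3
  rw [dif_pos hex]
  obtain ⟨e1, e2, e3, h2, h4⟩ := h.det h3 hex.choose_spec
  rw [← e1, ← e2, ← e3, midQ_eq_of h2 h4]

/-- The three-piece value does not depend on the window. -/
theorem PV3_window (h3 : Three X) (h : P3 X Q c a b e g m1 m2 m3 f)
    (h' : P3 X Q' c a b e g n1 n2 n3 f') (Θ : Dt → ℂ) :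
    PV3 X Q c a b e g Θ = PV3 X Q' c a b e g Θ := by
  obtain ⟨e1, e2, e3, h2, h4⟩ := h.det h3 h'
  subst e1; subst e2; subst e3
  rw [PV3_eq h3 h, PV3_eq h3 h', midQ_eq_of h2 h4]

theorem P3_sm {α β : ℂ} (hα : α ≠ 0) (hc : ∀ z ∈ X ∩ Q, c' (sm α β z) = c z)
    (h : P3 X Q c a b e g m1 m2 m3 f) : P3 (sm α β '' X) (sm α β '' Q) c' (sm α β a.1, sm α β a.2)
      (sm α β b.1, sm α β b.2) (sm α β e.1, sm α β e.2) (sm α β g.1, sm α β g.2) m1 m2 m3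
      (fun i => smD α β (f i)) :=
  ⟨PP_sm hα hc h.h1, PP_sm hα hc h.h2, PP_sm hα hc h.h3⟩

/-- **Equivariance of the three-piece value.** -/
theorem PV3_sm (h3 : Three X) {α β : ℂ} (hα : α ≠ 0) (hc : ∀ z ∈ X ∩ Q, c' (sm α β z) = c z)
    (h : P3 X Q c a b e g m1 m2 m3 f) (Θ : Dt → ℂ) :
    PV3 (sm α β '' X) (sm α β '' Q) c' (sm α β a.1, sm α β a.2) (sm α β b.1, sm α β b.2)
      (sm α β e.1, sm α β e.2) (sm α β g.1, sm α β g.2) Θ =
      PV3 X Q c a b e g (fun d => Θ (smD α β d)) := by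
  rw [PV3_eq (Three_sm hα h3) (P3_sm hα hc h), PV3_eq h3 h]
  unfold midQ
  apply Finset.sum_congr rfl
  intro i hi
  rw [Finset.mem_Ico] at hi
  have hl := h.lf (i := i) (by omega)
  obtain ⟨k1, k2, k3⟩ := hl.mem
  have e1 : c' (smD α β (f i)).1 = c (f i).1 := hc _ ⟨hl.1.1, k1⟩
  have e2 : c' (smD α β (f i)).2.1 = c (f i).2.1 := hc _ ⟨hl.1.2.1, k2⟩
  have e3 : c' (smD α β (f i)).2.2 = c (f i).2.2 := hc _ ⟨hl.1.2.2, k3⟩
  have hM : Mn c' (smD α β (f i)) ↔ Mn c (f i) := by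
    unfold Mn; rw [e1, e2, e3]
  have hD : DisQ (m1 + m2 + m3) (fun i => smD α β (f i)) i ↔ DisQ (m1 + m2 + m3) f i := by
    unfold DisQ
    constructor
    · intro hD x y h1 h2 h4 h5
      apply hD x y h1 h2 h4
      show sm α β (f x).1 = sm α β (f y).1
      rw [h5]
    · intro hD x y h1 h2 h4 h5
      exact hD x y h1 h2 h4 (sm_inj hα h5)
  rw [hM, hD]

section bridge

variable {X : Set ℂ} {b : ZMod 3 → ℂ} (h : HullTri X b) {V : Type*} (π : ℂ → V) (hπ : Fib X π)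
variable {Q : Set ℂ}

/-- Three consecutive confined tubes: the value of the middle piece is intrinsic. -/
theorem v3_eq_PV3 (hF : Faith X Q π) {σ : V → Bool} {a a1 a2 a3 : Fc X b × ZMod 3}
    {k1 k2 k3 : ℕ} (hb : (h.tri258 π hπ).Bi σ a)
    (hk1 : 0 < k1 ∧ k1 < H871.per (h.tri258 π hπ) σ a)
    (hk2 : 0 < k2 ∧ k2 < H871.per (h.tri258 π hπ) σ a)
    (hk3 : 0 < k3 ∧ k3 < H871.per (h.tri258 π hπ) σ a)
    (h1 : ((h.tri258 π hπ).st σ)^[k1] a = a1) (h2 : ((h.tri258 π hπ).st σ)^[k2] a1 = a2)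
    (h3 : ((h.tri258 π hπ).st σ)^[k3] a2 = a3)
    (hl : ∀ i < k1 + k2 + k3, LF X Q (dt (((h.tri258 π hπ).st σ)^[i] a))) (Θ : Dt → ℂ) :
    P3 X Q (pc π σ) (ed (dt a)) (ed (dt a1)) (ed (dt a2)) (ed (dt a3)) k1 k2 k3
        (fun i => dt (((h.tri258 π hπ).st σ)^[i] a)) ∧
      v3 (h.tri258 π hπ) σ a a1 a2 a3 (fun g => Θ (dt g)) =
        PV3 X Q (pc π σ) (ed (dt a)) (ed (dt a1)) (ed (dt a2)) (ed (dt a3)) Θ := by
  have := h.finite_Fc
  set T := h.tri258 π hπ with hT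
  have hp1 : H871.per T σ a1 = H871.per T σ a := by rw [← h1, H871.per_iter]
  have hp2 : H871.per T σ a2 = H871.per T σ a := by rw [← h2, H871.per_iter, hp1]
  have hb1 : T.Bi σ a1 := by rw [← h1, T.bi_iter]; exact hb
  have hb2 : T.Bi σ a2 := by rw [← h2, T.bi_iter]; exact hb1
  have s1 : ∀ i, (T.st σ)^[i] a1 = (T.st σ)^[k1 + i] a := by
    intro i; rw [← h1, ← iterate_add_apply, add_comm]
  have s2 : ∀ i, (T.st σ)^[i] a2 = (T.st σ)^[k1 + k2 + i] a := by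
    intro i; rw [← h2, ← iterate_add_apply, s1, show k1 + (i + k2) = k1 + k2 + i by ring]
  have hmin : ∀ {u v : Fc X b × ZMod 3} {k : ℕ}, k < H871.per T σ u → (T.st σ)^[k] u = v →
      ∀ i, 0 < i → i < k → (T.st σ)^[i] u ≠ v := by
    intro u v k hk huv i hi1 hi2 hi3
    have e1 : (T.st σ)^[i] u = (T.st σ)^[k] u := by rw [hi3, huv]
    have := (iterate_eq_iterate_iff_of_lt_minimalPeriod (lt_trans hi2 hk) hk).1 e1
    omega
  have q1 : PP X Q (pc π σ) (ed (dt a)) (ed (dt a1)) k1 (fun i => dt ((T.st σ)^[i] a)) :=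
    PP_of_iter h π hπ hb hk1.1 h1 (hmin hk1.2 h1) (fun i hi => hl i (by omega))
  have q2 : PP X Q (pc π σ) (ed (dt a1)) (ed (dt a2)) k2 (fun i => dt ((T.st σ)^[i] a1)) :=
    PP_of_iter h π hπ hb1 hk2.1 h2 (hmin (by rw [hp1]; exact hk2.2) h2)
      (fun i hi => by
        have := hl (k1 + i) (by omega)
        rw [← s1] at this
        exact this)
  have q3 : PP X Q (pc π σ) (ed (dt a2)) (ed (dt a3)) k3 (fun i => dt ((T.st σ)^[i] a2)) :=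
    PP_of_iter h π hπ hb2 hk3.1 h3 (hmin (by rw [hp2]; exact hk3.2) h3)
      (fun i hi => by
        have := hl (k1 + k2 + i) (by omega)
        rw [← s2] at this
        exact this)
  simp only [s1] at q2
  simp only [s2] at q3
  have hP3 : P3 X Q (pc π σ) (ed (dt a)) (ed (dt a1)) (ed (dt a2)) (ed (dt a3)) k1 k2 k3
      (fun i => dt ((T.st σ)^[i] a)) := ⟨q1, q2, q3⟩
  refine ⟨hP3, ?_⟩
  rw [PV3_eq h.three hP3]
  unfold v3 mid midQ
  rw [len_eq hk1.1 hk1.2 h1, len_eq hk2.1 (by rw [hp1]; exact hk2.2) h2,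
    len_eq hk3.1 (by rw [hp2]; exact hk3.2) h3]
  apply Finset.sum_congr rfl
  intro i hi
  rw [Finset.mem_Ico] at hi
  rw [mi_iff]
  have hD : H871.DisjOn T σ a 0 (k1 + k2 + k3) i ↔
      DisQ (k1 + k2 + k3) (fun i => dt ((T.st σ)^[i] a)) i := by
    constructor
    · intro hD x y h1 h2 h3 h4
      apply hD x y (Nat.zero_le _) h1 h2 h3
      show π _ = π _
      exact congrArg π h4
    · intro hD x y _ h1 h2 h3 h4
      apply hD x y h1 h2 h3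
      have hl' := hl x (by omega)
      exact hF _ hl'.1.1 hl'.mem.1 _ (h.nbr_th _).1 h4
  rw [hD]

end bridge

end Vale.Agent.P148.R2.H565
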