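import Vale.Agent.P148.R2.H565.Loc8

/-!
# The rim of an explored cluster facing the far component
-/

namespace Vale.Agent.P148.R2.H565

open Function Vale.Agent.P148.R2.H258 Vale.Agent.P148.R2.H871

variable {V D : Type*} {T : Tri V D}

/-- `v` is joined to `ω` off `E`. -/
def Far (T : Tri V D) (E : Set V) (ω v : V) : Prop :=
  v ∉ E ∧ ∃ l, T.Walk v ω l ∧ ∀ g ∈ l, T.src g ∉ E ∧ T.tgt g ∉ E

/-- The rim of `E` facing `ω`: the neighbours of `E` which are joined to `ω` off `E`. -/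
def rim (T : Tri V D) (E : Set V) (ω : V) : Set V :=
  {v | Far T E ω v ∧ ∃ d, T.src d = v ∧ T.tgt d ∈ E}

theorem Far.not_mem {E : Set V} {ω v : V} (h : Far T E ω v) : v ∉ E := h.1

theorem Far.target {E : Set V} {ω v : V} (h : Far T E ω v) : ω ∉ E := by
  obtain ⟨h1, l, h2, h3⟩ := h
  rcases walk_tgt_last h2 with h4 | ⟨g, hg, h4⟩
  · rw [h4]; exact h1
  · rw [← h4]; exact (h3 g hg).2

/-- A walk off `E` keeps the far component. -/
theorem Far.walk {E : Set V} {ω u v : V} (h : Far T E ω v) {l : List D} (hl : T.Walk u v l)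
    (hE : ∀ g ∈ l, T.src g ∉ E ∧ T.tgt g ∉ E) : Far T E ω u := by
  obtain ⟨h1, l', h2, h3⟩ := h
  refine ⟨?_, l ++ l', hl.append h2, fun g hg => ?_⟩
  · rcases hl.casesOn' with ⟨_, h4⟩ | ⟨d, l'', h4, h5, _⟩
    · rw [h4]; exact h1
    · rw [← h5]; exact (hE d (by rw [h4]; simp)).1
  · rcases List.mem_append.1 hg with hg | hg
    · exact hE g hg
    · exact h3 g hg

theorem rev_walk_off {E : Set V} {l : List D} (hE : ∀ g ∈ l, T.src g ∉ E ∧ T.tgt g ∉ E) :
    ∀ g ∈ (l.map T.rev).reverse, T.src g ∉ E ∧ T.tgt g ∉ E := by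
  intro g hg
  rw [List.mem_reverse, List.mem_map] at hg
  obtain ⟨g', hg', rfl⟩ := hg
  rw [T.src_rev, T.tgt_rev]
  exact ⟨(hE g' hg').2, (hE g' hg').1⟩

/-- Two far vertices are joined off `E`. -/
theorem Far.join {E : Set V} {ω u v : V} (h : Far T E ω u) (h' : Far T E ω v) :
    ∃ l, T.Walk u v l ∧ ∀ g ∈ l, T.src g ∉ E ∧ T.tgt g ∉ E := by
  obtain ⟨-, l, h2, h3⟩ := h
  obtain ⟨-, l', h2', h3'⟩ := h'
  refine ⟨l ++ (l'.map T.rev).reverse, h2.append h2'.reverse, fun g hg => ?_⟩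
  rcases List.mem_append.1 hg with hg | hg
  · exact h3 g hg
  · exact rev_walk_off h3' g hg

theorem Far.next {E : Set V} {ω : V} {d : D} (h : Far T E ω (T.src d)) (hd : T.tgt d ∉ E) :
    Far T E ω (T.tgt d) := by
  refine h.walk (u := T.tgt d) (l := [T.rev d]) ?_ ?_
  · have := Tri.Walk.single (T := T) (T.rev d)
    rwa [T.src_rev, T.tgt_rev] at this
  · intro g hg
    rw [List.mem_singleton] at hg
    subst hg
    rw [T.src_rev, T.tgt_rev]
    exact ⟨hd, h.1⟩

/-- **The rim facing the far component is connected.** -/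
theorem rim_conn [Finite D] (hPl : T.Planar) {E : Set V} (hE : WConn T E) (ω : V) :
    WConn T (rim T E ω) := by
  classical
  rintro x ⟨hx, dx, rfl, hdx⟩ y ⟨hy, dy, rfl, hdy⟩
  by_cases hxy : dy = dx
  · subst hxy
    exact ⟨[], Tri.Walk.nil _, by simp⟩
  set κ : V → Bool := fun v => if v ∈ E then true else false with hκ
  have k1 : ∀ v, v ∉ E → κ v = false := fun v hv => by simp [hκ, hv]
  have k2 : ∀ v, v ∈ E → κ v = true := fun v hv => by simp [hκ, hv]
  obtain ⟨p, h1, h2⟩ := hx.join hy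
  obtain ⟨q, h3, h4⟩ := hE _ hdy _ hdx
  have ht : Tube T κ dx dy p q := by
    refine ⟨?_, ?_, ?_, hxy, h1, h3, ?_, ?_⟩
    · unfold Tri.Bi; rw [k1 _ hx.1, k2 _ hdx]; decide
    · rw [k1 _ hx.1, k1 _ hy.1]
    · rw [k2 _ hdx, k2 _ hdy]
    · intro g hg
      rw [k1 _ (h2 g hg).1, k1 _ (h2 g hg).2, k1 _ hx.1]
      exact ⟨rfl, rfl⟩
    · intro g hg
      rw [k2 _ (h4 g hg).1, k2 _ (h4 g hg).2, k2 _ hdx]
      exact ⟨rfl, rfl⟩
  obtain ⟨N, hN, -⟩ := T.exists_pot hPl ht.closed dx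
  obtain ⟨n, -, -, hn, -, -⟩ := ht.two_feet hN
  have hsrc : ∀ i, T.src ((T.st κ)^[i] dx) ∉ E := by
    intro i hi
    have := T.col_src_iter κ dx i
    rw [k2 _ hi, k1 _ hx.1] at this
    exact absurd this (by decide)
  have htgt : ∀ i, T.tgt ((T.st κ)^[i] dx) ∈ E := by
    intro i
    by_contra hi
    have := T.col_tgt_iter κ dx i
    rw [k1 _ hi, k2 _ hdx] at this
    exact absurd this (by decide)
  have hoff : ∀ m, ∀ g ∈ T.lw κ dx m, T.src g ∉ E ∧ T.tgt g ∉ E := by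
    intro m g hg
    obtain ⟨i, -, e1, e2⟩ := T.lw_mem hg
    rw [e1, e2]
    exact ⟨hsrc _, hsrc _⟩
  have hrim : ∀ i, T.src ((T.st κ)^[i] dx) ∈ rim T E ω := by
    intro i
    refine ⟨?_, _, rfl, htgt i⟩
    have hw := T.lw_walk ht.bi i
    exact hx.walk hw.reverse (rev_walk_off (hoff i))
  have hw := T.lw_walk ht.bi n
  rw [hn] at hw
  refine ⟨_, hw, fun g hg => ?_⟩
  obtain ⟨i, -, e1, e2⟩ := T.lw_mem hg
  rw [e1, e2]
  exact ⟨hrim _, hrim _⟩

/-- **Leaving a cluster.** A walk from `E` to a far vertex leaves through the rim: its last part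
starts on the rim and is off `E` and off all neighbours of `E` afterwards. -/
theorem exit_rim {E : Set V} {ω : V} {u v : V} {l : List D} (hl : T.Walk u v l) (hu : u ∈ E)
    (hv : Far T E ω v) : ∃ x ∈ rim T E ω, ∃ l', l' <:+ l ∧ T.Walk x v l' ∧
      ∀ g ∈ l', Far T E ω (T.tgt g) ∧ T.tgt g ∉ rim T E ω := by
  classical
  -- last exit from `E`
  have key : ∀ {u v : V} {l : List D}, T.Walk u v l → Far T E ω v →
      (∀ g ∈ l, T.src g ∉ E ∧ T.tgt g ∉ E) ∧ u ∉ E ∨
      ∃ d l', (d :: l') <:+ l ∧ T.src d ∈ E ∧ T.tgt d ∉ E ∧ T.Walk (T.tgt d) v l' ∧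
        ∀ g ∈ l', T.src g ∉ E ∧ T.tgt g ∉ E := by
    intro u v l hl hv
    induction hl with
    | nil v => left; exact ⟨by simp, hv.1⟩
    | cons a w l hl ih =>
      rcases ih hv with ⟨h1, h2⟩ | ⟨d, l', h1, h2, h3, h4, h5⟩
      · by_cases ha : T.src a ∈ E
        · right
          exact ⟨a, l, List.suffix_refl _, ha, h2, hl, h1⟩
        · left
          refine ⟨?_, ha⟩
          intro g hg
          rcases List.mem_cons.1 hg with rfl | hg
          · exact ⟨ha, h2⟩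
          · exact h1 g hg
      · right
        exact ⟨d, l', h1.trans (List.suffix_cons _ _), h2, h3, h4, h5⟩
  rcases key hl hv with ⟨-, h2⟩ | ⟨d, l', h1, h2, h3, h4, h5⟩
  · exact absurd hu h2
  -- the part off `E` starts on the rim; take its last visit of the rim
  have hx0 : T.tgt d ∈ rim T E ω :=
    ⟨hv.walk h4 h5, T.rev d, rfl, by rw [T.tgt_rev]; exact h2⟩
  have key2 : ∀ {u v : V} {l : List D}, T.Walk u v l → Far T E ω v →
      (∀ g ∈ l, T.src g ∉ E ∧ T.tgt g ∉ E) →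
      ((∀ g ∈ l, T.tgt g ∉ rim T E ω) ∧ u ∉ rim T E ω) ∨
      ∃ x ∈ rim T E ω, ∃ l', l' <:+ l ∧ T.Walk x v l' ∧ ∀ g ∈ l', T.tgt g ∉ rim T E ω := by
    intro u v l hl hv hE
    induction hl with
    | nil v =>
      by_cases hr : v ∈ rim T E ω
      · right; exact ⟨v, hr, [], List.suffix_refl _, Tri.Walk.nil _, by simp⟩
      · left; exact ⟨by simp, hr⟩
    | cons a w l hl ih =>
      rcases ih hv (fun g hg => hE g (List.mem_cons_of_mem _ hg)) with ⟨h1, h2⟩ |
        ⟨x, hx, l', h1, h2, h3⟩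
      · have h3 : ∀ g ∈ a :: l, T.tgt g ∉ rim T E ω := by
          intro g hg
          rcases List.mem_cons.1 hg with rfl | hg
          · exact h2
          · exact h1 g hg
        by_cases hr : T.src a ∈ rim T E ω
        · right
          exact ⟨_, hr, a :: l, List.suffix_refl _, Tri.Walk.cons _ _ _ hl, h3⟩
        · left; exact ⟨h3, hr⟩
      · right
        exact ⟨x, hx, l', h1.trans (List.suffix_cons _ _), h2, h3⟩
  rcases key2 h4 hv h5 with ⟨-, h6⟩ | ⟨x, hx, l'', h6, h7, h8⟩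
  · exact absurd hx0 h6
  refine ⟨x, hx, l'', h6.trans ((List.suffix_cons _ _).trans h1), h7, fun g hg => ⟨?_, h8 g hg⟩⟩
  -- the tail after `g` is a walk to `v` off `E`
  have hoff : ∀ g ∈ l'', T.src g ∉ E ∧ T.tgt g ∉ E := fun g hg => h5 g (h6.subset hg)
  have key3 : ∀ {u v : V} {l : List D}, T.Walk u v l → Far T E ω v →
      (∀ g ∈ l, T.src g ∉ E ∧ T.tgt g ∉ E) → ∀ g ∈ l, Far T E ω (T.tgt g) := by
    intro u v l hl hv hE
    induction hl with
    | nil v => intro g hg; simp at hg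
    | cons a w l hl ih =>
      intro g hg
      rcases List.mem_cons.1 hg with rfl | hg
      · exact hv.walk hl (fun g hg => hE g (List.mem_cons_of_mem _ hg))
      · exact ih hv (fun g hg => hE g (List.mem_cons_of_mem _ hg)) g hg
  exact key3 h7 hv hoff g hg

end Vale.Agent.P148.R2.H565
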